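import Mathlib
import Claimed.Agent.R289.Defs.Frozen

/-!
# Row 289 (S0537), box PPP, file Ppp : POISSON PROCESSES BY VOID PROBABILITIES      (owner helper267)

Generic in the measurable space `E`:
* `Conf E` = a set of points (own structure), sigma-algebra GENERATED BY THE VOID EVENTS `Conf.void B = {η | η ∩ B = ∅}` (a pi-system) ; `Conf.ext_of_void` (Renyi: a finite measure is determined by its void probabilities), `Conf.measurable_of_void`
* operations `restr union image ins ofFn iUnion cell` + measurability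
* `IsPpp m μ` : `μ (void B) = expNeg (m B)` ; `IsPpp.unique map restr union splice indep iUnion`
* `infinitePi_prod_zip`
The frozen model (section 5): `PvPt = ℂ × Bool`, `pvPt ω k j`, `pvConf ω : Conf PvPt`, `cfCell`, `cfBlack`, `pvCell_eq`, `pvBlack_eq` (the frozen sets depend on `ω` only through `pvConf ω`),
`pvCoin`, `pvInt ε`, `pvBox k`, `pvP ε = (pvLaw ε).map pvConf`, `measurable_pvConf`.
-/

set_option autoImplicit false
set_option linter.unusedSectionVars false
set_option linter.style.haveILetI false

namespace Claimed.Agent.R289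

open MeasureTheory ProbabilityTheory Set Filter Topology
open scoped ENNReal NNReal

/-! ## 0. configurations, void sigma-algebra -/

/-- a configuration = a set of points of `E` (own type: `Set E` already carries another sigma-algebra) -/
@[ext] structure Conf (E : Type*) where
  pts : Set E

namespace Conf

variable {E : Type*}

/-- void event -/
def void (B : Set E) : Set (Conf E) := {η | η.pts ∩ B = ∅}

theorem mem_void {B : Set E} {η : Conf E} : η ∈ void B ↔ ∀ p ∈ η.pts, p ∉ B := by
  simp only [void, mem_ofPred_eq, Set.eq_empty_iff_forall_notMem, mem_inter_iff, not_and]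

theorem void_union (B C : Set E) : void (B ∪ C) = void B ∩ void C := by
  ext η
  simp only [mem_void, mem_inter_iff, mem_union, not_or]
  exact ⟨fun h => ⟨fun p hp => (h p hp).1, fun p hp => (h p hp).2⟩, fun h p hp => ⟨h.1 p hp, h.2 p hp⟩⟩

theorem void_empty : void (∅ : Set E) = univ := by
  ext η; simp [mem_void]

variable [MeasurableSpace E]

/-- the generating pi-system -/
def voids (E : Type*) [MeasurableSpace E] : Set (Set (Conf E)) := {s | ∃ B, MeasurableSet B ∧ s = void B}

instance : MeasurableSpace (Conf E) := MeasurableSpace.generateFrom (voids E)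

theorem measurableSet_void {B : Set E} (hB : MeasurableSet B) : MeasurableSet (void B) :=
  MeasurableSpace.measurableSet_generateFrom ⟨B, hB, rfl⟩

theorem isPiSystem_voids : IsPiSystem (voids E) := by
  rintro _ ⟨B, hB, rfl⟩ _ ⟨C, hC, rfl⟩ _
  exact ⟨B ∪ C, hB.union hC, (void_union B C).symm⟩

/-- **Renyi**: a finite measure on configurations is determined by its void probabilities -/
theorem ext_of_void {μ ν : Measure (Conf E)} [IsFiniteMeasure μ] (h : ∀ B, MeasurableSet B → μ (void B) = ν (void B)) : μ = ν := by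
  refine ext_of_generate_finite (voids E) rfl isPiSystem_voids ?_ ?_
  · rintro _ ⟨B, hB, rfl⟩; exact h B hB
  · have := h ∅ MeasurableSet.empty
    rwa [void_empty] at this

/-- a map into configurations is measurable iff the preimages of the void events are -/
theorem measurable_of_void {α : Type*} [MeasurableSpace α] {f : α → Conf E}
    (h : ∀ B, MeasurableSet B → MeasurableSet (f ⁻¹' void B)) : Measurable f := by
  refine measurable_generateFrom ?_
  rintro _ ⟨B, hB, rfl⟩; exact h B hB

/-! ## 1. operations -/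

def restr (O : Set E) (η : Conf E) : Conf E := ⟨η.pts ∩ O⟩
def union (η η' : Conf E) : Conf E := ⟨η.pts ∪ η'.pts⟩
def image {F : Type*} (g : E → F) (η : Conf E) : Conf F := ⟨g '' η.pts⟩
def ins (p : E) (η : Conf E) : Conf E := ⟨insert p η.pts⟩
def ofFn {n : ℕ} (x : Fin n → E) : Conf E := ⟨range x⟩

theorem measurable_restr {O : Set E} (hO : MeasurableSet O) : Measurable (restr O : Conf E → Conf E) := by
  refine measurable_of_void fun B hB => ?_
  have : restr O ⁻¹' void B = void (O ∩ B) := by
    ext η; simp only [mem_preimage, mem_void, restr, mem_inter_iff, not_and, and_imp]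
  rw [this]; exact measurableSet_void (hO.inter hB)

theorem measurable_union : Measurable fun x : Conf E × Conf E => union x.1 x.2 := by
  refine measurable_of_void fun B hB => ?_
  have : (fun x : Conf E × Conf E => union x.1 x.2) ⁻¹' void B = void B ×ˢ void B := by
    ext ⟨η, η'⟩
    simp only [mem_preimage, mem_void, union, mem_union, mem_prod]
    exact ⟨fun h => ⟨fun p hp => h p (Or.inl hp), fun p hp => h p (Or.inr hp)⟩, fun h p hp => hp.elim (h.1 p) (h.2 p)⟩
  rw [this]; exact (measurableSet_void hB).prod (measurableSet_void hB)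

theorem measurable_image {F : Type*} [MeasurableSpace F] {g : E → F} (hg : Measurable g) : Measurable (image g : Conf E → Conf F) := by
  refine measurable_of_void fun B hB => ?_
  have : image g ⁻¹' void B = void (g ⁻¹' B) := by
    ext η; simp only [mem_preimage, mem_void, image, mem_image, forall_exists_index, and_imp, forall_apply_eq_imp_iff₂]
  rw [this]; exact measurableSet_void (hg hB)

theorem measurable_ins : Measurable fun x : E × Conf E => ins x.1 x.2 := by
  refine measurable_of_void fun B hB => ?_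
  have : (fun x : E × Conf E => ins x.1 x.2) ⁻¹' void B = Bᶜ ×ˢ void B := by
    ext ⟨p, η⟩
    simp only [mem_preimage, mem_void, ins, mem_insert_iff, forall_eq_or_imp, mem_prod, mem_compl_iff]
  rw [this]; exact hB.compl.prod (measurableSet_void hB)

theorem measurable_ofFn (n : ℕ) : Measurable (ofFn : (Fin n → E) → Conf E) := by
  refine measurable_of_void fun B hB => ?_
  have : (ofFn : (Fin n → E) → Conf E) ⁻¹' void B = ⋂ i, (fun x : Fin n → E => x i) ⁻¹' Bᶜ := by
    ext x; simp only [mem_preimage, mem_void, ofFn, mem_range, forall_exists_index, forall_apply_eq_imp_iff, mem_iInter, mem_compl_iff]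
  rw [this]; exact MeasurableSet.iInter fun i => (measurable_pi_apply i) hB.compl

end Conf

/-! ## 2. Poisson laws -/

/-- `e^{-x}`, `x ∈ [0,∞]` -/
noncomputable def expNeg (x : ℝ≥0∞) : ℝ≥0∞ := if x = ∞ then 0 else ENNReal.ofReal (Real.exp (-x.toReal))

theorem expNeg_zero : expNeg 0 = 1 := by simp [expNeg]

theorem expNeg_add (x y : ℝ≥0∞) : expNeg (x + y) = expNeg x * expNeg y := by
  unfold expNeg
  by_cases hx : x = ∞
  · simp [hx]
  by_cases hy : y = ∞
  · simp [hy]
  rw [if_neg hx, if_neg hy, if_neg (ENNReal.add_ne_top.2 ⟨hx, hy⟩), ENNReal.toReal_add hx hy, neg_add, Real.exp_add,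
    ENNReal.ofReal_mul (Real.exp_pos _).le]

variable {E : Type*} [MeasurableSpace E]

/-- `μ` is the law of the Poisson process of intensity measure `m` -/
structure IsPpp (m : Measure E) (μ : Measure (Conf E)) : Prop where
  void : ∀ B, MeasurableSet B → μ (Conf.void B) = expNeg (m B)

namespace IsPpp

variable {m m' : Measure E} {μ μ' : Measure (Conf E)}

theorem prob (h : IsPpp m μ) : IsProbabilityMeasure μ := ⟨by
  have := h.void ∅ MeasurableSet.empty
  rwa [Conf.void_empty, measure_empty, expNeg_zero] at this⟩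

/-- uniqueness -/
theorem unique (h : IsPpp m μ) (h' : IsPpp m μ') : μ = μ' := by
  have := h.prob
  exact Conf.ext_of_void fun B hB => by rw [h.void B hB, h'.void B hB]

/-- mapping theorem -/
theorem map {F : Type*} [MeasurableSpace F] (h : IsPpp m μ) {g : E → F} (hg : Measurable g) :
    IsPpp (m.map g) (μ.map (Conf.image g)) := ⟨fun B hB => by
  rw [Measure.map_apply (Conf.measurable_image hg) (Conf.measurableSet_void hB), Measure.map_apply hg hB]
  have : Conf.image g ⁻¹' Conf.void B = Conf.void (g ⁻¹' B) := by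
    ext η; simp only [mem_preimage, Conf.mem_void, Conf.image, mem_image, forall_exists_index, and_imp, forall_apply_eq_imp_iff₂]
  rw [this]; exact h.void _ (hg hB)⟩

/-- restriction theorem -/
theorem restr (h : IsPpp m μ) {O : Set E} (hO : MeasurableSet O) : IsPpp (m.restrict O) (μ.map (Conf.restr O)) := ⟨fun B hB => by
  rw [Measure.map_apply (Conf.measurable_restr hO) (Conf.measurableSet_void hB), Measure.restrict_apply hB]
  have : Conf.restr O ⁻¹' Conf.void B = Conf.void (B ∩ O) := by
    ext η; simp only [mem_preimage, Conf.mem_void, Conf.restr, mem_inter_iff, not_and, and_imp]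
    exact ⟨fun h p hp hB hO => h p hp hO hB, fun h p hp hO hB => h p hp hB hO⟩
  rw [this]; exact h.void _ (hB.inter hO)⟩

/-- superposition theorem -/
theorem union (h : IsPpp m μ) (h' : IsPpp m' μ') : IsPpp (m + m') ((μ.prod μ').map fun x => Conf.union x.1 x.2) := ⟨fun B hB => by
  have := h.prob
  have := h'.prob
  rw [Measure.map_apply Conf.measurable_union (Conf.measurableSet_void hB)]
  have : (fun x : Conf E × Conf E => Conf.union x.1 x.2) ⁻¹' Conf.void B = Conf.void B ×ˢ Conf.void B := by
    ext ⟨η, η'⟩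
    simp only [mem_preimage, Conf.mem_void, Conf.union, mem_union, mem_prod]
    exact ⟨fun h => ⟨fun p hp => h p (Or.inl hp), fun p hp => h p (Or.inr hp)⟩, fun h p hp => hp.elim (h.1 p) (h.2 p)⟩
  rw [this, Measure.prod_prod, h.void B hB, h'.void B hB, Measure.add_apply, expNeg_add]⟩

/-- **SPLICE** = conditional resampling outside `O` -/
theorem splice (h : IsPpp m μ) {O : Set E} (hO : MeasurableSet O) :
    (μ.prod μ).map (fun x => Conf.union (Conf.restr O x.1) (Conf.restr Oᶜ x.2)) = μ := by
  have := h.prob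
  have h1 := (h.restr hO).union (h.restr hO.compl)
  rw [Measure.restrict_add_restrict_compl hO] at h1
  refine IsPpp.unique ?_ h
  have e : ((μ.map (Conf.restr O)).prod (μ.map (Conf.restr Oᶜ))).map (fun x => Conf.union x.1 x.2)
      = (μ.prod μ).map (fun x => Conf.union (Conf.restr O x.1) (Conf.restr Oᶜ x.2)) := by
    rw [Measure.map_prod_map _ _ (Conf.measurable_restr hO) (Conf.measurable_restr hO.compl),
      Measure.map_map Conf.measurable_union ((Conf.measurable_restr hO).prodMap (Conf.measurable_restr hO.compl))]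
    rfl
  rw [← e]; exact h1

/-- **IND**: the restrictions to `O` and to its complement are independent -/
theorem indep (h : IsPpp m μ) {O : Set E} (hO : MeasurableSet O) : IndepFun (Conf.restr O) (Conf.restr Oᶜ) μ := by
  have := h.prob
  have key : ∀ (U : Set E), MeasurableSet U → MeasurableSpace.comap (Conf.restr U) (inferInstance : MeasurableSpace (Conf E))
      = MeasurableSpace.generateFrom {s | ∃ t ∈ Conf.voids E, Conf.restr U ⁻¹' t = s} := by
    intro U _
    have : (inferInstance : MeasurableSpace (Conf E)) = MeasurableSpace.generateFrom (Conf.voids E) := rfl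
    rw [this, MeasurableSpace.comap_generateFrom]
    rfl
  refine IndepSets.indep (Conf.measurable_restr hO).comap_le (Conf.measurable_restr hO.compl).comap_le
    (Conf.isPiSystem_voids.comap _) (Conf.isPiSystem_voids.comap _) (key O hO) (key Oᶜ hO.compl) ?_
  rw [IndepSets_iff]
  rintro _ _ ⟨_, ⟨B, hB, rfl⟩, rfl⟩ ⟨_, ⟨C, hC, rfl⟩, rfl⟩
  have e : ∀ (U D : Set E), Conf.restr U ⁻¹' Conf.void D = Conf.void (D ∩ U) := by
    intro U D
    ext η; simp only [mem_preimage, Conf.mem_void, Conf.restr, mem_inter_iff, not_and, and_imp]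
    exact ⟨fun h p hp hB hO => h p hp hO hB, fun h p hp hO hB => h p hp hB hO⟩
  rw [e, e, ← Conf.void_union, h.void _ ((hB.inter hO).union (hC.inter hO.compl)), h.void _ (hB.inter hO),
    h.void _ (hC.inter hO.compl), ← expNeg_add, measure_union _ (hC.inter hO.compl)]
  exact Set.disjoint_left.2 fun p hp hp' => hp'.2 hp.2

end IsPpp

/-! ## 3. infinite products; countable superposition; the mixed binomial construction -/

theorem expNeg_eq (x : ℝ≥0∞) : expNeg x = EReal.exp (-(x : EReal)) := by
  unfold expNeg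
  by_cases hx : x = ∞
  · simp [hx]
  · rw [if_neg hx]
    lift x to ℝ≥0 using hx
    have : (-(((x : ℝ≥0∞)) : EReal)) = ((-(x : ℝ) : ℝ) : EReal) := by
      rw [EReal.coe_neg]; rfl
    rw [this, EReal.exp_coe]
    simp

theorem continuous_expNeg : Continuous expNeg := by
  have : expNeg = fun x : ℝ≥0∞ => EReal.exp (-(x : EReal)) := funext expNeg_eq
  rw [this]
  exact ENNReal.continuous_exp.comp (continuous_neg.comp continuous_coe_ennreal_ereal)

theorem expNeg_le_one (x : ℝ≥0∞) : expNeg x ≤ 1 := by
  unfold expNeg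
  split_ifs
  · exact zero_le
  · rw [ENNReal.ofReal_le_one, Real.exp_le_one_iff]
    simp

theorem expNeg_finset_sum {ι : Type*} (s : Finset ι) (a : ι → ℝ≥0∞) : expNeg (∑ i ∈ s, a i) = ∏ i ∈ s, expNeg (a i) := by
  classical
  induction s using Finset.induction_on with
  | empty => simp [expNeg_zero]
  | insert i s hi ih => rw [Finset.sum_insert hi, Finset.prod_insert hi, expNeg_add, ih]

theorem tprod_expNeg {ι : Type*} (a : ι → ℝ≥0∞) : ∏' i, expNeg (a i) = expNeg (∑' i, a i) := by
  have h1 : Tendsto (fun s : Finset ι => ∑ i ∈ s, a i) atTop (𝓝 (∑' i, a i)) := ENNReal.summable.hasSum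
  have h2 := (continuous_expNeg.tendsto _).comp h1
  have h3 : HasProd (fun i => expNeg (a i)) (expNeg (∑' i, a i)) := by
    refine h2.congr fun s => ?_
    exact expNeg_finset_sum s a
  exact h3.tprod_eq

/-- zipping two infinite products -/
theorem infinitePi_prod_zip {ι : Type*} {X Y : ι → Type*} [∀ i, MeasurableSpace (X i)] [∀ i, MeasurableSpace (Y i)]
    (μ : ∀ i, Measure (X i)) (ν : ∀ i, Measure (Y i)) [∀ i, IsProbabilityMeasure (μ i)] [∀ i, IsProbabilityMeasure (ν i)] :
    ((Measure.infinitePi μ).prod (Measure.infinitePi ν)).map (fun p i => (p.1 i, p.2 i))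
      = Measure.infinitePi (fun i => (μ i).prod (ν i)) := by
  apply Measure.eq_infinitePi
  intro s t ht
  have hm : Measurable (fun (p : (∀ i, X i) × (∀ i, Y i)) i => (p.1 i, p.2 i)) := by fun_prop
  have hS : MeasurableSet (Set.pi (s : Set ι) t) := MeasurableSet.pi s.countable_toSet fun i _ => ht i
  rw [Measure.map_apply hm hS, Measure.prod_apply (hm hS)]
  have h1 : ∀ x : ∀ i, X i, Measure.infinitePi ν (Prod.mk x ⁻¹' ((fun (p : (∀ i, X i) × (∀ i, Y i)) i => (p.1 i, p.2 i)) ⁻¹' Set.pi (s : Set ι) t))
      = ∏ i ∈ s, ν i (Prod.mk (x i) ⁻¹' t i) := by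
    intro x
    have : Prod.mk x ⁻¹' ((fun (p : (∀ i, X i) × (∀ i, Y i)) i => (p.1 i, p.2 i)) ⁻¹' Set.pi (s : Set ι) t)
        = Set.pi (s : Set ι) fun i => Prod.mk (x i) ⁻¹' t i := by
      ext y; simp [Set.mem_pi]
    rw [this, Measure.infinitePi_pi _ fun i _ => measurable_prodMk_left (ht i)]
  simp_rw [h1]
  have hf : ∀ i, Measurable fun a : X i => ν i (Prod.mk a ⁻¹' t i) := fun i => measurable_measure_prodMk_left (ht i)
  have h2 := lintegral_prod_eq_prod_lintegral_of_indepFun (μ := Measure.infinitePi μ) s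
    (fun i (x : ∀ i, X i) => ν i (Prod.mk (x i) ⁻¹' t i)) (iIndepFun_infinitePi (P := μ) hf)
    (fun i => (hf i).comp (measurable_pi_apply i))
  rw [h2]
  refine Finset.prod_congr rfl fun i _ => ?_
  rw [Measure.prod_apply (ht i), ← (measurePreserving_eval_infinitePi μ i).lintegral_comp (hf i)]

namespace Conf

variable {E : Type*} [MeasurableSpace E]

def iUnion {ι : Type*} (f : ι → Conf E) : Conf E := ⟨⋃ k, (f k).pts⟩

theorem iUnion_preimage_void {ι : Type*} (B : Set E) :
    (iUnion : (ι → Conf E) → Conf E) ⁻¹' void B = Set.pi univ fun _ => void B := by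
  ext f
  simp only [mem_preimage, mem_void, iUnion, mem_iUnion, forall_exists_index, Set.mem_pi, mem_univ, forall_true_left]
  exact ⟨fun h k p hp => h p k hp, fun h p k hp => h k p hp⟩

theorem measurable_iUnion {ι : Type*} [Countable ι] : Measurable (iUnion : (ι → Conf E) → Conf E) := by
  refine measurable_of_void fun B hB => ?_
  rw [iUnion_preimage_void]
  exact MeasurableSet.pi countable_univ fun _ _ => measurableSet_void hB

/-- the first `n` terms of a sequence -/
def cell (y : ℕ × (ℕ → E)) : Conf E := ⟨{p | ∃ j < y.1, p = y.2 j}⟩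

theorem cell_preimage_void (B : Set E) :
    (cell : ℕ × (ℕ → E) → Conf E) ⁻¹' void B = {y | ∀ j < y.1, y.2 j ∉ B} := by
  ext y
  simp only [mem_preimage, mem_void, cell, mem_ofPred_eq, forall_exists_index, and_imp]
  exact ⟨fun h j hj => h _ j hj rfl, fun h p j hj hp => hp ▸ h j hj⟩

theorem measurableSet_cell_void {B : Set E} (hB : MeasurableSet B) : MeasurableSet {y : ℕ × (ℕ → E) | ∀ j < y.1, y.2 j ∉ B} := by
  have : {y : ℕ × (ℕ → E) | ∀ j < y.1, y.2 j ∉ B} = ⋂ j : ℕ, ({y | y.1 ≤ j} ∪ {y | y.2 j ∈ Bᶜ}) := by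
    ext y
    simp only [mem_ofPred_eq, mem_iInter, mem_union, mem_compl_iff]
    exact ⟨fun h j => (le_or_gt y.1 j).imp id (h j), fun h j hj => (h j).resolve_left (not_le.2 hj)⟩
  rw [this]
  refine MeasurableSet.iInter fun j => MeasurableSet.union ?_ ?_
  · exact measurable_fst (measurableSet_Iic (a := j))
  · exact ((measurable_pi_apply j).comp measurable_snd) hB.compl

theorem measurable_cell : Measurable (cell : ℕ × (ℕ → E) → Conf E) := by
  refine measurable_of_void fun B hB => ?_
  rw [cell_preimage_void]; exact measurableSet_cell_void hB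

end Conf

namespace IsPpp

variable {E : Type*} [MeasurableSpace E]

/-- countable superposition -/
theorem iUnion {ι : Type*} [Countable ι] {m : ι → Measure E} {μ : ι → Measure (Conf E)} (h : ∀ k, IsPpp (m k) (μ k)) :
    haveI := fun k => (h k).prob
    IsPpp (Measure.sum m) ((Measure.infinitePi μ).map Conf.iUnion) := by
  haveI := fun k => (h k).prob
  refine ⟨fun B hB => ?_⟩
  rw [Measure.map_apply Conf.measurable_iUnion (Conf.measurableSet_void hB), Conf.iUnion_preimage_void,
    Measure.infinitePi_pi_univ _ fun _ => Conf.measurableSet_void hB, Measure.sum_apply _ hB, ← tprod_expNeg]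
  exact tprod_congr fun k => (h k).void B hB

end IsPpp

/-! ## 5. the frozen model as a coloured configuration -/

section pv

open Claims.C0465

/-- a coloured point -/
abbrev PvPt := ℂ × Bool

/-- the shift of the unit cell `k` -/
def pvShift (k : ℤ × ℤ) (u : (ℝ × ℝ) × Bool) : PvPt := (⟨(k.1 : ℝ) + u.1.1, (k.2 : ℝ) + u.1.2⟩, u.2)

/-- the coloured point of index `(k, j)` -/
def pvPt (ω : PVSample) (k : ℤ × ℤ) (j : ℕ) : PvPt := (pvSite ω k j, (ω.2 (k, j)).2)

theorem pvPt_eq (ω : PVSample) (k : ℤ × ℤ) (j : ℕ) : pvPt ω k j = pvShift k (ω.2 (k, j)) := rfl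

/-- the coloured configuration of a sample -/
def pvConf (ω : PVSample) : Conf PvPt := ⟨{p | ∃ (k : ℤ × ℤ) (j : ℕ), j < ω.1 k ∧ p = pvPt ω k j}⟩

/-- the data of the cell `k` -/
def pvTh (ω : PVSample) (k : ℤ × ℤ) : ℕ × (ℕ → (ℝ × ℝ) × Bool) := (ω.1 k, fun j => ω.2 (k, j))

theorem pvConf_eq (ω : PVSample) : pvConf ω = Conf.iUnion fun k => Conf.image (pvShift k) (Conf.cell (pvTh ω k)) := by
  ext p
  simp only [pvConf, Conf.iUnion, Conf.image, Conf.cell, pvTh, mem_ofPred_eq, mem_iUnion, mem_image]
  constructor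
  · rintro ⟨k, j, hj, rfl⟩
    exact ⟨k, _, ⟨j, hj, rfl⟩, rfl⟩
  · rintro ⟨k, _, ⟨j, hj, rfl⟩, rfl⟩
    exact ⟨k, j, hj, rfl⟩

/-- Voronoi cell of `v` in a coloured configuration -/
def cfCell (η : Conf PvPt) (v : ℂ) : Set ℂ := {z | ∀ p ∈ η.pts, ‖z - v‖ ≤ ‖z - p.1‖}

/-- the black set of a coloured configuration -/
def cfBlack (η : Conf PvPt) : Set ℂ := {z | ∃ p ∈ η.pts, p.2 = true ∧ z ∈ cfCell η p.1}

theorem pvCell_eq (ω : PVSample) (v : ℂ) : pvCell ω v = cfCell (pvConf ω) v := by
  ext z
  simp only [pvCell, cfCell, pvConf, mem_ofPred_eq]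
  constructor
  · rintro h _ ⟨k, j, hj, rfl⟩
    exact h k j hj
  · intro h k j hj
    exact h _ ⟨k, j, hj, rfl⟩

theorem pvBlack_eq (ω : PVSample) : pvBlack ω = cfBlack (pvConf ω) := by
  ext z
  simp only [pvBlack, cfBlack, mem_iUnion, mem_ofPred_eq, pvCell_eq, exists_prop]
  constructor
  · rintro ⟨k, j, hj, hc, hz⟩
    exact ⟨pvPt ω k j, ⟨k, j, hj, rfl⟩, hc, hz⟩
  · rintro ⟨_, ⟨k, j, hj, rfl⟩, hc, hz⟩
    exact ⟨k, j, hj, hc, hz⟩

/-- the fair coin -/
noncomputable def pvCoin : Measure Bool := (PMF.uniformOfFintype Bool).toMeasure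

instance : IsProbabilityMeasure pvCoin := by unfold pvCoin; infer_instance

/-- the intensity measure of the coloured process at mesh `ε` -/
noncomputable def pvInt (ε : ℝ) : Measure PvPt := ENNReal.ofReal ((ε⁻¹) ^ 2) • ((volume : Measure ℂ).prod pvCoin)

/-- the unit cell `k` (with both colours) -/
def pvBox (k : ℤ × ℤ) : Set PvPt := {p | p.1.re ∈ Ico (k.1 : ℝ) (k.1 + 1) ∧ p.1.im ∈ Ico (k.2 : ℝ) (k.2 + 1)}

/-- the law of the coloured configuration -/
noncomputable def pvP (ε : ℝ) : Measure (Conf PvPt) := (pvLaw ε).map pvConf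

theorem measurable_pvShift (k : ℤ × ℤ) : Measurable (pvShift k) := by
  unfold pvShift
  refine Measurable.prodMk ?_ (by fun_prop)
  have : (fun u : (ℝ × ℝ) × Bool => (⟨(k.1 : ℝ) + u.1.1, (k.2 : ℝ) + u.1.2⟩ : ℂ))
      = fun u => Complex.equivRealProdCLM.symm ((k.1 : ℝ) + u.1.1, (k.2 : ℝ) + u.1.2) := by
    funext u; apply Complex.ext <;> simp
  rw [this]
  exact Complex.equivRealProdCLM.symm.continuous.measurable.comp (by fun_prop)

theorem measurable_pvTh : Measurable pvTh := by
  unfold pvTh
  fun_prop

theorem measurable_pvConf : Measurable pvConf := by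
  have : pvConf = fun ω => Conf.iUnion fun k => Conf.image (pvShift k) (Conf.cell (pvTh ω k)) := funext pvConf_eq
  rw [this]
  refine Conf.measurable_iUnion.comp (measurable_pi_lambda _ fun k => ?_)
  exact (Conf.measurable_image (measurable_pvShift k)).comp (Conf.measurable_cell.comp ((measurable_pi_apply k).comp measurable_pvTh))

end pv

end Claimed.Agent.R289
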