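-- KEEP
import Claimed.Agent.R289.Ppp

/-!
# Row 289 (S0537), box PPP, file PppCnt : COUNTS AND MEASURABLE ENUMERATION (bridge T2)      (typed by helper267, owner helper170; prefix `pvcn_`)

GOAL: measurability on `Conf PvPt` (void sigma-algebra) can be checked on the frozen sample space `PVSample` (countable quantifiers over the indices `(k, j)`):
`pvcn_section` : a MEASURABLE right inverse `s` of `pvConf` on the locally finite configurations, hence `pvcn_bridge`.
ROUTE.  (C1) counts: `n ≤ #(η ∩ B)` iff at some level `N` of `MeasurableSpace.countablePartition E N` (finite, nested, separates points) at least `n` cells meet `η ∩ B`: a countable union of finite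
intersections of complements of void events.  (C2) enumeration of a finite `η ∩ B`: take a measurable embedding `φ : E → ℝ` (`MeasureTheory.exists_measurableEmbedding_real`), `t_i = i`-th smallest value:
`{t_i ≤ a} = {i + 1 ≤ #(η ∩ B ∩ φ⁻¹ Iic a)}`, `X_i = φ.invFun t_i`.  (C3) glue over the unit cells `pvBox k`, shift back by `k`.
-/

set_option autoImplicit false
set_option linter.unusedSectionVars false

namespace Claimed.Agent.R289

open MeasureTheory ProbabilityTheory Set Filter Topology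
open scoped ENNReal NNReal
open Claims.C0465

variable {E : Type*} [MeasurableSpace E]

/-- number of points in `B` -/
noncomputable def Conf.cnt (B : Set E) (η : Conf E) : ℕ∞ := (η.pts ∩ B).encard

/-- splitting off the point with the least value of an injective real function -/
theorem pvcn_split {φ : E → ℝ} (hφ : Function.Injective φ) (S : Set E) (n : ℕ) :
    ((n + 2 : ℕ) : ℕ∞) ≤ S.encard ↔ ∃ q : ℚ, (S ∩ φ ⁻¹' Iic (q : ℝ)).Nonempty ∧ ((n + 1 : ℕ) : ℕ∞) ≤ (S ∩ φ ⁻¹' Ioi (q : ℝ)).encard := by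
  constructor
  · intro h
    obtain ⟨T, hTS, hT⟩ := Set.exists_subset_encard_eq h
    have hTf : T.Finite := by
      rw [← Set.encard_ne_top_iff, hT]
      exact ENat.natCast_ne_top _
    have hTne : T.Nonempty := by
      rw [← Set.one_le_encard_iff_nonempty, hT]
      exact_mod_cast Nat.le_add_left 1 (n + 1)
    obtain ⟨p0, hp0, hmin0⟩ := Set.exists_min_image T φ hTf hTne
    have hT' : (T \ {p0}).encard = ((n + 1 : ℕ) : ℕ∞) := by
      have := Set.encard_sdiff_singleton_add_one hp0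
      rw [hT] at this
      have e : ((n + 2 : ℕ) : ℕ∞) = ((n + 1 : ℕ) : ℕ∞) + 1 := by push_cast; ring
      rw [e] at this
      exact ENat.add_left_injective_of_ne_top ENat.one_ne_top this
    have hT'ne : (T \ {p0}).Nonempty := by
      rw [← Set.one_le_encard_iff_nonempty, hT']
      exact_mod_cast Nat.le_add_left 1 n
    obtain ⟨p1, hp1, hmin1⟩ := Set.exists_min_image (T \ {p0}) φ (hTf.subset Set.sdiff_subset) hT'ne
    have hlt : φ p0 < φ p1 := by
      refine lt_of_le_of_ne (hmin0 p1 hp1.1) fun he => hp1.2 ?_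
      exact (hφ he).symm
    obtain ⟨q, hq0, hq1⟩ := exists_rat_btwn hlt
    refine ⟨q, ⟨p0, hTS hp0, hq0.le⟩, ?_⟩
    rw [← hT']
    refine Set.encard_le_encard fun p hp => ⟨hTS hp.1, ?_⟩
    exact lt_of_lt_of_le hq1 (hmin1 p hp)
  · rintro ⟨q, hne, hn⟩
    have hd : Disjoint (S ∩ φ ⁻¹' Iic (q : ℝ)) (S ∩ φ ⁻¹' Ioi (q : ℝ)) := by
      rw [Set.disjoint_left]
      rintro p ⟨-, h1⟩ ⟨-, h2⟩
      exact absurd (show φ p ≤ q from h1) (not_le.2 h2)
    have h1 : (1 : ℕ∞) ≤ (S ∩ φ ⁻¹' Iic (q : ℝ)).encard := Set.one_le_encard_iff_nonempty.2 hne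
    calc ((n + 2 : ℕ) : ℕ∞) = 1 + ((n + 1 : ℕ) : ℕ∞) := by push_cast; ring
      _ ≤ (S ∩ φ ⁻¹' Iic (q : ℝ)).encard + (S ∩ φ ⁻¹' Ioi (q : ℝ)).encard := add_le_add h1 hn
      _ = ((S ∩ φ ⁻¹' Iic (q : ℝ)) ∪ (S ∩ φ ⁻¹' Ioi (q : ℝ))).encard := (Set.encard_union_eq hd).symm
      _ ≤ S.encard := Set.encard_le_encard (Set.union_subset Set.inter_subset_left Set.inter_subset_left)

theorem pvcn_one_le {B : Set E} (hB : MeasurableSet B) : MeasurableSet {η : Conf E | (η.pts ∩ B).Nonempty} := by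
  have : {η : Conf E | (η.pts ∩ B).Nonempty} = (Conf.void B)ᶜ := by
    ext η
    simp only [mem_ofPred_eq, mem_compl_iff, Conf.void, Set.nonempty_iff_ne_empty, ne_eq]
  rw [this]
  exact (Conf.measurableSet_void hB).compl

/-- (C1) counts are measurable for the void sigma-algebra -/
theorem pvcn_le_cnt [StandardBorelSpace E] {B : Set E} (hB : MeasurableSet B) (n : ℕ) : MeasurableSet {η : Conf E | (n : ℕ∞) ≤ Conf.cnt B η} := by
  obtain ⟨φ, hφ⟩ := exists_measurableEmbedding_real E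
  induction n generalizing B with
  | zero => simp
  | succ n ih =>
    cases n with
    | zero =>
      have : {η : Conf E | ((0 + 1 : ℕ) : ℕ∞) ≤ Conf.cnt B η} = {η : Conf E | (η.pts ∩ B).Nonempty} := by
        ext η
        simp only [mem_ofPred_eq, Conf.cnt]
        rw [← Set.one_le_encard_iff_nonempty]
        norm_num
      rw [this]
      exact pvcn_one_le hB
    | succ n =>
      have : {η : Conf E | ((n + 1 + 1 : ℕ) : ℕ∞) ≤ Conf.cnt B η}
          = ⋃ q : ℚ, ({η : Conf E | (η.pts ∩ (B ∩ φ ⁻¹' Iic (q : ℝ))).Nonempty}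
              ∩ {η : Conf E | ((n + 1 : ℕ) : ℕ∞) ≤ Conf.cnt (B ∩ φ ⁻¹' Ioi (q : ℝ)) η}) := by
        ext η
        simp only [mem_ofPred_eq, Conf.cnt, mem_iUnion, mem_inter_iff]
        rw [pvcn_split hφ.injective (η.pts ∩ B) n]
        simp only [Set.inter_assoc]
      rw [this]
      exact MeasurableSet.iUnion fun q => (pvcn_one_le (hB.inter (hφ.measurable measurableSet_Iic))).inter
        (ih (hB.inter (hφ.measurable measurableSet_Ioi)))

theorem pvcn_cnt_eq [StandardBorelSpace E] {B : Set E} (hB : MeasurableSet B) (n : ℕ) : MeasurableSet {η : Conf E | Conf.cnt B η = n} := by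
  have : {η : Conf E | Conf.cnt B η = n} = {η : Conf E | (n : ℕ∞) ≤ Conf.cnt B η} \ {η : Conf E | ((n + 1 : ℕ) : ℕ∞) ≤ Conf.cnt B η} := by
    ext η
    simp only [mem_ofPred_eq, Set.mem_sdiff, not_le]
    constructor
    · intro h
      rw [h]
      exact ⟨le_rfl, by exact_mod_cast Nat.lt_succ_self n⟩
    · rintro ⟨h1, h2⟩
      refine le_antisymm ?_ h1
      have : Conf.cnt B η < (n : ℕ∞) + 1 := by exact_mod_cast h2
      exact Order.le_of_lt_add_one this
  rw [this]
  exact (pvcn_le_cnt hB n).diff (pvcn_le_cnt hB (n + 1))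

theorem pvcn_fin [StandardBorelSpace E] {B : Set E} (hB : MeasurableSet B) : MeasurableSet {η : Conf E | (η.pts ∩ B).Finite} := by
  have : {η : Conf E | (η.pts ∩ B).Finite} = ⋃ n : ℕ, {η : Conf E | Conf.cnt B η = n} := by
    ext η
    simp only [mem_ofPred_eq, mem_iUnion, Conf.cnt]
    constructor
    · intro h
      exact ⟨(η.pts ∩ B).ncard, h.cast_ncard_eq.symm⟩
    · rintro ⟨n, hn⟩
      rw [← Set.encard_ne_top_iff, hn]
      exact ENat.natCast_ne_top _
  rw [this]
  exact MeasurableSet.iUnion fun n => pvcn_cnt_eq hB n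

theorem pvcn_ncard [StandardBorelSpace E] {B : Set E} (hB : MeasurableSet B) : Measurable fun η : Conf E => (η.pts ∩ B).ncard := by
  refine measurable_to_countable' fun n => ?_
  have : (fun η : Conf E => (η.pts ∩ B).ncard) ⁻¹' {n}
      = {η : Conf E | Conf.cnt B η = n} ∪ ({η : Conf E | (η.pts ∩ B).Finite}ᶜ ∩ {_η : Conf E | n = 0}) := by
    ext η
    simp only [mem_preimage, mem_singleton_iff, mem_union, mem_ofPred_eq, mem_inter_iff, mem_compl_iff, Conf.cnt]
    by_cases hf : (η.pts ∩ B).Finite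
    · rw [← hf.cast_ncard_eq]
      simp [hf]
    · have h1 : (η.pts ∩ B).ncard = 0 := Set.Infinite.ncard hf
      have h2 : (η.pts ∩ B).encard = ⊤ := Set.Infinite.encard_eq hf
      rw [h1, h2]
      simp [hf, eq_comm]
  rw [this]
  exact (pvcn_cnt_eq hB n).union ((pvcn_fin hB).compl.inter (MeasurableSet.const _))

/-- the `j`-th smallest element of a finite set of reals, by counting -/
theorem pvcn_rank (s : Finset ℝ) {N : ℕ} (h : s.card = N) (j : Fin N) (a : ℝ) :
    (j : ℕ) + 1 ≤ (s.filter (· ≤ a)).card ↔ s.orderEmbOfFin h j ≤ a := by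
  constructor
  · intro hc
    by_contra hcon
    rw [not_le] at hcon
    have hsub : s.filter (· ≤ a) ⊆ (Finset.Iio j).image (s.orderEmbOfFin h) := by
      intro x hx
      rw [Finset.mem_filter] at hx
      have hx' : x ∈ Set.range (s.orderEmbOfFin h) := by
        rw [Finset.range_orderEmbOfFin]; exact hx.1
      obtain ⟨i, rfl⟩ := hx'
      refine Finset.mem_image.2 ⟨i, Finset.mem_Iio.2 ?_, rfl⟩
      exact (s.orderEmbOfFin h).lt_iff_lt.1 (lt_of_le_of_lt hx.2 hcon)
    have h1 := (Finset.card_le_card hsub).trans Finset.card_image_le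
    rw [Fin.card_Iio] at h1
    omega
  · intro ha
    have hsub : (Finset.Iic j).image (s.orderEmbOfFin h) ⊆ s.filter (· ≤ a) := by
      intro x hx
      obtain ⟨i, hi, rfl⟩ := Finset.mem_image.1 hx
      rw [Finset.mem_filter]
      refine ⟨Finset.orderEmbOfFin_mem s h i, le_trans ?_ ha⟩
      exact (s.orderEmbOfFin h).monotone (Finset.mem_Iic.1 hi)
    have h1 := Finset.card_le_card hsub
    rw [Finset.card_image_of_injective _ (s.orderEmbOfFin h).injective, Fin.card_Iic] at h1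
    exact h1

/-- an infimum over the rationals above a real number -/
theorem pvcn_iInf_rat (t : ℝ) (P : ℚ → Prop) [DecidablePred P] (hP : ∀ q : ℚ, P q ↔ t ≤ q) :
    (⨅ q : ℚ, if P q then (((q : ℝ) : EReal)) else ⊤) = (t : EReal) := by
  refine le_antisymm ?_ (le_iInf fun q => ?_)
  · refine le_of_forall_gt_imp_ge_of_dense fun a ha => ?_
    obtain ⟨q, hq1, hq2⟩ := EReal.lt_iff_exists_rat_btwn.1 ha
    refine (iInf_le _ q).trans ?_
    rw [if_pos ((hP q).2 (by exact_mod_cast hq1.le))]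
    exact hq2.le
  · by_cases h : P q
    · rw [if_pos h]
      exact_mod_cast (hP q).1 h
    · rw [if_neg h]
      exact le_top

/-- (C2) measurable enumeration of the points in `B` -/
theorem pvcn_enum [StandardBorelSpace E] [Nonempty E] {B : Set E} (hB : MeasurableSet B) :
    ∃ X : Conf E → ℕ → E, Measurable X ∧ ∀ η : Conf E, (η.pts ∩ B).Finite → Conf.restr B η = Conf.cell ((η.pts ∩ B).ncard, X η) := by
  classical
  obtain ⟨φ, hφ⟩ := exists_measurableEmbedding_real E
  obtain ⟨ψ, hψ, hψφ⟩ := hφ.exists_measurable_extend (g := (id : E → E)) measurable_id (fun _ => inferInstance)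
  have hinv : ∀ p, ψ (φ p) = p := fun p => congrFun hψφ p
  refine ⟨fun η i => ψ (⨅ q : ℚ, if ((i + 1 : ℕ) : ℕ∞) ≤ Conf.cnt (B ∩ φ ⁻¹' Iic (q : ℝ)) η then (((q : ℝ) : EReal)) else ⊤).toReal,
    ?_, ?_⟩
  · refine measurable_pi_lambda _ fun i => hψ.comp (measurable_ereal_toReal.comp ?_)
    refine Measurable.iInf fun q => ?_
    exact Measurable.ite (pvcn_le_cnt (hB.inter (hφ.measurable measurableSet_Iic)) (i + 1)) measurable_const measurable_const
  · intro η hS
    obtain ⟨s, hs⟩ : ∃ s : Finset ℝ, s = hS.toFinset.image φ := ⟨_, rfl⟩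
    have hmem : ∀ x, x ∈ s ↔ ∃ p ∈ η.pts ∩ B, φ p = x := by
      intro x
      rw [hs, Finset.mem_image]
      simp only [Set.Finite.mem_toFinset]
    have hcard : s.card = (η.pts ∩ B).ncard := by
      rw [hs, Finset.card_image_of_injective _ hφ.injective, Set.ncard_eq_toFinset_card _ hS]
    -- counts
    have hcnt : ∀ a : ℝ, Conf.cnt (B ∩ φ ⁻¹' Iic a) η = ((s.filter (· ≤ a)).card : ℕ∞) := by
      intro a
      have e1 : φ '' (η.pts ∩ (B ∩ φ ⁻¹' Iic a)) = ↑(s.filter (· ≤ a)) := by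
        ext x
        simp only [mem_image, Finset.coe_filter, mem_ofPred_eq, hmem]
        constructor
        · rintro ⟨p, ⟨h1, h2, h3⟩, rfl⟩
          exact ⟨⟨p, ⟨h1, h2⟩, rfl⟩, h3⟩
        · rintro ⟨⟨p, ⟨h1, h2⟩, rfl⟩, h3⟩
          exact ⟨p, ⟨h1, h2, h3⟩, rfl⟩
      unfold Conf.cnt
      rw [← hφ.injective.injOn.encard_image, e1, Set.encard_coe_eq_coe_finsetCard]
    have hval : ∀ j : Fin (η.pts ∩ B).ncard,
        (⨅ q : ℚ, if (((j : ℕ) + 1 : ℕ) : ℕ∞) ≤ Conf.cnt (B ∩ φ ⁻¹' Iic (q : ℝ)) η then (((q : ℝ) : EReal)) else ⊤).toReal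
          = s.orderEmbOfFin hcard j := by
      intro j
      rw [pvcn_iInf_rat (s.orderEmbOfFin hcard j)]
      · rfl
      · intro q
        rw [hcnt, Nat.cast_le]
        exact pvcn_rank s hcard j q
    apply Conf.ext
    ext p
    simp only [Conf.restr, Conf.cell, mem_ofPred_eq]
    constructor
    · intro hp
      have h1 : φ p ∈ Set.range (s.orderEmbOfFin hcard) := by
        rw [Finset.range_orderEmbOfFin]
        exact (hmem _).2 ⟨p, hp, rfl⟩
      obtain ⟨j, hj⟩ := h1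
      refine ⟨j, j.2, ?_⟩
      rw [hval j, hj, hinv]
    · rintro ⟨j, hj, rfl⟩
      have h1 := hval ⟨j, hj⟩
      simp only at h1
      rw [h1]
      obtain ⟨p, hp, hp'⟩ := (hmem _).1 (Finset.orderEmbOfFin_mem s hcard ⟨j, hj⟩)
      rw [← hp', hinv]
      exact hp

/-- locally finite coloured configurations -/
def PvLF (η : Conf PvPt) : Prop := ∀ k : ℤ × ℤ, (η.pts ∩ pvBox k).Finite

theorem pvcn_box_meas (k : ℤ × ℤ) : MeasurableSet (pvBox k) := by
  have h1 : Measurable fun p : PvPt => p.1.re := Complex.measurable_re.comp measurable_fst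
  have h2 : Measurable fun p : PvPt => p.1.im := Complex.measurable_im.comp measurable_fst
  exact (h1 measurableSet_Ico).inter (h2 measurableSet_Ico)

theorem pvcn_box_cover (p : PvPt) : ∃ k, p ∈ pvBox k :=
  ⟨(⌊p.1.re⌋, ⌊p.1.im⌋), ⟨Int.floor_le _, Int.lt_floor_add_one _⟩, ⟨Int.floor_le _, Int.lt_floor_add_one _⟩⟩

theorem pvcn_LF_meas : MeasurableSet {η | PvLF η} := by
  have : {η | PvLF η} = ⋂ k : ℤ × ℤ, {η : Conf PvPt | (η.pts ∩ pvBox k).Finite} := by
    ext η
    simp only [PvLF, mem_ofPred_eq, mem_iInter]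
  rw [this]
  exact MeasurableSet.iInter fun k => pvcn_fin (pvcn_box_meas k)

/-- NOT for every sample (the frozen type allows positions outside the unit square), but almost surely; deterministic version under the hypothesis on the positions -/
theorem pvcn_LF_conf (ω : PVSample) (h : ∀ k j, (ω.2 (k, j)).1 ∈ Ico (0 : ℝ) 1 ×ˢ Ico (0 : ℝ) 1) : PvLF (pvConf ω) := by
  intro k
  refine ((Set.finite_lt_nat (ω.1 k)).image (fun j => pvPt ω k j)).subset ?_
  rintro p ⟨⟨k', j, hj, rfl⟩, hre, him⟩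
  have hre' : (k'.1 : ℝ) + (ω.2 (k', j)).1.1 ∈ Ico (k.1 : ℝ) (k.1 + 1) := hre
  have him' : (k'.2 : ℝ) + (ω.2 (k', j)).1.2 ∈ Ico (k.2 : ℝ) (k.2 + 1) := him
  obtain ⟨⟨a1, a2⟩, b1, b2⟩ := h k' j
  have h1 : k'.1 = k.1 := by
    have c1 : (k'.1 : ℝ) < k.1 + 1 := by linarith [hre'.2]
    have c2 : (k.1 : ℝ) < k'.1 + 1 := by linarith [hre'.1]
    have c1' : k'.1 < k.1 + 1 := by exact_mod_cast c1
    have c2' : k.1 < k'.1 + 1 := by exact_mod_cast c2
    omega
  have h2 : k'.2 = k.2 := by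
    have c1 : (k'.2 : ℝ) < k.2 + 1 := by linarith [him'.2]
    have c2 : (k.2 : ℝ) < k'.2 + 1 := by linarith [him'.1]
    have c1' : k'.2 < k.2 + 1 := by exact_mod_cast c1
    have c2' : k.2 < k'.2 + 1 := by exact_mod_cast c2
    omega
  have hk : k' = k := Prod.ext h1 h2
  subst hk
  exact ⟨j, hj, rfl⟩

theorem pvcn_pos_ae (ε : ℝ) : ∀ᵐ ω ∂(pvLaw ε), ∀ k j, (ω.2 (k, j)).1 ∈ Ico (0 : ℝ) 1 ×ˢ Ico (0 : ℝ) 1 := by
  have hS : IsProbabilityMeasure ((volume : Measure (ℝ × ℝ)).restrict (Ico (0 : ℝ) 1 ×ˢ Ico (0 : ℝ) 1)) := ⟨by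
    rw [Measure.restrict_apply_univ, Measure.volume_eq_prod, Measure.prod_prod]; simp⟩
  rw [ae_all_iff]
  intro k
  rw [ae_all_iff]
  intro j
  have hm : MeasurableSet (Ico (0 : ℝ) 1 ×ˢ Ico (0 : ℝ) 1) := measurableSet_Ico.prod measurableSet_Ico
  have h1 : ∀ᵐ u ∂((volume : Measure (ℝ × ℝ)).restrict (Ico (0 : ℝ) 1 ×ˢ Ico (0 : ℝ) 1)), u ∈ Ico (0 : ℝ) 1 ×ˢ Ico (0 : ℝ) 1 := ae_restrict_mem hm
  have h2 : ∀ᵐ u ∂(((volume : Measure (ℝ × ℝ)).restrict (Ico (0 : ℝ) 1 ×ˢ Ico (0 : ℝ) 1)).prod (PMF.uniformOfFintype Bool).toMeasure),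
      u.1 ∈ Ico (0 : ℝ) 1 ×ˢ Ico (0 : ℝ) 1 := (measurePreserving_fst (μ := (volume : Measure (ℝ × ℝ)).restrict (Ico (0 : ℝ) 1 ×ˢ Ico (0 : ℝ) 1))
        (ν := (PMF.uniformOfFintype Bool).toMeasure)).quasiMeasurePreserving.ae h1
  have h3 := (measurePreserving_eval_infinitePi (fun _ : (ℤ × ℤ) × ℕ =>
      ((volume : Measure (ℝ × ℝ)).restrict (Ico (0 : ℝ) 1 ×ˢ Ico (0 : ℝ) 1)).prod (PMF.uniformOfFintype Bool).toMeasure) (k, j)).quasiMeasurePreserving.ae h2
  exact (measurePreserving_snd (μ := Measure.infinitePi (fun _ : ℤ × ℤ => poissonMeasure ((ε⁻¹) ^ 2).toNNReal))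
    (ν := Measure.infinitePi (fun _ : (ℤ × ℤ) × ℕ =>
      ((volume : Measure (ℝ × ℝ)).restrict (Ico (0 : ℝ) 1 ×ˢ Ico (0 : ℝ) 1)).prod (PMF.uniformOfFintype Bool).toMeasure))).quasiMeasurePreserving.ae h3

theorem pvcn_LF_ae (ε : ℝ) : ∀ᵐ η ∂(pvP ε), PvLF η := by
  unfold pvP
  rw [ae_map_iff measurable_pvConf.aemeasurable pvcn_LF_meas]
  filter_upwards [pvcn_pos_ae ε] with ω h using pvcn_LF_conf ω h

/-- (C3) **the measurable section** -/
theorem pvcn_section : ∃ s : Conf PvPt → PVSample, Measurable s ∧ ∀ η, PvLF η → pvConf (s η) = η := by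
  choose X hXm hX using fun k : ℤ × ℤ => pvcn_enum (pvcn_box_meas k)
  have hun : ∀ k : ℤ × ℤ, Measurable fun p : PvPt => (((p.1.re - (k.1 : ℝ), p.1.im - (k.2 : ℝ)), p.2) : (ℝ × ℝ) × Bool) := by
    intro k
    have h1 : Measurable fun p : PvPt => p.1.re := Complex.measurable_re.comp measurable_fst
    have h2 : Measurable fun p : PvPt => p.1.im := Complex.measurable_im.comp measurable_fst
    exact ((h1.sub_const _).prodMk (h2.sub_const _)).prodMk measurable_snd
  refine ⟨fun η => (fun k => (η.pts ∩ pvBox k).ncard,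
    fun kj => (((X kj.1 η kj.2).1.re - (kj.1.1 : ℝ), (X kj.1 η kj.2).1.im - (kj.1.2 : ℝ)), (X kj.1 η kj.2).2)), ?_, ?_⟩
  · refine Measurable.prodMk (measurable_pi_lambda _ fun k => pvcn_ncard (pvcn_box_meas k)) (measurable_pi_lambda _ fun kj => ?_)
    exact (hun kj.1).comp ((measurable_pi_apply kj.2).comp (hXm kj.1))
  · intro η hη
    have hpt : ∀ (k : ℤ × ℤ) (j : ℕ), pvPt (fun k => (η.pts ∩ pvBox k).ncard,
        fun kj => (((X kj.1 η kj.2).1.re - (kj.1.1 : ℝ), (X kj.1 η kj.2).1.im - (kj.1.2 : ℝ)), (X kj.1 η kj.2).2)) k j = X k η j := by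
      intro k j
      refine Prod.ext ?_ rfl
      apply Complex.ext
      · show (k.1 : ℝ) + ((X k η j).1.re - (k.1 : ℝ)) = (X k η j).1.re
        ring
      · show (k.2 : ℝ) + ((X k η j).1.im - (k.2 : ℝ)) = (X k η j).1.im
        ring
    ext p
    constructor
    · rintro ⟨k, j, hj, rfl⟩
      rw [hpt]
      have : X k η j ∈ (Conf.restr (pvBox k) η).pts := by
        rw [hX k η (hη k)]
        exact ⟨j, hj, rfl⟩
      exact this.1
    · intro hp
      obtain ⟨k, hk⟩ := pvcn_box_cover p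
      have : p ∈ (Conf.restr (pvBox k) η).pts := ⟨hp, hk⟩
      rw [hX k η (hη k)] at this
      obtain ⟨j, hj, rfl⟩ := this
      exact ⟨k, j, hj, (hpt k j).symm⟩

/-- **BRIDGE T2**: an event of configurations whose pull-back to the frozen sample space is measurable is measurable on the locally finite configurations -/
theorem pvcn_bridge {A : Set (Conf PvPt)} (h : MeasurableSet (pvConf ⁻¹' A)) : MeasurableSet (A ∩ {η | PvLF η}) := by
  obtain ⟨s, hs, hs'⟩ := pvcn_section
  have : A ∩ {η | PvLF η} = s ⁻¹' (pvConf ⁻¹' A) ∩ {η | PvLF η} := by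
    ext η
    simp only [mem_inter_iff, mem_preimage, mem_ofPred_eq]
    constructor
    · rintro ⟨h1, h2⟩; exact ⟨by rw [hs' η h2]; exact h1, h2⟩
    · rintro ⟨h1, h2⟩; exact ⟨by rw [hs' η h2] at h1; exact h1, h2⟩
  rw [this]
  exact (hs h).inter pvcn_LF_meas

/-- consequence: such an event is null-measurable for the law and its probability can be computed on either side -/
theorem pvcn_bridge_null (ε : ℝ) {A : Set (Conf PvPt)} (h : MeasurableSet (pvConf ⁻¹' A)) : NullMeasurableSet A (pvP ε) := by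
  refine (pvcn_bridge h).nullMeasurableSet.congr ?_
  filter_upwards [pvcn_LF_ae ε] with η hη
  exact propext ⟨fun h => h.1, fun h => ⟨h, hη⟩⟩

theorem pvcn_bridge_apply (ε : ℝ) {A : Set (Conf PvPt)} (h : MeasurableSet (pvConf ⁻¹' A)) : pvP ε A = pvLaw ε (pvConf ⁻¹' A) :=
  Measure.map_apply₀ measurable_pvConf.aemeasurable (pvcn_bridge_null ε h)

/-- the same for functions -/
theorem pvcn_bridge_fun {β : Type*} [MeasurableSpace β] {f : Conf PvPt → β} (h : Measurable fun ω => f (pvConf ω)) (ε : ℝ) : AEMeasurable f (pvP ε) := by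
  obtain ⟨s, hs, hs'⟩ := pvcn_section
  refine ⟨fun η => f (pvConf (s η)), h.comp hs, ?_⟩
  filter_upwards [pvcn_LF_ae ε] with η hη
  rw [hs' η hη]

end Claimed.Agent.R289
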