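import Claimed.Agent.R289.PppPv
import Claimed.Agent.R289.PppCnt
import Claimed.Agent.R289.Del.GenPos

/-!
# Row 289 (S0537), box PPP, file PppQ : Q1 = THE QUENCHED SPLIT      (helper261, ruling of helper256; prefix `pvqu_`, defs `pvGeo pvCol pvMerge pvQ pvQc pvQr pvBits PvDep pvExt pvg* PvgOk cfOf cfExt`)      0 sorry

1. SPLIT      `PvIx = (ℤ × ℤ) × ℕ`, `PvGeoT` (counts + positions), `PvColT = PvIx → Bool`;  `pvGeo ε`, `pvCol` (fair bits), `pvMerge`, `pvSplit : PVSample ≃ᵐ PvGeoT × PvColT`;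
              **`pvqu_law : pvLaw ε = ((pvGeo ε).prod pvCol).map pvMerge`**, `pvqu_law_geo`, `pvqu_law_col`, `pvqu_indep`.
2. QUENCHED   `pvQ A g = pvCol {c | pvMerge (g, c) ∈ A}`, `pvQc 𝒜 g` (events of `Conf PvPt`), `pvQr` (real);  `pvqu_Q_meas`, **`pvqu_Q_lintegral`** (mean of the quenched = annealed), `pvqu_Q_lintegral₀` (null-measurable),
              `pvqu_Qc_lintegral`, `pvqu_Qc_lintegral'` (bridge form), `pvqu_ae` / `pvqu_ae_of` / `pvqu_ae_geo` / `pvqu_Qc_ae` (a.s. transfer), `pvqu_Q_null`, `pvqu_Q_congr`, `pvqu_lintegral`, `pvqu_integral` (Fubini),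
              `pvqu_Qr_integral`, **`pvqu_Q_mul_lintegral`** (two replicas: one geometry, two independent colourings).
3. FINITE     `pvBits ι = Measure.pi fun _ => pvCoin` = uniform law (`pvqu_bits_apply`, `pvqu_bits_uniform`, `pvqu_bits_lintegral`, `pvqu_bits_integral`);  **`pvqu_col_map`** (the colours of finitely many distinct indices are fair bits);
              `PvDep I B` (`B` depends only on the colours of `I`), `pvqu_dep_meas`, **`pvqu_dep_apply`**, `pvqu_dep_finset`, `pvqu_dep_card` (`pvCol B = #{..} / 2^#I`), `pvqu_dep_indep`.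
4. GEOMETRY   `pvgSite g i`, `pvgAct g`, `pvgSites g`, `pvgIn g W`, `PvgOk g` (= `DelgpOk` of helper120, which does not see the colours), **`pvqu_ok_ae`**, `PvgOk.inj/.lf/.gp/.col_iff/.in_finite`;
              `pvqu_mem_conf`, `pvqu_cfSites`, `pvqu_restr_congr`, **`pvqu_loc_dep`**, **`pvqu_loc_apply`** (an event READ in a bounded window = event of finitely many fair bits; NO measurability hypothesis), `pvqu_loc_indep`.
5. LABEL-FREE `cfOf Y σ`, `pvgColAt g c z`, `PvgOk.conf_eq`, `pvqu_sites_bits`, **`pvqu_loc_sites`** (`pvQc 𝒜 g` = uniform probability over the colourings of the finite set `pvgSites g ∩ O`: so Harris / BK / Reimer on a `Fintype` apply);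
              `pvqu_cell`, `pvqu_black`, `pvqu_black_mono`;  `pvgConf`, `measurable_pvgConf`, **`pvqu_sites_isPpp`**.
6. MARKS      any mark space `(M, κ)`: `pvLawM ε κ`, `pvConfM`, **`pvqu_isPppM : IsPpp (ε⁻² • vol ⊗ κ) ((pvLawM ε κ).map pvConfM)`** (the frozen construction with i.i.d. marks of law `κ`).
7. REPLICAS   `PvPt2 = ℂ × Bool × Bool`, `pvP2 ε`, **`pvqu_P2_isPpp`**, `cfP1`, `cfP2`, `pvqu_P2_map1/2`, **`pvqu_Qc_mul_lintegral : ∫⁻ pvQc 𝒜 g * pvQc ℬ g = pvP2 ε (cfP1 ⁻¹' 𝒜 ∩ cfP2 ⁻¹' ℬ)`**;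
              `pvColFlip`, `pvqu_col_flip`, **`pvqu_Qc_flip`**;  calculus `pvqu_Qc_mono/_union_le/_iUnion_le/_compl/..`;  `pvQm g` (the quenched law as a probability measure), `pvqu_Qm_apply`, `pvqu_Qm_bind`.
-/

set_option autoImplicit false

namespace Claimed.Agent.R289

open MeasureTheory ProbabilityTheory Set Filter Topology Claims.C0465
open scoped ENNReal NNReal

/-! ## 1. the split -/

/-- index of a potential point: unit cell, rank in the cell -/
abbrev PvIx := (ℤ × ℤ) × ℕ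

/-- labelled geometries: counts of the unit cells, positions in the unit cells -/
abbrev PvGeoT := (ℤ × ℤ → ℕ) × (PvIx → ℝ × ℝ)

/-- colourings of the indices -/
abbrev PvColT := PvIx → Bool

/-- the uniform law on the unit square -/
noncomputable def pvUnit : Measure (ℝ × ℝ) := (volume : Measure (ℝ × ℝ)).restrict (Ico (0 : ℝ) 1 ×ˢ Ico (0 : ℝ) 1)

instance pvquUnitProb : IsProbabilityMeasure pvUnit := by unfold pvUnit; infer_instance

/-- the law of the labelled geometry -/
noncomputable def pvGeo (ε : ℝ) : Measure PvGeoT :=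
  (Measure.infinitePi fun _ : ℤ × ℤ => poissonMeasure (pvRate ε)).prod (Measure.infinitePi fun _ : PvIx => pvUnit)

instance pvquGeoProb (ε : ℝ) : IsProbabilityMeasure (pvGeo ε) := by unfold pvGeo; infer_instance

/-- fair bits on the indices -/
noncomputable def pvCol : Measure PvColT := Measure.infinitePi fun _ : PvIx => pvCoin

instance pvquColProb : IsProbabilityMeasure pvCol := by unfold pvCol; infer_instance

/-- geometry + colouring = sample -/
def pvMerge (x : PvGeoT × PvColT) : PVSample := (x.1.1, fun i => (x.1.2 i, x.2 i))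

/-- the geometry of a sample -/
def pvGeoOf (ω : PVSample) : PvGeoT := (ω.1, fun i => (ω.2 i).1)

/-- the colouring of a sample -/
def pvColOf (ω : PVSample) : PvColT := fun i => (ω.2 i).2

theorem pvqu_eqns_cite : True := by
  have := @pvUnit.eq_1; have := @pvGeo.eq_1; have := @pvCol.eq_1; have := @pvMerge.eq_1; have := @pvGeoOf.eq_1; have := @pvColOf.eq_1
  trivial

theorem measurable_pvMerge : Measurable pvMerge := by unfold pvMerge; fun_prop

theorem measurable_pvGeoOf : Measurable pvGeoOf := by unfold pvGeoOf; fun_prop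

theorem measurable_pvColOf : Measurable pvColOf := by unfold pvColOf; fun_prop

theorem pvqu_merge_of (ω : PVSample) : pvMerge (pvGeoOf ω, pvColOf ω) = ω := rfl

theorem pvqu_geoOf_merge (g : PvGeoT) (c : PvColT) : pvGeoOf (pvMerge (g, c)) = g := rfl

theorem pvqu_colOf_merge (g : PvGeoT) (c : PvColT) : pvColOf (pvMerge (g, c)) = c := rfl

/-- the split as a measurable equivalence -/
def pvSplit : PVSample ≃ᵐ PvGeoT × PvColT where
  toFun ω := (pvGeoOf ω, pvColOf ω)
  invFun := pvMerge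
  left_inv _ := rfl
  right_inv _ := rfl
  measurable_toFun := measurable_pvGeoOf.prodMk measurable_pvColOf
  measurable_invFun := measurable_pvMerge

/-- **Q1**: the frozen law is the image of (geometry) ⊗ (fair bits) -/
theorem pvqu_law (ε : ℝ) : pvLaw ε = ((pvGeo ε).prod pvCol).map pvMerge := by
  have hz : Measurable fun p : (PvIx → ℝ × ℝ) × (PvIx → Bool) => fun i => (p.1 i, p.2 i) := by fun_prop
  have h1 : Measure.infinitePi (fun _ : PvIx => pvMark)
      = ((Measure.infinitePi fun _ : PvIx => pvUnit).prod pvCol).map fun p i => (p.1 i, p.2 i) :=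
    (infinitePi_prod_zip (fun _ : PvIx => pvUnit) (fun _ : PvIx => pvCoin)).symm
  rw [pvLaw_eq, h1]
  have h2 := Measure.map_prod_map (Measure.infinitePi fun _ : ℤ × ℤ => poissonMeasure (pvRate ε))
    ((Measure.infinitePi fun _ : PvIx => pvUnit).prod pvCol) measurable_id hz
  rw [Measure.map_id] at h2
  rw [h2, ← Measure.prodAssoc_prod, Measure.map_map (measurable_id.prodMap hz) MeasurableEquiv.prodAssoc.measurable]
  rfl

theorem pvqu_law_split (ε : ℝ) : (pvLaw ε).map pvSplit = (pvGeo ε).prod pvCol := by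
  rw [pvqu_law, Measure.map_map pvSplit.measurable measurable_pvMerge]
  exact Measure.map_id

theorem pvqu_law_geo (ε : ℝ) : (pvLaw ε).map pvGeoOf = pvGeo ε := by
  rw [pvqu_law, Measure.map_map measurable_pvGeoOf measurable_pvMerge]
  exact Measure.map_fst_prod.trans (by simp)

theorem pvqu_law_col (ε : ℝ) : (pvLaw ε).map pvColOf = pvCol := by
  rw [pvqu_law, Measure.map_map measurable_pvColOf measurable_pvMerge]
  exact Measure.map_snd_prod.trans (by simp)

/-- geometry and colours are independent -/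
theorem pvqu_indep (ε : ℝ) : IndepFun pvGeoOf pvColOf (pvLaw ε) := by
  rw [indepFun_iff_map_prod_eq_prod_map_map measurable_pvGeoOf.aemeasurable measurable_pvColOf.aemeasurable, pvqu_law_geo, pvqu_law_col]
  exact pvqu_law_split ε

/-! ## 2. quenched probabilities -/

/-- the quenched probability of an event of samples: the geometry is frozen, the colours are fair bits -/
noncomputable def pvQ (A : Set PVSample) (g : PvGeoT) : ℝ≥0∞ := pvCol {c | pvMerge (g, c) ∈ A}

/-- the quenched probability of an event of coloured configurations -/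
noncomputable def pvQc (𝒜 : Set (Conf PvPt)) (g : PvGeoT) : ℝ≥0∞ := pvQ (pvConf ⁻¹' 𝒜) g

theorem pvqu_eqns_cite2 : True := by
  have := @pvQ.eq_1; have := @pvQc.eq_1
  trivial

theorem pvqu_Qc_eq (𝒜 : Set (Conf PvPt)) (g : PvGeoT) : pvQc 𝒜 g = pvCol {c | pvConf (pvMerge (g, c)) ∈ 𝒜} := rfl

theorem pvqu_Q_le_one (A : Set PVSample) (g : PvGeoT) : pvQ A g ≤ 1 := prob_le_one

theorem pvqu_Q_ne_top (A : Set PVSample) (g : PvGeoT) : pvQ A g ≠ ∞ := measure_ne_top _ _

theorem pvqu_Q_mono {A B : Set PVSample} (h : A ⊆ B) (g : PvGeoT) : pvQ A g ≤ pvQ B g := measure_mono fun _ hc => h hc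

theorem pvqu_Q_univ (g : PvGeoT) : pvQ univ g = 1 := by
  unfold pvQ
  simp

theorem pvqu_Q_empty (g : PvGeoT) : pvQ ∅ g = 0 := by
  unfold pvQ
  simp

theorem pvqu_Q_union_le (A B : Set PVSample) (g : PvGeoT) : pvQ (A ∪ B) g ≤ pvQ A g + pvQ B g := measure_union_le _ _

theorem pvqu_Q_iUnion_le {ι : Type*} [Countable ι] (A : ι → Set PVSample) (g : PvGeoT) : pvQ (⋃ i, A i) g ≤ ∑' i, pvQ (A i) g := by
  unfold pvQ
  have : {c | pvMerge (g, c) ∈ ⋃ i, A i} = ⋃ i, {c | pvMerge (g, c) ∈ A i} := by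
    ext c; simp
  rw [this]
  exact measure_iUnion_le _

/-- the section of a measurable event at a fixed geometry is measurable -/
theorem pvqu_section_meas {A : Set PVSample} (hA : MeasurableSet A) (g : PvGeoT) : MeasurableSet {c | pvMerge (g, c) ∈ A} :=
  (measurable_pvMerge.comp measurable_prodMk_left) hA

theorem pvqu_Q_compl {A : Set PVSample} (hA : MeasurableSet A) (g : PvGeoT) : pvQ Aᶜ g = 1 - pvQ A g :=
  prob_compl_eq_one_sub (pvqu_section_meas hA g)

/-- the quenched probability is a measurable function of the geometry -/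
theorem pvqu_Q_meas {A : Set PVSample} (hA : MeasurableSet A) : Measurable (pvQ A) :=
  measurable_measure_prodMk_left (measurable_pvMerge hA)

/-- **the annealed probability is the mean of the quenched probability** -/
theorem pvqu_Q_lintegral (ε : ℝ) {A : Set PVSample} (hA : MeasurableSet A) : ∫⁻ g, pvQ A g ∂(pvGeo ε) = pvLaw ε A := by
  rw [pvqu_law, Measure.map_apply measurable_pvMerge hA, Measure.prod_apply (measurable_pvMerge hA)]
  rfl

/-- a null event is quenched null for almost every geometry (no measurability) -/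
theorem pvqu_Q_null (ε : ℝ) {A : Set PVSample} (hA : pvLaw ε A = 0) : ∀ᵐ g ∂(pvGeo ε), pvQ A g = 0 := by
  obtain ⟨N, hAN, hN, hN0⟩ := exists_measurable_superset_of_null hA
  have h1 := pvqu_Q_lintegral ε hN
  rw [hN0, lintegral_eq_zero_iff (pvqu_Q_meas hN)] at h1
  filter_upwards [h1] with g hg
  exact le_antisymm ((pvqu_Q_mono hAN g).trans (le_of_eq hg)) zero_le

/-- almost sure properties: annealed ⟹ quenched for almost every geometry (no measurability) -/
theorem pvqu_ae (ε : ℝ) {p : PVSample → Prop} (h : ∀ᵐ ω ∂(pvLaw ε), p ω) : ∀ᵐ g ∂(pvGeo ε), ∀ᵐ c ∂pvCol, p (pvMerge (g, c)) :=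
  pvqu_Q_null ε h

/-- almost sure properties: quenched ⟹ annealed -/
theorem pvqu_ae_of (ε : ℝ) {p : PVSample → Prop} (hp : MeasurableSet {ω | p ω}) (h : ∀ᵐ g ∂(pvGeo ε), ∀ᵐ c ∂pvCol, p (pvMerge (g, c))) :
    ∀ᵐ ω ∂(pvLaw ε), p ω := by
  rw [ae_iff]
  have e : {ω | ¬ p ω} = {ω | p ω}ᶜ := rfl
  rw [e, ← pvqu_Q_lintegral ε hp.compl, lintegral_eq_zero_iff (pvqu_Q_meas hp.compl)]
  exact h

/-- a property of the geometry alone -/
theorem pvqu_ae_geo (ε : ℝ) {p : PvGeoT → Prop} (h : ∀ᵐ g ∂(pvGeo ε), p g) : ∀ᵐ ω ∂(pvLaw ε), p (pvGeoOf ω) := by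
  rw [← pvqu_law_geo] at h
  exact ae_of_ae_map measurable_pvGeoOf.aemeasurable h

/-- two events which agree almost surely have the same quenched probability for almost every geometry -/
theorem pvqu_Q_congr (ε : ℝ) {A B : Set PVSample} (h : A =ᵐ[pvLaw ε] B) : pvQ A =ᵐ[pvGeo ε] pvQ B := by
  filter_upwards [pvqu_ae ε h] with g hg
  exact measure_congr hg

/-- null-measurable events -/
theorem pvqu_Q_aemeas (ε : ℝ) {A : Set PVSample} (hA : NullMeasurableSet A (pvLaw ε)) : AEMeasurable (pvQ A) (pvGeo ε) :=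
  ⟨pvQ (toMeasurable (pvLaw ε) A), pvqu_Q_meas (measurableSet_toMeasurable _ _), pvqu_Q_congr ε hA.toMeasurable_ae_eq.symm⟩

theorem pvqu_Q_lintegral₀ (ε : ℝ) {A : Set PVSample} (hA : NullMeasurableSet A (pvLaw ε)) : ∫⁻ g, pvQ A g ∂(pvGeo ε) = pvLaw ε A := by
  rw [lintegral_congr_ae (pvqu_Q_congr ε hA.toMeasurable_ae_eq.symm), pvqu_Q_lintegral ε (measurableSet_toMeasurable _ _), measure_toMeasurable]

/-- for ANY event (outer measures): the lower integral of the quenched probability is at most the annealed probability -/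
theorem pvqu_Q_lintegral_le (ε : ℝ) (A : Set PVSample) : ∫⁻ g, pvQ A g ∂(pvGeo ε) ≤ pvLaw ε A := by
  rw [← measure_toMeasurable, ← pvqu_Q_lintegral ε (measurableSet_toMeasurable _ _)]
  exact lintegral_mono fun g => pvqu_Q_mono (subset_toMeasurable _ _) g

/-! ### events of coloured configurations -/

theorem pvqu_Qc_meas {𝒜 : Set (Conf PvPt)} (h : MeasurableSet 𝒜) : Measurable (pvQc 𝒜) := pvqu_Q_meas (measurable_pvConf h)

theorem pvqu_Qc_lintegral (ε : ℝ) {𝒜 : Set (Conf PvPt)} (h : MeasurableSet 𝒜) : ∫⁻ g, pvQc 𝒜 g ∂(pvGeo ε) = pvP ε 𝒜 := by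
  unfold pvQc pvP
  rw [pvqu_Q_lintegral ε (measurable_pvConf h), Measure.map_apply measurable_pvConf h]

/-- the bridge form: only the preimage in the sample space is measurable -/
theorem pvqu_Qc_lintegral' (ε : ℝ) {𝒜 : Set (Conf PvPt)} (h : MeasurableSet (pvConf ⁻¹' 𝒜)) : ∫⁻ g, pvQc 𝒜 g ∂(pvGeo ε) = pvP ε 𝒜 := by
  unfold pvQc
  rw [pvqu_Q_lintegral ε h, pvcn_bridge_apply ε h]

theorem pvqu_Qc_ae (ε : ℝ) {p : Conf PvPt → Prop} (h : ∀ᵐ η ∂(pvP ε), p η) : ∀ᵐ g ∂(pvGeo ε), ∀ᵐ c ∂pvCol, p (pvConf (pvMerge (g, c))) :=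
  pvqu_ae ε (ae_of_ae_map measurable_pvConf.aemeasurable h)

/-! ### functions -/

theorem pvqu_lintegral (ε : ℝ) {f : PVSample → ℝ≥0∞} (hf : Measurable f) :
    ∫⁻ ω, f ω ∂(pvLaw ε) = ∫⁻ g, ∫⁻ c, f (pvMerge (g, c)) ∂pvCol ∂(pvGeo ε) := by
  rw [pvqu_law, lintegral_map hf measurable_pvMerge]
  exact lintegral_prod _ (hf.comp measurable_pvMerge).aemeasurable

theorem pvqu_integrable (ε : ℝ) {f : PVSample → ℝ} (hf : Integrable f (pvLaw ε)) : Integrable (fun x => f (pvMerge x)) ((pvGeo ε).prod pvCol) := by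
  rw [pvqu_law] at hf
  exact hf.comp_measurable measurable_pvMerge

theorem pvqu_integral (ε : ℝ) {f : PVSample → ℝ} (hf : Integrable f (pvLaw ε)) :
    ∫ ω, f ω ∂(pvLaw ε) = ∫ g, ∫ c, f (pvMerge (g, c)) ∂pvCol ∂(pvGeo ε) := by
  have h1 := pvqu_integrable ε hf
  rw [← integral_prod _ h1]
  conv_lhs => rw [pvqu_law]
  rw [pvqu_law] at hf
  exact integral_map measurable_pvMerge.aemeasurable hf.aestronglyMeasurable

/-- the quenched mean of an integrable function is integrable -/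
theorem pvqu_integrable_mean (ε : ℝ) {f : PVSample → ℝ} (hf : Integrable f (pvLaw ε)) :
    Integrable (fun g => ∫ c, f (pvMerge (g, c)) ∂pvCol) (pvGeo ε) :=
  (pvqu_integrable ε hf).integral_prod_left

/-! ### real values, two replicas -/

/-- the quenched probability as a real number -/
noncomputable def pvQr (A : Set PVSample) (g : PvGeoT) : ℝ := (pvQ A g).toReal

theorem pvqu_Qr_nonneg (A : Set PVSample) (g : PvGeoT) : 0 ≤ pvQr A g := ENNReal.toReal_nonneg

theorem pvqu_Qr_le_one (A : Set PVSample) (g : PvGeoT) : pvQr A g ≤ 1 := ENNReal.toReal_le_of_le_ofReal zero_le_one (by simpa using pvqu_Q_le_one A g)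

theorem pvqu_Qr_meas {A : Set PVSample} (hA : MeasurableSet A) : Measurable (pvQr A) := (pvqu_Q_meas hA).ennreal_toReal

theorem pvqu_Qr_integrable (ε : ℝ) {A : Set PVSample} (hA : MeasurableSet A) : Integrable (pvQr A) (pvGeo ε) :=
  Integrable.of_bound (pvqu_Qr_meas hA).aestronglyMeasurable 1 (Eventually.of_forall fun g => by
    rw [Real.norm_eq_abs, abs_of_nonneg (pvqu_Qr_nonneg A g)]; exact pvqu_Qr_le_one A g)

theorem pvqu_Qr_integral (ε : ℝ) {A : Set PVSample} (hA : MeasurableSet A) : ∫ g, pvQr A g ∂(pvGeo ε) = (pvLaw ε A).toReal := by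
  unfold pvQr
  rw [integral_toReal (pvqu_Q_meas hA).aemeasurable (Eventually.of_forall fun g => (pvqu_Q_ne_top A g).lt_top), pvqu_Q_lintegral ε hA]

/-- **two replicas**: the mean of a product of quenched probabilities = one geometry, two independent colourings -/
theorem pvqu_Q_mul_lintegral (ε : ℝ) {A B : Set PVSample} (hA : MeasurableSet A) (hB : MeasurableSet B) :
    ∫⁻ g, pvQ A g * pvQ B g ∂(pvGeo ε)
      = ((pvGeo ε).prod (pvCol.prod pvCol)) {x | pvMerge (x.1, x.2.1) ∈ A ∧ pvMerge (x.1, x.2.2) ∈ B} := by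
  have hm1 : Measurable fun x : PvGeoT × PvColT × PvColT => pvMerge (x.1, x.2.1) :=
    measurable_pvMerge.comp (measurable_fst.prodMk (measurable_fst.comp measurable_snd))
  have hm2 : Measurable fun x : PvGeoT × PvColT × PvColT => pvMerge (x.1, x.2.2) :=
    measurable_pvMerge.comp (measurable_fst.prodMk (measurable_snd.comp measurable_snd))
  have hS : MeasurableSet {x : PvGeoT × PvColT × PvColT | pvMerge (x.1, x.2.1) ∈ A ∧ pvMerge (x.1, x.2.2) ∈ B} := (hm1 hA).inter (hm2 hB)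
  rw [Measure.prod_apply hS]
  refine lintegral_congr fun g => ?_
  have : Prod.mk g ⁻¹' {x : PvGeoT × PvColT × PvColT | pvMerge (x.1, x.2.1) ∈ A ∧ pvMerge (x.1, x.2.2) ∈ B}
      = {c | pvMerge (g, c) ∈ A} ×ˢ {c | pvMerge (g, c) ∈ B} := by
    ext ⟨c, c'⟩; rfl
  rw [this, Measure.prod_prod]
  rfl

theorem pvqu_eqns_cite3 : True := by
  have := @pvQr.eq_1
  trivial

/-! ## 3. reduction to a FINITE product of fair bits -/

/-- fair bits on a finite type -/
noncomputable def pvBits (ι : Type) [Fintype ι] : Measure (ι → Bool) := Measure.pi fun _ => pvCoin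

instance pvquBitsProb (ι : Type) [Fintype ι] : IsProbabilityMeasure (pvBits ι) := by unfold pvBits; infer_instance

theorem pvqu_bits_singleton {ι : Type} [Fintype ι] (x : ι → Bool) : pvBits ι {x} = (2⁻¹ : ℝ≥0∞) ^ Fintype.card ι := by
  unfold pvBits
  rw [Measure.pi_singleton]
  simp [pvCoin_apply]

/-- fair bits = the uniform law: every event has probability `#S / 2^#ι` -/
theorem pvqu_bits_apply {ι : Type} [Fintype ι] (S : Set (ι → Bool)) : pvBits ι S = (S.ncard : ℝ≥0∞) * (2⁻¹ : ℝ≥0∞) ^ Fintype.card ι := by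
  classical
  have hfin : S.Finite := S.toFinite
  have h1 : pvBits ι S = ∑ x ∈ hfin.toFinset, pvBits ι {x} := by
    rw [← measure_biUnion_finset (fun x _ y _ hxy => by simpa using hxy) fun x _ => measurableSet_singleton x]
    congr 1
    ext x; simp
  rw [h1, Finset.sum_congr rfl fun x _ => pvqu_bits_singleton x, Finset.sum_const, nsmul_eq_mul, Set.ncard_eq_toFinset_card S hfin]

theorem pvqu_bits_uniform (ι : Type) [Fintype ι] [DecidableEq ι] : pvBits ι = (PMF.uniformOfFintype (ι → Bool)).toMeasure := by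
  refine Measure.ext_of_singleton fun x => ?_
  rw [pvqu_bits_singleton, PMF.toMeasure_apply_singleton _ _ (measurableSet_singleton x)]
  simp [ENNReal.inv_pow]

/-- integrals against fair bits are averages -/
theorem pvqu_bits_lintegral {ι : Type} [Fintype ι] [DecidableEq ι] (f : (ι → Bool) → ℝ≥0∞) :
    ∫⁻ x, f x ∂(pvBits ι) = (∑ x, f x) * (2⁻¹ : ℝ≥0∞) ^ Fintype.card ι := by
  rw [lintegral_fintype, Finset.sum_mul]
  exact Finset.sum_congr rfl fun x _ => by rw [pvqu_bits_singleton]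

theorem pvqu_bits_integral {ι : Type} [Fintype ι] [DecidableEq ι] (f : (ι → Bool) → ℝ) :
    ∫ x, f x ∂(pvBits ι) = (∑ x, f x) * (2⁻¹ : ℝ) ^ Fintype.card ι := by
  rw [integral_fintype Integrable.of_finite, Finset.sum_mul]
  refine Finset.sum_congr rfl fun x _ => ?_
  rw [Measure.real, pvqu_bits_singleton, smul_eq_mul, mul_comm]
  simp

/-- **the colours of finitely many distinct indices are fair bits** -/
theorem pvqu_col_map {ι : Type} [Fintype ι] {e : ι → PvIx} (he : Function.Injective e) : pvCol.map (fun c i => c (e i)) = pvBits ι := by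
  classical
  have hm : Measurable fun (c : PvColT) (i : ι) => c (e i) := by fun_prop
  refine Measure.ext_of_singleton fun x => ?_
  rw [Measure.map_apply hm (measurableSet_singleton x), pvqu_bits_singleton]
  have h1 : (fun (c : PvColT) (i : ι) => c (e i)) ⁻¹' {x}
      = Set.pi ((Finset.univ.image e : Finset PvIx) : Set PvIx) fun j => {b | ∀ i, e i = j → b = x i} := by
    ext c
    simp only [mem_preimage, mem_singleton_iff, Set.mem_pi, Finset.coe_image, Finset.coe_univ, image_univ, mem_range, mem_ofPred_eq,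
      forall_exists_index, forall_apply_eq_imp_iff]
    constructor
    · rintro rfl i i' hi
      rw [he hi]
    · intro h
      funext i
      exact h i i rfl
  rw [h1]
  unfold pvCol
  rw [Measure.infinitePi_pi _ fun _ _ => MeasurableSet.of_discrete, Finset.prod_image fun i _ i' _ h => he h]
  have h2 : ∀ i : ι, {b : Bool | ∀ i', e i' = e i → b = x i'} = {x i} := by
    intro i
    ext b
    simp only [mem_ofPred_eq, mem_singleton_iff]
    exact ⟨fun h => h i rfl, fun h i' hi => by rw [h, he hi]⟩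
  simp only [h2, pvCoin_apply, Finset.prod_const, Finset.card_univ]

/-- `B` depends only on the colours of the indices of `I` -/
def PvDep (I : Set PvIx) (B : Set PvColT) : Prop := ∀ c c' : PvColT, (∀ i ∈ I, c i = c' i) → c ∈ B → c' ∈ B

theorem PvDep.iff {I : Set PvIx} {B : Set PvColT} (h : PvDep I B) {c c' : PvColT} (hc : ∀ i ∈ I, c i = c' i) : c ∈ B ↔ c' ∈ B :=
  ⟨h c c' hc, h c' c fun i hi => (hc i hi).symm⟩

theorem PvDep.mono {I J : Set PvIx} {B : Set PvColT} (h : PvDep I B) (hIJ : I ⊆ J) : PvDep J B :=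
  fun c c' hc => h c c' fun i hi => hc i (hIJ hi)

theorem PvDep.compl {I : Set PvIx} {B : Set PvColT} (h : PvDep I B) : PvDep I Bᶜ :=
  fun c c' hc hcB hc' => hcB (h c' c (fun i hi => (hc i hi).symm) hc')

theorem PvDep.inter {I : Set PvIx} {B B' : Set PvColT} (h : PvDep I B) (h' : PvDep I B') : PvDep I (B ∩ B') :=
  fun c c' hc hcB => ⟨h c c' hc hcB.1, h' c c' hc hcB.2⟩

theorem PvDep.union {I : Set PvIx} {B B' : Set PvColT} (h : PvDep I B) (h' : PvDep I B') : PvDep I (B ∪ B') :=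
  fun c c' hc hcB => hcB.imp (h c c' hc) (h' c c' hc)

open Classical in
/-- extension of a colouring of a finite family by `false` -/
noncomputable def pvExt {ι : Type} (e : ι → PvIx) (x : ι → Bool) : PvColT := fun j => if h : ∃ i, e i = j then x h.choose else false

theorem pvqu_ext_apply {ι : Type} {e : ι → PvIx} (he : Function.Injective e) (x : ι → Bool) (i : ι) : pvExt e x (e i) = x i := by
  have h : ∃ i', e i' = e i := ⟨i, rfl⟩
  unfold pvExt
  rw [dif_pos h, he h.choose_spec]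

/-- an event which depends only on the colours of the finite family `e` is the preimage of an event of `ι → Bool` -/
theorem pvqu_dep_eq {ι : Type} {e : ι → PvIx} (he : Function.Injective e) {B : Set PvColT} (h : PvDep (range e) B) :
    B = (fun (c : PvColT) (i : ι) => c (e i)) ⁻¹' {x | pvExt e x ∈ B} := by
  ext c
  refine h.iff ?_
  rintro _ ⟨i, rfl⟩
  exact (pvqu_ext_apply he (fun i => c (e i)) i).symm

theorem pvqu_dep_meas {ι : Type} [Finite ι] {e : ι → PvIx} (he : Function.Injective e) {B : Set PvColT} (h : PvDep (range e) B) :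
    MeasurableSet B := by
  have hm : Measurable fun (c : PvColT) (i : ι) => c (e i) := by fun_prop
  rw [pvqu_dep_eq he h]
  exact hm (Set.toFinite _).measurableSet

/-- **finite reduction** -/
theorem pvqu_dep_apply {ι : Type} [Fintype ι] {e : ι → PvIx} (he : Function.Injective e) {B : Set PvColT} (h : PvDep (range e) B) :
    pvCol B = pvBits ι {x | pvExt e x ∈ B} := by
  have hm : Measurable fun (c : PvColT) (i : ι) => c (e i) := by fun_prop
  rw [← pvqu_col_map he, Measure.map_apply hm (Set.toFinite _).measurableSet, ← pvqu_dep_eq he h]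

/-- the same for a `Finset` of indices -/
theorem pvqu_dep_finset {I : Finset PvIx} {B : Set PvColT} (h : PvDep I B) :
    MeasurableSet B ∧ pvCol B = pvBits I {x | pvExt (fun i : I => (i : PvIx)) x ∈ B} := by
  have he : Function.Injective fun i : I => (i : PvIx) := Subtype.val_injective
  have h' : PvDep (range fun i : I => (i : PvIx)) B := by
    have : (range fun i : I => (i : PvIx)) = (I : Set PvIx) := by ext j; simp
    rwa [this]
  exact ⟨pvqu_dep_meas he h', pvqu_dep_apply he h'⟩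

theorem pvqu_dep_card {I : Finset PvIx} {B : Set PvColT} (h : PvDep I B) :
    pvCol B = ({x : I → Bool | pvExt (fun i : I => (i : PvIx)) x ∈ B}.ncard : ℝ≥0∞) * (2⁻¹ : ℝ≥0∞) ^ I.card := by
  rw [(pvqu_dep_finset h).2, pvqu_bits_apply, Fintype.card_coe]

/-- events which depend on disjoint sets of indices are independent -/
theorem pvqu_dep_indep {I J : Finset PvIx} (hIJ : Disjoint I J) {B B' : Set PvColT} (h : PvDep I B) (h' : PvDep J B') :
    pvCol (B ∩ B') = pvCol B * pvCol B' := by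
  have hi : iIndepFun (fun (i : PvIx) (c : PvColT) => c i) pvCol :=
    iIndepFun_infinitePi (P := fun _ : PvIx => pvCoin) (X := fun _ b => b) fun _ => measurable_id
  have h2 := hi.indepFun_finset I J hIJ fun i => measurable_pi_apply i
  have e : ∀ (K : Finset PvIx) (D : Set PvColT), PvDep K D →
      D = (fun (c : PvColT) (i : K) => c i) ⁻¹' {x | pvExt (fun i : K => (i : PvIx)) x ∈ D} := by
    intro K D hD
    have hD' : PvDep (range fun i : K => (i : PvIx)) D := by
      have : (range fun i : K => (i : PvIx)) = (K : Set PvIx) := by ext j; simp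
      rwa [this]
    exact pvqu_dep_eq Subtype.val_injective hD'
  rw [e I B h, e J B' h']
  exact h2.measure_inter_preimage_eq_mul _ _ (Set.toFinite _).measurableSet (Set.toFinite _).measurableSet

theorem pvqu_eqns_cite4 : True := by
  have := @pvBits.eq_1; have := @PvDep.eq_1; have := @pvExt.eq_1
  trivial

/-! ## 4. the frozen geometry: sites, active indices, windows -/

/-- the site of index `i` in the geometry `g` -/
def pvgSite (g : PvGeoT) (i : PvIx) : ℂ := ⟨(i.1.1 : ℝ) + (g.2 i).1, (i.1.2 : ℝ) + (g.2 i).2⟩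

/-- the active indices -/
def pvgAct (g : PvGeoT) : Set PvIx := {i | i.2 < g.1 i.1}

/-- the set of sites -/
def pvgSites (g : PvGeoT) : Set ℂ := pvgSite g '' pvgAct g

/-- the active indices which can be seen in the window `W` of coloured points -/
def pvgIn (g : PvGeoT) (W : Set PvPt) : Set PvIx := {i | i ∈ pvgAct g ∧ ∃ b, (pvgSite g i, b) ∈ W}

/-- **good geometries**: positions in the unit square, all sites distinct, general position (`DelgpOk` of helper120 does not see the colours) -/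
def PvgOk (g : PvGeoT) : Prop := DelgpOk (pvMerge (g, fun _ => false))

theorem pvqu_eqns_cite5 : True := by
  have := @pvgSite.eq_1; have := @pvgAct.eq_1; have := @pvgSites.eq_1; have := @pvgIn.eq_1; have := @PvgOk.eq_1
  trivial

theorem pvqu_site (g : PvGeoT) (c : PvColT) (k : ℤ × ℤ) (j : ℕ) : pvSite (pvMerge (g, c)) k j = pvgSite g (k, j) := rfl

theorem pvqu_W (g : PvGeoT) (c : PvColT) (i : PvIx) : delgpW (pvMerge (g, c)) i = pvgSite g i := rfl

theorem measurable_pvgSite (i : PvIx) : Measurable fun g : PvGeoT => pvgSite g i :=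
  (delgp_measurable_W i).comp (measurable_pvMerge.comp (measurable_id.prodMk measurable_const) : Measurable fun g : PvGeoT => pvMerge (g, fun _ => false))

theorem pvqu_mem_conf {g : PvGeoT} {c : PvColT} {p : PvPt} : p ∈ (pvConf (pvMerge (g, c))).pts ↔ ∃ i ∈ pvgAct g, p = (pvgSite g i, c i) := by
  constructor
  · rintro ⟨k, j, hj, rfl⟩
    exact ⟨(k, j), hj, rfl⟩
  · rintro ⟨⟨k, j⟩, hj, rfl⟩
    exact ⟨k, j, hj, rfl⟩

theorem pvqu_cfSites (g : PvGeoT) (c : PvColT) : cfSites (pvConf (pvMerge (g, c))) = pvgSites g := by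
  ext z
  simp only [cfSites, pvgSites, mem_image, pvqu_mem_conf]
  constructor
  · rintro ⟨_, ⟨i, hi, rfl⟩, rfl⟩
    exact ⟨i, hi, rfl⟩
  · rintro ⟨i, hi, rfl⟩
    exact ⟨_, ⟨i, hi, rfl⟩, rfl⟩

theorem PvgOk.ok {g : PvGeoT} (h : PvgOk g) (c : PvColT) : DelgpOk (pvMerge (g, c)) := ⟨h.sq, h.inj, h.col, h.cir⟩

theorem pvqu_ok_of {g : PvGeoT} {c : PvColT} (h : DelgpOk (pvMerge (g, c))) : PvgOk g := ⟨h.sq, h.inj, h.col, h.cir⟩

/-- **almost every geometry is good** -/
theorem pvqu_ok_ae (ε : ℝ) : ∀ᵐ g ∂(pvGeo ε), PvgOk g := by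
  filter_upwards [pvqu_ae ε (delgp_ae ε)] with g hg
  obtain ⟨c, hc⟩ := hg.exists
  exact pvqu_ok_of hc

theorem PvgOk.inj {g : PvGeoT} (h : PvgOk g) : Function.Injective (pvgSite g) := by
  intro i j hij
  by_contra hne
  exact DelgpOk.inj h i j hne hij

theorem PvgOk.lf {g : PvGeoT} (h : PvgOk g) : VorLF (pvgSites g) := by
  have := DelgpOk.lf h
  rwa [pvqu_cfSites] at this

theorem PvgOk.gp {g : PvGeoT} (h : PvgOk g) : VorGP (pvgSites g) := by
  have := DelgpOk.gp h
  rwa [pvqu_cfSites] at this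

/-- at a good geometry the colour of a site is the bit of its index -/
theorem PvgOk.col_iff {g : PvGeoT} (h : PvgOk g) {i : PvIx} (hi : i ∈ pvgAct g) (c : PvColT) (b : Bool) :
    (pvgSite g i, b) ∈ (pvConf (pvMerge (g, c))).pts ↔ c i = b := by
  rw [pvqu_mem_conf]
  constructor
  · rintro ⟨j, _, hj⟩
    have h1 : i = j := h.inj (congrArg Prod.fst hj)
    rw [h1]
    exact (congrArg Prod.snd hj).symm
  · rintro rfl
    exact ⟨i, hi, rfl⟩

/-- only finitely many active indices are seen in a bounded window -/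
theorem PvgOk.in_finite {g : PvGeoT} (h : PvgOk g) {W : Set PvPt} (hW : Bornology.IsBounded (Prod.fst '' W)) : (pvgIn g W).Finite := by
  obtain ⟨R, hR⟩ := hW.subset_closedBall (0 : ℂ)
  refine Set.Finite.of_finite_image ((h.lf R).subset ?_) h.inj.injOn
  rintro _ ⟨i, ⟨hi, b, hb⟩, rfl⟩
  exact ⟨⟨i, hi, rfl⟩, hR ⟨_, hb, rfl⟩⟩

theorem pvqu_in_prod (g : PvGeoT) (O : Set ℂ) : pvgIn g (O ×ˢ univ) = {i | i ∈ pvgAct g ∧ pvgSite g i ∈ O} := by
  ext i
  simp [pvgIn]

theorem pvqu_in_fst (g : PvGeoT) (O : Set ℂ) : pvgIn g (Prod.fst ⁻¹' O) = {i | i ∈ pvgAct g ∧ pvgSite g i ∈ O} := by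
  ext i
  simp [pvgIn]

theorem pvqu_in_mono (g : PvGeoT) {W W' : Set PvPt} (h : W ⊆ W') : pvgIn g W ⊆ pvgIn g W' :=
  fun _ hi => ⟨hi.1, hi.2.imp fun _ hb => h hb⟩

theorem pvqu_in_disjoint {g : PvGeoT} {O O' : Set ℂ} (h : Disjoint O O') : Disjoint (pvgIn g (O ×ˢ univ)) (pvgIn g (O' ×ˢ univ)) := by
  rw [pvqu_in_prod, pvqu_in_prod]
  exact Set.disjoint_left.2 fun i hi hi' => Set.disjoint_left.1 h hi.2 hi'.2

/-- the configuration in the window `W` only sees the colours of `pvgIn g W` -/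
theorem pvqu_restr_congr {g : PvGeoT} {W : Set PvPt} {c c' : PvColT} (h : ∀ i ∈ pvgIn g W, c i = c' i) :
    Conf.restr W (pvConf (pvMerge (g, c))) = Conf.restr W (pvConf (pvMerge (g, c'))) := by
  have key : ∀ c c' : PvColT, (∀ i ∈ pvgIn g W, c i = c' i) → ∀ p, p ∈ (Conf.restr W (pvConf (pvMerge (g, c)))).pts →
      p ∈ (Conf.restr W (pvConf (pvMerge (g, c')))).pts := by
    rintro c c' h p ⟨hp, hpW⟩
    obtain ⟨i, hi, rfl⟩ := pvqu_mem_conf.1 hp
    refine ⟨pvqu_mem_conf.2 ⟨i, hi, ?_⟩, hpW⟩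
    rw [h i ⟨hi, _, hpW⟩]
  ext p
  exact ⟨key c c' h p, key c' c (fun i hi => (h i hi).symm) p⟩

/-- **an event which is read in the window `W` depends only on the colours of `pvgIn g W`** -/
theorem pvqu_loc_dep {W : Set PvPt} {𝒜 : Set (Conf PvPt)} (h : ∀ η, Conf.restr W η ∈ 𝒜 ↔ η ∈ 𝒜) (g : PvGeoT) :
    PvDep (pvgIn g W) {c | pvConf (pvMerge (g, c)) ∈ 𝒜} := by
  intro c c' hc hcA
  have h1 : Conf.restr W (pvConf (pvMerge (g, c))) ∈ 𝒜 := (h _).2 hcA
  rw [pvqu_restr_congr hc] at h1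
  exact (h _).1 h1

/-- **finite reduction of a local event at a good geometry**: no measurability hypothesis on `𝒜` -/
theorem pvqu_loc_apply {W : Set PvPt} (hW : Bornology.IsBounded (Prod.fst '' W)) {𝒜 : Set (Conf PvPt)} (h : ∀ η, Conf.restr W η ∈ 𝒜 ↔ η ∈ 𝒜)
    {g : PvGeoT} (hg : PvgOk g) :
    MeasurableSet {c | pvConf (pvMerge (g, c)) ∈ 𝒜} ∧
      pvQc 𝒜 g = pvBits (hg.in_finite hW).toFinset
        {x | pvConf (pvMerge (g, pvExt (fun i : (hg.in_finite hW).toFinset => (i : PvIx)) x)) ∈ 𝒜} := by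
  have h1 : PvDep ((hg.in_finite hW).toFinset : Set PvIx) {c | pvConf (pvMerge (g, c)) ∈ 𝒜} := by
    rw [Set.Finite.coe_toFinset]
    exact pvqu_loc_dep h g
  exact pvqu_dep_finset h1

/-- **quenched independence of events read in disjoint bounded windows** -/
theorem pvqu_loc_indep {O O' : Set ℂ} (hO : Bornology.IsBounded O) (hO' : Bornology.IsBounded O') (hd : Disjoint O O') {𝒜 ℬ : Set (Conf PvPt)}
    (h : ∀ η, Conf.restr (O ×ˢ univ) η ∈ 𝒜 ↔ η ∈ 𝒜) (h' : ∀ η, Conf.restr (O' ×ˢ univ) η ∈ ℬ ↔ η ∈ ℬ) {g : PvGeoT} (hg : PvgOk g) :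
    pvQc (𝒜 ∩ ℬ) g = pvQc 𝒜 g * pvQc ℬ g := by
  have b1 : Bornology.IsBounded (Prod.fst '' (O ×ˢ (univ : Set Bool))) := hO.subset (by rintro _ ⟨p, hp, rfl⟩; exact hp.1)
  have b2 : Bornology.IsBounded (Prod.fst '' (O' ×ˢ (univ : Set Bool))) := hO'.subset (by rintro _ ⟨p, hp, rfl⟩; exact hp.1)
  have h1 : PvDep ((hg.in_finite b1).toFinset : Set PvIx) {c | pvConf (pvMerge (g, c)) ∈ 𝒜} := by
    rw [Set.Finite.coe_toFinset]; exact pvqu_loc_dep h g
  have h2 : PvDep ((hg.in_finite b2).toFinset : Set PvIx) {c | pvConf (pvMerge (g, c)) ∈ ℬ} := by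
    rw [Set.Finite.coe_toFinset]; exact pvqu_loc_dep h' g
  have hdis : Disjoint (hg.in_finite b1).toFinset (hg.in_finite b2).toFinset := by
    rw [← Finset.disjoint_coe, Set.Finite.coe_toFinset, Set.Finite.coe_toFinset]
    exact pvqu_in_disjoint hd
  exact pvqu_dep_indep hdis h1 h2

/-! ## 5. label-free form: colourings of the SITES -/

/-- the coloured configuration with site set `Y` and colouring `σ` -/
def cfOf (Y : Set ℂ) (σ : ℂ → Bool) : Conf PvPt := ⟨{p | p.1 ∈ Y ∧ p.2 = σ p.1}⟩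

open Classical in
/-- an index of the site `z` -/
noncomputable def pvgIdx (g : PvGeoT) (z : ℂ) : PvIx := if h : z ∈ pvgSites g then h.choose else ((0, 0), 0)

/-- the colour of the site `z` -/
noncomputable def pvgColAt (g : PvGeoT) (c : PvColT) (z : ℂ) : Bool := c (pvgIdx g z)

open Classical in
/-- extension by `false` of a colouring of a finite set of sites -/
noncomputable def cfExt (V : Finset ℂ) (x : V → Bool) (z : ℂ) : Bool := if h : z ∈ V then x ⟨z, h⟩ else false

theorem pvqu_eqns_cite6 : True := by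
  have := @cfOf.eq_1; have := @pvgIdx.eq_1; have := @pvgColAt.eq_1; have := @cfExt.eq_1
  trivial

theorem pvqu_idx_spec {g : PvGeoT} {z : ℂ} (hz : z ∈ pvgSites g) : pvgIdx g z ∈ pvgAct g ∧ pvgSite g (pvgIdx g z) = z := by
  unfold pvgIdx
  rw [dif_pos hz]
  exact hz.choose_spec

theorem pvqu_idx_injOn (g : PvGeoT) : InjOn (pvgIdx g) (pvgSites g) := by
  intro z hz w hw h
  rw [← (pvqu_idx_spec hz).2, ← (pvqu_idx_spec hw).2, h]

theorem PvgOk.idx_site {g : PvGeoT} (h : PvgOk g) {i : PvIx} (hi : i ∈ pvgAct g) : pvgIdx g (pvgSite g i) = i :=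
  h.inj (pvqu_idx_spec ⟨i, hi, rfl⟩).2

theorem cfOf_sites (Y : Set ℂ) (σ : ℂ → Bool) : cfSites (cfOf Y σ) = Y := by
  ext z
  simp only [cfSites, cfOf, mem_image, mem_ofPred_eq]
  exact ⟨by rintro ⟨p, hp, rfl⟩; exact hp.1, fun hz => ⟨(z, σ z), ⟨hz, rfl⟩, rfl⟩⟩

theorem cfOf_mem {Y : Set ℂ} {σ : ℂ → Bool} {z : ℂ} {b : Bool} : (z, b) ∈ (cfOf Y σ).pts ↔ z ∈ Y ∧ b = σ z := Iff.rfl

/-- in a window only the colours of the sites of the window matter -/
theorem cfOf_restr_congr {Y O : Set ℂ} {σ σ' : ℂ → Bool} (h : ∀ z ∈ Y ∩ O, σ z = σ' z) :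
    Conf.restr (O ×ˢ univ) (cfOf Y σ) = Conf.restr (O ×ˢ univ) (cfOf Y σ') := by
  ext p
  simp only [Conf.restr, cfOf, mem_inter_iff, mem_ofPred_eq, mem_prod, mem_univ, and_true]
  constructor
  · rintro ⟨⟨h1, h2⟩, h3⟩
    exact ⟨⟨h1, by rw [h2, h _ ⟨h1, h3⟩]⟩, h3⟩
  · rintro ⟨⟨h1, h2⟩, h3⟩
    exact ⟨⟨h1, by rw [h2, h _ ⟨h1, h3⟩]⟩, h3⟩

/-- **at a good geometry the configuration is (site set, colouring of the sites)** -/
theorem PvgOk.conf_eq {g : PvGeoT} (h : PvgOk g) (c : PvColT) : pvConf (pvMerge (g, c)) = cfOf (pvgSites g) (pvgColAt g c) := by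
  ext p
  rw [pvqu_mem_conf]
  constructor
  · rintro ⟨i, hi, rfl⟩
    refine ⟨⟨i, hi, rfl⟩, ?_⟩
    show c i = c (pvgIdx g (pvgSite g i))
    rw [h.idx_site hi]
  · rintro ⟨h1, h2⟩
    refine ⟨pvgIdx g p.1, (pvqu_idx_spec h1).1, Prod.ext (pvqu_idx_spec h1).2.symm h2⟩

/-- **the colours of finitely many sites are fair bits** -/
theorem pvqu_sites_bits {g : PvGeoT} {V : Finset ℂ} (hV : (V : Set ℂ) ⊆ pvgSites g) : pvCol.map (fun c (z : V) => pvgColAt g c z) = pvBits V :=
  pvqu_col_map (e := fun z : V => pvgIdx g z) fun z w hzw => Subtype.ext (pvqu_idx_injOn g (hV z.2) (hV w.2) hzw)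

/-- **finite reduction, label-free**: the quenched probability of an event read in a bounded window `O` is the uniform probability over the colourings of the sites of `O`; it depends on the geometry only through its SET of sites -/
theorem pvqu_loc_sites {O : Set ℂ} {𝒜 : Set (Conf PvPt)} (h : ∀ η, Conf.restr (O ×ˢ univ) η ∈ 𝒜 ↔ η ∈ 𝒜) {g : PvGeoT} (hg : PvgOk g)
    {V : Finset ℂ} (hV : (V : Set ℂ) = pvgSites g ∩ O) :
    pvQc 𝒜 g = pvBits V {x | cfOf (pvgSites g) (cfExt V x) ∈ 𝒜} := by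
  have hVs : (V : Set ℂ) ⊆ pvgSites g := by rw [hV]; exact inter_subset_left
  have hm : Measurable fun (c : PvColT) (z : V) => pvgColAt g c z := by unfold pvgColAt; fun_prop
  rw [← pvqu_sites_bits hVs, Measure.map_apply hm (Set.toFinite _).measurableSet, pvqu_Qc_eq]
  congr 1
  ext c
  simp only [mem_ofPred_eq, mem_preimage]
  rw [hg.conf_eq c, ← h, ← h (cfOf (pvgSites g) (cfExt V fun z => pvgColAt g c z))]
  have e : Conf.restr (O ×ˢ univ) (cfOf (pvgSites g) (pvgColAt g c))
      = Conf.restr (O ×ˢ univ) (cfOf (pvgSites g) (cfExt V fun z => pvgColAt g c z)) := by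
    refine cfOf_restr_congr fun z hz => ?_
    have hzV : z ∈ V := by
      have : z ∈ (V : Set ℂ) := by rw [hV]; exact hz
      exact this
    unfold cfExt
    rw [dif_pos hzV]
  rw [e]

/-- the finite set of the sites of a bounded window -/
theorem PvgOk.sites_finite {g : PvGeoT} (h : PvgOk g) {O : Set ℂ} (hO : Bornology.IsBounded O) : (pvgSites g ∩ O).Finite := by
  obtain ⟨R, hR⟩ := hO.subset_closedBall (0 : ℂ)
  exact (h.lf R).subset (inter_subset_inter_right _ hR)

/-! ### cells and black set at a frozen geometry -/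

theorem pvqu_cell (g : PvGeoT) (c : PvColT) (v : ℂ) : pvCell (pvMerge (g, c)) v = vorCell (pvgSites g) v := by
  rw [pvCell_eq, cfCell_eq_vor, pvqu_cfSites]

theorem pvqu_black (g : PvGeoT) (c : PvColT) : pvBlack (pvMerge (g, c)) = vorUn (pvgSites g) {v | ∃ i ∈ pvgAct g, v = pvgSite g i ∧ c i = true} := by
  rw [pvBlack_eq, cfBlack_eq_vor, pvqu_cfSites]
  congr 1
  ext v
  simp only [mem_ofPred_eq, pvqu_mem_conf, Prod.mk.injEq]
  exact ⟨fun ⟨i, hi, h1, h2⟩ => ⟨i, hi, h1, h2.symm⟩, fun ⟨i, hi, h1, h2⟩ => ⟨i, hi, h1, h2.symm⟩⟩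

/-- the black set increases with the colouring -/
theorem pvqu_black_mono (g : PvGeoT) {c c' : PvColT} (h : ∀ i, c i = true → c' i = true) : pvBlack (pvMerge (g, c)) ⊆ pvBlack (pvMerge (g, c')) := by
  rw [pvqu_black, pvqu_black]
  rintro z ⟨v, ⟨i, hi, h1, h2⟩, hz⟩
  exact ⟨v, ⟨i, hi, h1, h i h2⟩, hz⟩

/-! ### the law of the site set -/

/-- the uncoloured configuration of a geometry -/
def pvgConf (g : PvGeoT) : Conf ℂ := ⟨pvgSites g⟩

theorem measurable_pvgConf : Measurable pvgConf := by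
  refine Conf.measurable_of_void fun B hB => ?_
  have e : pvgConf ⁻¹' Conf.void B = ⋂ i : PvIx, ({g : PvGeoT | g.1 i.1 ≤ i.2} ∪ {g | pvgSite g i ∈ Bᶜ}) := by
    ext g
    simp only [mem_preimage, Conf.mem_void, pvgConf, pvgSites, mem_image, forall_exists_index, and_imp, forall_apply_eq_imp_iff₂, mem_iInter,
      mem_union, mem_ofPred_eq, mem_compl_iff, pvgAct]
    exact ⟨fun h i => (le_or_gt (g.1 i.1) i.2).imp id (h i), fun h i hi => (h i).resolve_left (not_le.2 hi)⟩
  rw [e]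
  refine MeasurableSet.iInter fun i => MeasurableSet.union ?_ (measurable_pvgSite i hB.compl)
  have hm : Measurable fun g : PvGeoT => g.1 i.1 := (measurable_pi_apply i.1).comp measurable_fst
  exact hm (measurableSet_Iic (a := i.2))

theorem pvqu_conf_fst (ω : PVSample) : Conf.image Prod.fst (pvConf ω) = pvgConf (pvGeoOf ω) := by
  have h := pvqu_cfSites (pvGeoOf ω) (pvColOf ω)
  rw [pvqu_merge_of] at h
  exact Conf.ext h

/-- **the sites form the Poisson process of intensity `ε⁻² vol`** -/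
theorem pvqu_sites_isPpp (ε : ℝ) : IsPpp (ENNReal.ofReal ((ε⁻¹) ^ 2) • (volume : Measure ℂ)) ((pvGeo ε).map pvgConf) := by
  have h := (pv_isPpp ε).map (measurable_fst : Measurable (Prod.fst : PvPt → ℂ))
  have e1 : (pvInt ε).map Prod.fst = ENNReal.ofReal ((ε⁻¹) ^ 2) • (volume : Measure ℂ) := by
    unfold pvInt
    rw [Measure.map_smul, Measure.map_fst_prod, measure_univ, one_smul]
  have e2 : (pvP ε).map (Conf.image Prod.fst) = (pvGeo ε).map pvgConf := by
    unfold pvP
    rw [Measure.map_map (Conf.measurable_image measurable_fst) measurable_pvConf, ← pvqu_law_geo,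
      Measure.map_map measurable_pvgConf measurable_pvGeoOf]
    congr 1
    funext ω
    exact pvqu_conf_fst ω
  rwa [e1, e2] at h

theorem pvqu_eqns_cite7 : True := by
  have := @pvgConf.eq_1
  trivial

/-! ## 6. general marks: the frozen construction with marks in `M` is the Poisson process of intensity `ε⁻² vol ⊗ κ` -/

section marked

set_option linter.unusedSectionVars false

variable {M : Type} [MeasurableSpace M]

/-- samples with marks in `M` -/
abbrev PvSamM (M : Type) := (ℤ × ℤ → ℕ) × (PvIx → (ℝ × ℝ) × M)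

/-- the law of the samples with i.i.d. marks of law `κ` -/
noncomputable def pvLawM (ε : ℝ) (κ : Measure M) : Measure (PvSamM M) :=
  (Measure.infinitePi fun _ : ℤ × ℤ => poissonMeasure (pvRate ε)).prod (Measure.infinitePi fun _ : PvIx => pvUnit.prod κ)

/-- the shift of the unit cell `k` -/
def pvShiftM (k : ℤ × ℤ) (u : (ℝ × ℝ) × M) : ℂ × M := (⟨(k.1 : ℝ) + u.1.1, (k.2 : ℝ) + u.1.2⟩, u.2)

/-- the marked configuration of a sample -/
def pvConfM (ω : PvSamM M) : Conf (ℂ × M) := ⟨{p | ∃ i : PvIx, i.2 < ω.1 i.1 ∧ p = pvShiftM i.1 (ω.2 i)}⟩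

/-- the data of the cell `k` -/
def pvThM (ω : PvSamM M) (k : ℤ × ℤ) : ℕ × (ℕ → (ℝ × ℝ) × M) := (ω.1 k, fun j => ω.2 (k, j))

theorem pvqu_eqns_cite8 : True := by
  have := @pvLawM.eq_1; have := @pvShiftM.eq_1; have := @pvConfM.eq_1; have := @pvThM.eq_1
  trivial

theorem pvqu_confM_eq (ω : PvSamM M) : pvConfM ω = Conf.iUnion fun k => Conf.image (pvShiftM k) (Conf.cell (pvThM ω k)) := by
  ext p
  simp only [pvConfM, Conf.iUnion, Conf.image, Conf.cell, pvThM, mem_ofPred_eq, mem_iUnion, mem_image]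
  constructor
  · rintro ⟨⟨k, j⟩, hj, rfl⟩
    exact ⟨k, _, ⟨j, hj, rfl⟩, rfl⟩
  · rintro ⟨k, _, ⟨j, hj, rfl⟩, rfl⟩
    exact ⟨(k, j), hj, rfl⟩

theorem pvqu_shiftM_eq (k : ℤ × ℤ) :
    (pvShiftM k : (ℝ × ℝ) × M → ℂ × M) = Prod.map (fun x : ℝ × ℝ => Complex.measurableEquivRealProd.symm ((((k.1 : ℝ), (k.2 : ℝ)) : ℝ × ℝ) + x)) id := by
  funext u
  refine Prod.ext ?_ rfl
  apply Complex.ext <;> simp [pvShiftM, Complex.measurableEquivRealProd]

theorem pvqu_shift_meas (k : ℤ × ℤ) : Measurable (fun x : ℝ × ℝ => Complex.measurableEquivRealProd.symm ((((k.1 : ℝ), (k.2 : ℝ)) : ℝ × ℝ) + x)) :=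
  Complex.measurableEquivRealProd.symm.measurable.comp (measurable_const_add _)

theorem measurable_pvShiftM (k : ℤ × ℤ) : Measurable (pvShiftM k : (ℝ × ℝ) × M → ℂ × M) := by
  rw [pvqu_shiftM_eq]
  exact (pvqu_shift_meas k).prodMap measurable_id

theorem measurable_pvThM : Measurable (pvThM : PvSamM M → _) := by
  unfold pvThM
  fun_prop

theorem measurable_pvConfM : Measurable (pvConfM : PvSamM M → Conf (ℂ × M)) := by
  have : (pvConfM : PvSamM M → Conf (ℂ × M)) = fun ω => Conf.iUnion fun k => Conf.image (pvShiftM k) (Conf.cell (pvThM ω k)) := funext pvqu_confM_eq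
  rw [this]
  refine Conf.measurable_iUnion.comp (measurable_pi_lambda _ fun k => ?_)
  exact (Conf.measurable_image (measurable_pvShiftM k)).comp (Conf.measurable_cell.comp ((measurable_pi_apply k).comp measurable_pvThM))

variable (κ : Measure M) [IsProbabilityMeasure κ]

instance pvquLawMProb (ε : ℝ) : IsProbabilityMeasure (pvLawM ε κ) := by unfold pvLawM; infer_instance

theorem pvqu_sum_shiftM : Measure.sum (fun k => (pvUnit.prod κ).map (pvShiftM k)) = (volume : Measure ℂ).prod κ := by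
  have h1 : ∀ k, (pvUnit.prod κ).map (pvShiftM k) = (((volume : Measure (ℝ × ℝ)).restrict (pvSq k)).map Complex.measurableEquivRealProd.symm).prod κ := by
    intro k
    rw [pvqu_shiftM_eq, ← Measure.map_prod_map _ _ (pvqu_shift_meas k) measurable_id, Measure.map_id, ← map_shift_pvSq,
      Measure.map_map Complex.measurableEquivRealProd.symm.measurable (measurable_const_add _)]
    rfl
  simp_rw [h1]
  rw [← Measure.prod_sum_left, ← Measure.map_sum Complex.measurableEquivRealProd.symm.measurable.aemeasurable, sum_restrict_pvSq,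
    Complex.volume_preserving_equiv_real_prod.symm.map_eq]

/-- the unit cells are i.i.d. -/
theorem pvqu_lawM_th (ε : ℝ) :
    (pvLawM ε κ).map pvThM = Measure.infinitePi fun _ : ℤ × ℤ => (poissonMeasure (pvRate ε)).prod (Measure.infinitePi fun _ : ℕ => pvUnit.prod κ) := by
  have h1 : (pvThM : PvSamM M → _) = (fun p : (ℤ × ℤ → ℕ) × (ℤ × ℤ → ℕ → (ℝ × ℝ) × M) => fun k => (p.1 k, p.2 k))
      ∘ Prod.map id (MeasurableEquiv.curry (ℤ × ℤ) ℕ ((ℝ × ℝ) × M)) := by
    funext ω k; rfl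
  have hm : Measurable (fun p : (ℤ × ℤ → ℕ) × (ℤ × ℤ → ℕ → (ℝ × ℝ) × M) => fun k => (p.1 k, p.2 k)) := by fun_prop
  rw [h1, ← Measure.map_map hm (measurable_id.prodMap (MeasurableEquiv.curry _ _ _).measurable)]
  unfold pvLawM
  rw [← Measure.map_prod_map _ _ measurable_id (MeasurableEquiv.curry _ _ _).measurable, Measure.map_id,
    Measure.infinitePi_map_curry (fun (_ : ℤ × ℤ) (_ : ℕ) => pvUnit.prod κ), infinitePi_prod_zip]

/-- **the marked construction is the Poisson process of intensity `ε⁻² vol ⊗ κ`** -/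
theorem pvqu_isPppM (ε : ℝ) : IsPpp (ENNReal.ofReal ((ε⁻¹) ^ 2) • ((volume : Measure ℂ).prod κ)) ((pvLawM ε κ).map pvConfM) := by
  have hk : ∀ k : ℤ × ℤ, IsPpp (((pvRate ε : ℝ≥0∞) • (pvUnit.prod κ)).map (pvShiftM k))
      (((poissonMeasure (pvRate ε)).prod (Measure.infinitePi fun _ : ℕ => pvUnit.prod κ)).map fun y => Conf.image (pvShiftM k) (Conf.cell y)) := by
    intro k
    have := (isPpp_cell (pvRate ε) (pvUnit.prod κ)).map (measurable_pvShiftM k)
    rwa [Measure.map_map (Conf.measurable_image (measurable_pvShiftM k)) Conf.measurable_cell] at this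
  have h := IsPpp.iUnion hk
  have hint : (Measure.sum fun k => ((pvRate ε : ℝ≥0∞) • (pvUnit.prod κ)).map (pvShiftM k)) = ENNReal.ofReal ((ε⁻¹) ^ 2) • ((volume : Measure ℂ).prod κ) := by
    have : ∀ k, ((pvRate ε : ℝ≥0∞) • (pvUnit.prod κ)).map (pvShiftM k) = (pvRate ε : ℝ≥0∞) • (pvUnit.prod κ).map (pvShiftM k) := fun k => Measure.map_smul _ _ _
    simp_rw [this]
    have h2 : (Measure.sum fun k => (pvRate ε : ℝ≥0∞) • (pvUnit.prod κ).map (pvShiftM k)) = (pvRate ε : ℝ≥0∞) • Measure.sum fun k => (pvUnit.prod κ).map (pvShiftM k) := by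
      ext s hs
      simp only [Measure.sum_apply _ hs, Measure.smul_apply, smul_eq_mul, ENNReal.tsum_mul_left]
    rw [h2, pvqu_sum_shiftM]
    rfl
  rw [hint] at h
  have hg : ∀ k : ℤ × ℤ, Measurable fun y : ℕ × (ℕ → (ℝ × ℝ) × M) => Conf.image (pvShiftM k) (Conf.cell y) := fun k =>
    (Conf.measurable_image (measurable_pvShiftM k)).comp Conf.measurable_cell
  have e : (pvLawM ε κ).map pvConfM
      = (Measure.infinitePi fun k : ℤ × ℤ => ((poissonMeasure (pvRate ε)).prod (Measure.infinitePi fun _ : ℕ => pvUnit.prod κ)).map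
          fun y => Conf.image (pvShiftM k) (Conf.cell y)).map Conf.iUnion := by
    have hG : Measurable fun (x : ℤ × ℤ → ℕ × (ℕ → (ℝ × ℝ) × M)) (k : ℤ × ℤ) => Conf.image (pvShiftM k) (Conf.cell (x k)) :=
      measurable_pi_lambda _ fun k => (hg k).comp (measurable_pi_apply k)
    rw [← Measure.infinitePi_map_pi _ hg, ← pvqu_lawM_th, Measure.map_map hG measurable_pvThM,
      Measure.map_map Conf.measurable_iUnion (hG.comp measurable_pvThM)]
    congr 1
    funext ω
    exact pvqu_confM_eq ω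
  rw [e]
  exact h

end marked

/-! ## 7. two replicas as ONE Poisson process with two colours per site; colour flip; the quenched law as a measure -/

/-- a point with two colours -/
abbrev PvPt2 := ℂ × Bool × Bool

/-- geometry + two colourings = sample with marks in `Bool × Bool` -/
def pvMerge2 (x : PvGeoT × PvColT × PvColT) : PvSamM (Bool × Bool) := (x.1.1, fun i => (x.1.2 i, (x.2.1 i, x.2.2 i)))

/-- the law of the two-coloured configuration: one geometry, two independent colourings -/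
noncomputable def pvP2 (ε : ℝ) : Measure (Conf PvPt2) := (pvLawM ε (pvCoin.prod pvCoin)).map pvConfM

/-- forget the second colour -/
def cfP1 (ξ : Conf PvPt2) : Conf PvPt := Conf.image (fun p : PvPt2 => (p.1, p.2.1)) ξ

/-- forget the first colour -/
def cfP2 (ξ : Conf PvPt2) : Conf PvPt := Conf.image (fun p : PvPt2 => (p.1, p.2.2)) ξ

theorem pvqu_eqns_cite9 : True := by
  have := @pvMerge2.eq_1; have := @pvP2.eq_1; have := @cfP1.eq_1; have := @cfP2.eq_1
  trivial

theorem measurable_pvMerge2 : Measurable pvMerge2 := by unfold pvMerge2; fun_prop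

theorem measurable_cfP1 : Measurable cfP1 := Conf.measurable_image (by fun_prop)

theorem measurable_cfP2 : Measurable cfP2 := Conf.measurable_image (by fun_prop)

/-- **the two-coloured configuration is the Poisson process of intensity `ε⁻² vol ⊗ coin ⊗ coin`** -/
theorem pvqu_P2_isPpp (ε : ℝ) : IsPpp (ENNReal.ofReal ((ε⁻¹) ^ 2) • ((volume : Measure ℂ).prod (pvCoin.prod pvCoin))) (pvP2 ε) :=
  pvqu_isPppM (pvCoin.prod pvCoin) ε

instance pvquP2Prob (ε : ℝ) : IsProbabilityMeasure (pvP2 ε) := (pvqu_P2_isPpp ε).prob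

theorem pvqu_lawM2 (ε : ℝ) : pvLawM ε (pvCoin.prod pvCoin) = ((pvGeo ε).prod (pvCol.prod pvCol)).map pvMerge2 := by
  have hz1 : Measurable fun p : (PvIx → Bool) × (PvIx → Bool) => fun i => (p.1 i, p.2 i) := by fun_prop
  have hz2 : Measurable fun p : (PvIx → ℝ × ℝ) × (PvIx → Bool × Bool) => fun i => (p.1 i, p.2 i) := by fun_prop
  have h1 : Measure.infinitePi (fun _ : PvIx => pvCoin.prod pvCoin) = (pvCol.prod pvCol).map fun p i => (p.1 i, p.2 i) :=
    (infinitePi_prod_zip (fun _ : PvIx => pvCoin) (fun _ : PvIx => pvCoin)).symm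
  have h2 : Measure.infinitePi (fun _ : PvIx => pvUnit.prod (pvCoin.prod pvCoin))
      = ((Measure.infinitePi fun _ : PvIx => pvUnit).prod (Measure.infinitePi fun _ : PvIx => pvCoin.prod pvCoin)).map fun p i => (p.1 i, p.2 i) :=
    (infinitePi_prod_zip (fun _ : PvIx => pvUnit) (fun _ : PvIx => pvCoin.prod pvCoin)).symm
  have h3 := Measure.map_prod_map (Measure.infinitePi fun _ : PvIx => pvUnit) (pvCol.prod pvCol) measurable_id hz1
  rw [Measure.map_id] at h3
  unfold pvLawM
  rw [h2, h1, h3, Measure.map_map hz2 (measurable_id.prodMap hz1)]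
  have hz3 : Measurable ((fun p : (PvIx → ℝ × ℝ) × (PvIx → Bool × Bool) => fun i => (p.1 i, p.2 i)) ∘
      Prod.map id fun p : (PvIx → Bool) × (PvIx → Bool) => fun i => (p.1 i, p.2 i)) := hz2.comp (measurable_id.prodMap hz1)
  have h4 := Measure.map_prod_map (Measure.infinitePi fun _ : ℤ × ℤ => poissonMeasure (pvRate ε))
    ((Measure.infinitePi fun _ : PvIx => pvUnit).prod (pvCol.prod pvCol)) measurable_id hz3
  rw [Measure.map_id] at h4
  rw [h4, ← Measure.prodAssoc_prod, Measure.map_map (measurable_id.prodMap hz3) MeasurableEquiv.prodAssoc.measurable]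
  rfl

theorem pvqu_P2_eq (ε : ℝ) : pvP2 ε = ((pvGeo ε).prod (pvCol.prod pvCol)).map fun x => pvConfM (pvMerge2 x) := by
  unfold pvP2
  rw [pvqu_lawM2, Measure.map_map measurable_pvConfM measurable_pvMerge2]
  rfl

theorem pvqu_P1_merge2 (g : PvGeoT) (c c' : PvColT) : cfP1 (pvConfM (pvMerge2 (g, c, c'))) = pvConf (pvMerge (g, c)) := by
  ext p
  rw [pvqu_mem_conf]
  simp only [cfP1, Conf.image, pvConfM, mem_image, mem_ofPred_eq]
  constructor
  · rintro ⟨_, ⟨i, hi, rfl⟩, rfl⟩
    exact ⟨i, hi, rfl⟩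
  · rintro ⟨i, hi, rfl⟩
    exact ⟨_, ⟨i, hi, rfl⟩, rfl⟩

theorem pvqu_P2_merge2 (g : PvGeoT) (c c' : PvColT) : cfP2 (pvConfM (pvMerge2 (g, c, c'))) = pvConf (pvMerge (g, c')) := by
  ext p
  rw [pvqu_mem_conf]
  simp only [cfP2, Conf.image, pvConfM, mem_image, mem_ofPred_eq]
  constructor
  · rintro ⟨_, ⟨i, hi, rfl⟩, rfl⟩
    exact ⟨i, hi, rfl⟩
  · rintro ⟨i, hi, rfl⟩
    exact ⟨_, ⟨i, hi, rfl⟩, rfl⟩

/-- **TWO REPLICAS**: the mean of a product of quenched probabilities is a probability for the two-coloured Poisson process -/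
theorem pvqu_Qc_mul_lintegral (ε : ℝ) {𝒜 ℬ : Set (Conf PvPt)} (hA : MeasurableSet 𝒜) (hB : MeasurableSet ℬ) :
    ∫⁻ g, pvQc 𝒜 g * pvQc ℬ g ∂(pvGeo ε) = pvP2 ε (cfP1 ⁻¹' 𝒜 ∩ cfP2 ⁻¹' ℬ) := by
  unfold pvQc
  have hm : Measurable fun x : PvGeoT × PvColT × PvColT => pvConfM (pvMerge2 x) := measurable_pvConfM.comp measurable_pvMerge2
  rw [pvqu_Q_mul_lintegral ε (measurable_pvConf hA) (measurable_pvConf hB), pvqu_P2_eq,
    Measure.map_apply hm ((measurable_cfP1 hA).inter (measurable_cfP2 hB))]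
  congr 1
  ext ⟨g, c, c'⟩
  simp only [mem_ofPred_eq, mem_preimage, mem_inter_iff, pvqu_P1_merge2, pvqu_P2_merge2]

/-- the marginals of the two-coloured process -/
theorem pvqu_P2_map1 (ε : ℝ) : (pvP2 ε).map cfP1 = pvP ε := by
  refine IsPpp.unique ((pvqu_P2_isPpp ε).map (by fun_prop : Measurable fun p : PvPt2 => (p.1, p.2.1))) ?_
  have e : (ENNReal.ofReal ((ε⁻¹) ^ 2) • ((volume : Measure ℂ).prod (pvCoin.prod pvCoin))).map (fun p : PvPt2 => (p.1, p.2.1)) = pvInt ε := by
    have : (fun p : PvPt2 => (p.1, p.2.1)) = Prod.map id Prod.fst := rfl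
    unfold pvInt
    rw [Measure.map_smul, this, ← Measure.map_prod_map _ _ measurable_id measurable_fst, Measure.map_id, Measure.map_fst_prod, measure_univ, one_smul]
  rw [e]
  exact pv_isPpp ε

theorem pvqu_P2_map2 (ε : ℝ) : (pvP2 ε).map cfP2 = pvP ε := by
  refine IsPpp.unique ((pvqu_P2_isPpp ε).map (by fun_prop : Measurable fun p : PvPt2 => (p.1, p.2.2))) ?_
  have e : (ENNReal.ofReal ((ε⁻¹) ^ 2) • ((volume : Measure ℂ).prod (pvCoin.prod pvCoin))).map (fun p : PvPt2 => (p.1, p.2.2)) = pvInt ε := by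
    have : (fun p : PvPt2 => (p.1, p.2.2)) = Prod.map id Prod.snd := rfl
    unfold pvInt
    rw [Measure.map_smul, this, ← Measure.map_prod_map _ _ measurable_id measurable_snd, Measure.map_id, Measure.map_snd_prod, measure_univ, one_smul]
  rw [e]
  exact pv_isPpp ε

/-! ### colour flip -/

/-- the flip of a colouring, as a measurable equivalence -/
def pvColFlip : PvColT ≃ᵐ PvColT where
  toFun c i := !c i
  invFun c i := !c i
  left_inv c := by funext i; simp
  right_inv c := by funext i; simp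
  measurable_toFun := measurable_pi_lambda _ fun i => (measurable_of_countable not).comp (measurable_pi_apply i)
  measurable_invFun := measurable_pi_lambda _ fun i => (measurable_of_countable not).comp (measurable_pi_apply i)

theorem pvqu_col_flip : MeasurePreserving pvColFlip pvCol pvCol := by
  refine ⟨pvColFlip.measurable, ?_⟩
  have h := Measure.infinitePi_map_pi (fun _ : PvIx => pvCoin) (f := fun _ => not) fun _ => measurable_of_countable _
  simp only [pvCoin_map_not] at h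
  exact h

theorem pvqu_flip_conf (g : PvGeoT) (c : PvColT) : cfFlip (pvConf (pvMerge (g, c))) = pvConf (pvMerge (g, pvColFlip c)) := by
  ext p
  rw [pvqu_mem_conf]
  simp only [cfFlip, Conf.image, mem_image, pvqu_mem_conf]
  constructor
  · rintro ⟨_, ⟨i, hi, rfl⟩, rfl⟩
    exact ⟨i, hi, rfl⟩
  · rintro ⟨i, hi, rfl⟩
    exact ⟨_, ⟨i, hi, rfl⟩, rfl⟩

/-- **the quenched probability is invariant under the colour flip** (no measurability) -/
theorem pvqu_Qc_flip (𝒜 : Set (Conf PvPt)) (g : PvGeoT) : pvQc (cfFlip ⁻¹' 𝒜) g = pvQc 𝒜 g := by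
  rw [pvqu_Qc_eq, pvqu_Qc_eq, ← pvqu_col_flip.measure_preimage_equiv {c | pvConf (pvMerge (g, c)) ∈ 𝒜}]
  congr 1
  ext c
  simp only [mem_ofPred_eq, mem_preimage, pvqu_flip_conf]

/-! ### calculus of `pvQc`, the quenched law as a measure -/

theorem pvqu_Qc_le_one (𝒜 : Set (Conf PvPt)) (g : PvGeoT) : pvQc 𝒜 g ≤ 1 := pvqu_Q_le_one _ g

theorem pvqu_Qc_ne_top (𝒜 : Set (Conf PvPt)) (g : PvGeoT) : pvQc 𝒜 g ≠ ∞ := pvqu_Q_ne_top _ g

theorem pvqu_Qc_mono {𝒜 ℬ : Set (Conf PvPt)} (h : 𝒜 ⊆ ℬ) (g : PvGeoT) : pvQc 𝒜 g ≤ pvQc ℬ g := pvqu_Q_mono (preimage_mono h) g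

theorem pvqu_Qc_univ (g : PvGeoT) : pvQc univ g = 1 := pvqu_Q_univ g

theorem pvqu_Qc_empty (g : PvGeoT) : pvQc ∅ g = 0 := pvqu_Q_empty g

theorem pvqu_Qc_union_le (𝒜 ℬ : Set (Conf PvPt)) (g : PvGeoT) : pvQc (𝒜 ∪ ℬ) g ≤ pvQc 𝒜 g + pvQc ℬ g := pvqu_Q_union_le _ _ g

theorem pvqu_Qc_iUnion_le {ι : Type*} [Countable ι] (𝒜 : ι → Set (Conf PvPt)) (g : PvGeoT) : pvQc (⋃ i, 𝒜 i) g ≤ ∑' i, pvQc (𝒜 i) g := by
  unfold pvQc
  rw [preimage_iUnion]
  exact pvqu_Q_iUnion_le _ g

theorem pvqu_Qc_compl {𝒜 : Set (Conf PvPt)} (h : MeasurableSet 𝒜) (g : PvGeoT) : pvQc 𝒜ᶜ g = 1 - pvQc 𝒜 g :=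
  pvqu_Q_compl (measurable_pvConf h) g

/-- the quenched law of the coloured configuration -/
noncomputable def pvQm (g : PvGeoT) : Measure (Conf PvPt) := pvCol.map fun c => pvConf (pvMerge (g, c))

theorem pvqu_Qm_meas (g : PvGeoT) : Measurable fun c : PvColT => pvConf (pvMerge (g, c)) :=
  measurable_pvConf.comp (measurable_pvMerge.comp measurable_prodMk_left)

instance pvquQmProb (g : PvGeoT) : IsProbabilityMeasure (pvQm g) := Measure.isProbabilityMeasure_map (pvqu_Qm_meas g).aemeasurable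

theorem pvqu_Qm_apply (g : PvGeoT) {𝒜 : Set (Conf PvPt)} (h : MeasurableSet 𝒜) : pvQm g 𝒜 = pvQc 𝒜 g :=
  Measure.map_apply (pvqu_Qm_meas g) h

/-- the annealed law is the mixture of the quenched laws -/
theorem pvqu_Qm_bind (ε : ℝ) {𝒜 : Set (Conf PvPt)} (h : MeasurableSet 𝒜) : ∫⁻ g, pvQm g 𝒜 ∂(pvGeo ε) = pvP ε 𝒜 := by
  simp only [pvqu_Qm_apply _ h]
  exact pvqu_Qc_lintegral ε h

theorem pvqu_eqns_cite10 : True := by
  have := @pvColFlip.eq_1; have := @pvQm.eq_1
  trivial

end Claimed.Agent.R289
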