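import Claimed.Agent.R289.Defs.Frozen

/-!
# Row 289 (S0537, Cardy's formula for Poisson-Voronoi percolation), BOX CX2      (owner helper197; prefix `pvcy_`, `PvChart`)

MODEL FREE complex analysis of the end game of Sec. 8 (08-observable.tex l.465-585), with the chart `ψ` GIVEN by the frozen statement (no Riemann map, no Caratheodory).
* `pvcy_glue`    a continuous function on `ℂ` which is holomorphic off the real line is entire (Morera of Mathlib, rectangles split at `im = 0`);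
* `pvcy_rigid`   REFLECTION + LIOUVILLE: `k` continuous on `{0 ≤ im}`, holomorphic on `{0 < im}`, real on `ℝ`, `k 0 = k 1 = 0`, `‖k z‖ ≤ C (1 + ‖z‖)^(4/3)`  ⟹  `k = 0`      (steps (5), (6) of the design of CX1, helper174);
* `PvChart D d ψ` the hypotheses of the frozen statement on `ψ`;   `pvcyInv` its inverse on the closed half plane: `pvcy_inv_continuousOn`, `pvcy_comp_differentiableOn` (`F ∘ ψ⁻¹` is holomorphic: removable singularities, no univalence lemma);
* `pvcy_transfer` `F` holomorphic on `D`, bounded, continuous up to the three open arcs, values on the three side lines of an equilateral triangle ⟹ `F b = w0 + cardyF (ψ b).re (w1 - w0)`, FROM the uniqueness on the half plane (`PvcyUniq`, = `pvcx_uniq` of CX1).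
-/

set_option autoImplicit false

namespace Claimed.Agent.R289

open Claims Claims.C0465
open MeasureTheory Filter Topology Set Complex
open scoped Interval ComplexConjugate

/-! ## 1. gluing along the real line -/

/-- the boundary integral of a rectangle -/
noncomputable def pvcyB (K : ℂ → ℂ) (a b c d : ℝ) : ℂ :=
  (∫ x : ℝ in a..b, K (x + c * I)) - (∫ x : ℝ in a..b, K (x + d * I)) + I • (∫ y : ℝ in c..d, K (b + y * I)) -
    I • ∫ y : ℝ in c..d, K (a + y * I)

theorem pvcy_B_add {K : ℂ → ℂ} (hc : Continuous K) (a b c e d : ℝ) : pvcyB K a b c d = pvcyB K a b c e + pvcyB K a b e d := by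
  have h1 : ∀ r : ℝ, Continuous fun y : ℝ => K (r + y * I) := fun r => by fun_prop
  have i1 : ∀ (r u v : ℝ), IntervalIntegrable (fun y : ℝ => K (r + y * I)) volume u v := fun r u v =>
    (h1 r).intervalIntegrable u v
  unfold pvcyB
  rw [← intervalIntegral.integral_add_adjacent_intervals (i1 b c e) (i1 b e d),
    ← intervalIntegral.integral_add_adjacent_intervals (i1 a c e) (i1 a e d)]
  simp only [smul_add]
  ring

theorem pvcy_B_half {K : ℂ → ℂ} (hc : Continuous K) {U : Set ℂ} (hU : DifferentiableOn ℂ K U) (a b c d : ℝ)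
    (h : ∀ z : ℂ, z.im ∈ Ioo (min c d) (max c d) → z ∈ U) : pvcyB K a b c d = 0 := by
  have := Complex.integral_boundary_rect_eq_zero_of_continuousOn_of_differentiableOn K (a + c * I) (b + d * I)
    hc.continuousOn (hU.mono fun z hz => h z (by simpa using hz.2))
  simpa [pvcyB] using this

/-- **a continuous function which is holomorphic off the real line is entire** -/
theorem pvcy_glue {K : ℂ → ℂ} (hc : Continuous K) (hu : DifferentiableOn ℂ K {z | 0 < z.im})
    (hl : DifferentiableOn ℂ K {z | z.im < 0}) : Differentiable ℂ K := by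
  have key : ∀ a b c : ℝ, pvcyB K a b c 0 = 0 ∧ pvcyB K a b 0 c = 0 := by
    intro a b c
    rcases le_total 0 c with h | h
    · exact ⟨pvcy_B_half hc hu a b c 0 fun z hz => by
        have := hz.1; rw [min_eq_right h] at this; exact this,
        pvcy_B_half hc hu a b 0 c fun z hz => by
        have := hz.1; rw [min_eq_left h] at this; exact this⟩
    · exact ⟨pvcy_B_half hc hl a b c 0 fun z hz => by
        have := hz.2; rw [max_eq_right h] at this; exact this,
        pvcy_B_half hc hl a b 0 c fun z hz => by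
        have := hz.2; rw [max_eq_left h] at this; exact this⟩
  have cons : IsConservativeOn K univ := by
    intro z w _
    rw [← add_eq_zero_iff_eq_neg, wedgeIntegral_add_wedgeIntegral_eq]
    have := pvcy_B_add hc z.re w.re z.im 0 w.im
    rw [(key z.re w.re z.im).1, (key z.re w.re w.im).2, add_zero] at this
    exact this
  have := (isConservativeOn_and_continuousOn_iff_isDifferentiableOn isOpen_univ).1 ⟨cons, hc.continuousOn⟩
  exact differentiableOn_univ.1 this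

/-! ## 2. reflection + Liouville -/

/-- the reflected function -/
noncomputable def pvcyR (k : ℂ → ℂ) (z : ℂ) : ℂ := if 0 ≤ z.im then k z else conj (k (conj z))

theorem pvcy_R_low {k : ℂ → ℂ} (hr : ∀ x : ℝ, (k x).im = 0) {z : ℂ} (hz : z.im ≤ 0) : pvcyR k z = conj (k (conj z)) := by
  unfold pvcyR
  rcases hz.lt_or_eq with h | h
  · rw [if_neg (not_le.2 h)]
  · rw [if_pos h.ge]
    have e : z = (z.re : ℂ) := by
      apply Complex.ext <;> simp [h]
    rw [e, conj_ofReal]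
    exact (conj_eq_iff_im.2 (hr z.re)).symm

theorem pvcy_R_continuous {k : ℂ → ℂ} (hc : ContinuousOn k {z | 0 ≤ z.im}) (hr : ∀ x : ℝ, (k x).im = 0) :
    Continuous (pvcyR k) := by
  rw [← continuousOn_univ]
  have e : (univ : Set ℂ) = {z | 0 ≤ z.im} ∪ {z | z.im ≤ 0} := by
    ext z
    simpa using le_total 0 z.im
  rw [e]
  refine ContinuousOn.union_of_isClosed ?_ ?_ (isClosed_le continuous_const continuous_im)
    (isClosed_le continuous_im continuous_const)
  · exact hc.congr fun z hz => if_pos hz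
  · have h1 : ContinuousOn (fun z => conj (k (conj z))) {z | z.im ≤ 0} := by
      refine continuous_conj.comp_continuousOn (hc.comp continuous_conj.continuousOn fun z hz => ?_)
      have : z.im ≤ 0 := hz
      simpa using this
    exact h1.congr fun z hz => pvcy_R_low hr hz

theorem pvcy_R_entire {k : ℂ → ℂ} (hc : ContinuousOn k {z | 0 ≤ z.im}) (hd : DifferentiableOn ℂ k {z | 0 < z.im})
    (hr : ∀ x : ℝ, (k x).im = 0) : Differentiable ℂ (pvcyR k) := by
  have ho : IsOpen {z : ℂ | 0 < z.im} := isOpen_lt continuous_const continuous_im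
  have ho' : IsOpen {z : ℂ | z.im < 0} := isOpen_lt continuous_im continuous_const
  refine pvcy_glue (pvcy_R_continuous hc hr) ?_ ?_
  · exact hd.congr fun z hz => if_pos (le_of_lt hz)
  · intro z hz
    have hz' : z.im < 0 := hz
    have h1 : DifferentiableAt ℂ k (conj z) := (hd (conj z) (by simpa using hz')).differentiableAt
      (ho.mem_nhds (by simpa using hz'))
    have h2 : DifferentiableAt ℂ (conj ∘ k ∘ conj) z := differentiableAt_conj_conj_iff.2 h1
    refine (h2.congr_of_eventuallyEq ?_).differentiableWithinAt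
    filter_upwards [ho'.mem_nhds hz] with w hw
    exact pvcy_R_low hr (le_of_lt hw)

theorem pvcy_R_norm {k : ℂ → ℂ} {C : ℝ} (hg : ∀ z : ℂ, 0 ≤ z.im → ‖k z‖ ≤ C * (1 + ‖z‖) ^ (4 / 3 : ℝ)) (z : ℂ) :
    ‖pvcyR k z‖ ≤ C * (1 + ‖z‖) ^ (4 / 3 : ℝ) := by
  unfold pvcyR
  split_ifs with h
  · exact hg z h
  · have := hg (conj z) (by simpa using (not_le.1 h).le)
    simpa using this

/-- an entire function with two zeros and growth of order `4/3` vanishes -/
theorem pvcy_liouville {K : ℂ → ℂ} (hK : Differentiable ℂ K) (h0 : K 0 = 0) (h1 : K 1 = 0) {C : ℝ}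
    (hg : ∀ z : ℂ, ‖K z‖ ≤ C * (1 + ‖z‖) ^ (4 / 3 : ℝ)) (z : ℂ) : K z = 0 := by
  have d1 : Differentiable ℂ (dslope K 0) :=
    differentiableOn_univ.1 ((differentiableOn_dslope univ_mem).2 hK.differentiableOn)
  have d2 : Differentiable ℂ (dslope (dslope K 0) 1) :=
    differentiableOn_univ.1 ((differentiableOn_dslope univ_mem).2 d1.differentiableOn)
  have e1 : ∀ w : ℂ, w ≠ 0 → dslope K 0 w = w⁻¹ * K w := by
    intro w hw
    rw [dslope_of_ne _ hw, slope_def_module, h0]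
    simp
  have e2 : ∀ w : ℂ, w ≠ 0 → w ≠ 1 → dslope (dslope K 0) 1 w = (w - 1)⁻¹ * (w⁻¹ * K w) := by
    intro w hw hw1
    rw [dslope_of_ne _ hw1, slope_def_module, e1 w hw, e1 1 one_ne_zero, h1]
    simp
  have hC : 0 ≤ C := by
    have := (norm_nonneg _).trans (hg 0)
    simpa using this
  have lim : Tendsto (dslope (dslope K 0) 1) (cocompact ℂ) (𝓝 0) := by
    have l1 : Tendsto (fun w : ℂ => C * 8 * ‖w‖ ^ (-(2 / 3) : ℝ)) (cocompact ℂ) (𝓝 (C * 8 * 0)) :=
      ((tendsto_rpow_neg_atTop (by norm_num : (0 : ℝ) < 2 / 3)).comp (tendsto_norm_cocompact_atTop (E := ℂ))).const_mul _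
    rw [mul_zero] at l1
    refine squeeze_zero_norm' ?_ l1
    filter_upwards [(tendsto_norm_cocompact_atTop (E := ℂ)).eventually_ge_atTop 2] with w hw
    have hw0 : w ≠ 0 := by
      rintro rfl
      rw [norm_zero] at hw
      linarith
    have hw1 : w ≠ 1 := by
      rintro rfl
      rw [norm_one] at hw
      linarith
    have hn : 0 < ‖w‖ := by linarith
    rw [e2 w hw0 hw1, norm_mul, norm_mul, norm_inv, norm_inv]
    have a1 : ‖w‖ / 2 ≤ ‖w - 1‖ := by
      have := norm_sub_norm_le w 1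
      simp only [norm_one] at this
      linarith
    have a2 : ‖w - 1‖⁻¹ ≤ 2 * ‖w‖⁻¹ := by
      rw [inv_le_comm₀ (by linarith) (by positivity)]
      rw [mul_inv, inv_inv]
      linarith
    have a3 : (1 + ‖w‖) ^ (4 / 3 : ℝ) ≤ 4 * ‖w‖ ^ (4 / 3 : ℝ) := by
      calc (1 + ‖w‖) ^ (4 / 3 : ℝ) ≤ (2 * ‖w‖) ^ (4 / 3 : ℝ) := Real.rpow_le_rpow (by positivity) (by linarith) (by norm_num)
        _ = 2 ^ (4 / 3 : ℝ) * ‖w‖ ^ (4 / 3 : ℝ) := Real.mul_rpow (by norm_num) hn.le
        _ ≤ 2 ^ (2 : ℝ) * ‖w‖ ^ (4 / 3 : ℝ) := by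
            refine mul_le_mul_of_nonneg_right (Real.rpow_le_rpow_of_exponent_le (by norm_num) (by norm_num)) (by positivity)
        _ = 4 * ‖w‖ ^ (4 / 3 : ℝ) := by norm_num
    have a4 : ‖w‖⁻¹ * ‖w‖⁻¹ * ‖w‖ ^ (4 / 3 : ℝ) = ‖w‖ ^ (-(2 / 3) : ℝ) := by
      rw [← Real.rpow_neg_one, ← Real.rpow_add hn, ← Real.rpow_add hn]
      norm_num
    calc ‖w - 1‖⁻¹ * (‖w‖⁻¹ * ‖K w‖) ≤ (2 * ‖w‖⁻¹) * (‖w‖⁻¹ * (C * (4 * ‖w‖ ^ (4 / 3 : ℝ)))) := by
          refine mul_le_mul a2 (mul_le_mul_of_nonneg_left ((hg w).trans (mul_le_mul_of_nonneg_left a3 hC)) (by positivity))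
            (by positivity) (by positivity)
      _ = C * 8 * (‖w‖⁻¹ * ‖w‖⁻¹ * ‖w‖ ^ (4 / 3 : ℝ)) := by ring
      _ = C * 8 * ‖w‖ ^ (-(2 / 3) : ℝ) := by rw [a4]
  by_cases hz0 : z = 0
  · rw [hz0, h0]
  by_cases hz1 : z = 1
  · rw [hz1, h1]
  have := d2.apply_eq_of_tendsto_cocompact z lim
  rw [e2 z hz0 hz1] at this
  have h3 : (z - 1)⁻¹ ≠ 0 := inv_ne_zero (sub_ne_zero.2 hz1)
  have h4 : z⁻¹ ≠ 0 := inv_ne_zero hz0
  rcases mul_eq_zero.1 this with h | h
  · exact absurd h h3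
  · rcases mul_eq_zero.1 h with h | h
    · exact absurd h h4
    · exact h

/-- **REFLECTION + LIOUVILLE** -/
theorem pvcy_rigid {k : ℂ → ℂ} (hc : ContinuousOn k {z | 0 ≤ z.im}) (hd : DifferentiableOn ℂ k {z | 0 < z.im})
    (hr : ∀ x : ℝ, (k x).im = 0) (h0 : k 0 = 0) (h1 : k 1 = 0) {C : ℝ}
    (hg : ∀ z : ℂ, 0 ≤ z.im → ‖k z‖ ≤ C * (1 + ‖z‖) ^ (4 / 3 : ℝ)) (z : ℂ) (hz : 0 ≤ z.im) : k z = 0 := by
  have := pvcy_liouville (pvcy_R_entire hc hd hr) (by simp [pvcyR, h0]) (by simp [pvcyR, h1]) (pvcy_R_norm hg) z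
  rwa [pvcyR, if_pos hz] at this

/-! ## 3. the chart of the frozen statement and its inverse -/

/-- the hypotheses of the frozen statement on the chart `ψ : (D; d) → (ℍ; ∞)` -/
structure PvChart (D : Set ℂ) (d : ℂ) (ψ : ℂ → ℂ) : Prop where
  isOpen : IsOpen D
  bdd : Bornology.IsBounded D
  hd : d ∈ frontier D
  hol : DifferentiableOn ℂ ψ D
  inj : InjOn ψ (closure D \ {d})
  cont : ContinuousOn ψ (closure D \ {d})
  imgD : ψ '' D = {z | 0 < z.im}
  imgB : ψ '' (frontier D \ {d}) = {z | z.im = 0}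
  atd : Tendsto (fun z => ‖ψ z‖) (𝓝[closure D \ {d}] d) atTop

/-- the inverse of the chart on the closed half plane -/
noncomputable def pvcyInv (D : Set ℂ) (d : ℂ) (ψ : ℂ → ℂ) : ℂ → ℂ := Function.invFunOn ψ (closure D \ {d})

theorem pvcy_eqns_cite : True := by
  have := @pvcyB.eq_1
  have := @pvcyR.eq_1
  have := @pvcyInv.eq_1
  trivial

namespace PvChart

variable {D : Set ℂ} {d : ℂ} {ψ : ℂ → ℂ}

theorem d_notMem (h : PvChart D d ψ) : d ∉ D := fun hd => by
  have := h.hd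
  rw [h.isOpen.frontier_eq] at this
  exact this.2 hd

theorem split (h : PvChart D d ψ) : closure D \ {d} = D ∪ (frontier D \ {d}) := by
  ext z
  constructor
  · rintro ⟨h1, h2⟩
    by_cases hz : z ∈ D
    · exact Or.inl hz
    · refine Or.inr ⟨?_, h2⟩
      rw [h.isOpen.frontier_eq]
      exact ⟨h1, hz⟩
  · rintro (hz | hz)
    · exact ⟨subset_closure hz, fun e => h.d_notMem (e ▸ hz)⟩
    · exact ⟨frontier_subset_closure hz.1, hz.2⟩

theorem sub (h : PvChart D d ψ) : D ⊆ closure D \ {d} := by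
  rw [h.split]
  exact subset_union_left

theorem img (h : PvChart D d ψ) : ψ '' (closure D \ {d}) = {z | 0 ≤ z.im} := by
  rw [h.split, image_union, h.imgD, h.imgB]
  ext z
  simp only [mem_union, mem_ofPred_eq]
  constructor
  · rintro (hz | hz)
    · exact hz.le
    · exact hz.ge
  · intro hz
    rcases hz.lt_or_eq with h1 | h1
    · exact Or.inl h1
    · exact Or.inr h1.symm

theorem inv_mem (h : PvChart D d ψ) {w : ℂ} (hw : 0 ≤ w.im) : pvcyInv D d ψ w ∈ closure D \ {d} := by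
  have : w ∈ ψ '' (closure D \ {d}) := by rw [h.img]; exact hw
  exact Function.invFunOn_mem this

theorem psi_inv (h : PvChart D d ψ) {w : ℂ} (hw : 0 ≤ w.im) : ψ (pvcyInv D d ψ w) = w := by
  have : w ∈ ψ '' (closure D \ {d}) := by rw [h.img]; exact hw
  exact Function.invFunOn_eq this

theorem inv_psi (h : PvChart D d ψ) {z : ℂ} (hz : z ∈ closure D \ {d}) : pvcyInv D d ψ (ψ z) = z :=
  h.inj.leftInvOn_invFunOn hz

theorem inv_mem_D (h : PvChart D d ψ) {w : ℂ} (hw : 0 < w.im) : pvcyInv D d ψ w ∈ D := by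
  have : w ∈ ψ '' D := by rw [h.imgD]; exact hw
  obtain ⟨z, hz, rfl⟩ := this
  rw [h.inv_psi (h.sub hz)]
  exact hz

theorem inv_mem_frontier (h : PvChart D d ψ) {w : ℂ} (hw : w.im = 0) : pvcyInv D d ψ w ∈ frontier D \ {d} := by
  have : w ∈ ψ '' (frontier D \ {d}) := by rw [h.imgB]; exact hw
  obtain ⟨z, hz, rfl⟩ := this
  have hz' : z ∈ closure D \ {d} := by rw [h.split]; exact Or.inr hz
  rw [h.inv_psi hz']
  exact hz

theorem im_eq_zero (h : PvChart D d ψ) {z : ℂ} (hz : z ∈ frontier D) (hzd : z ≠ d) : (ψ z).im = 0 := by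
  have : ψ z ∈ ψ '' (frontier D \ {d}) := ⟨z, ⟨hz, hzd⟩, rfl⟩
  rw [h.imgB] at this
  exact this

/-- the sublevel sets of `‖ψ‖` are compact -/
theorem isCompact_sublevel (h : PvChart D d ψ) (R : ℝ) : IsCompact {z | z ∈ closure D \ {d} ∧ ‖ψ z‖ ≤ R} := by
  refine h.bdd.isCompact_closure.of_isClosed_subset ?_ fun z hz => hz.1.1
  refine isClosed_of_closure_subset fun z hz => ?_
  have hzD : z ∈ closure D := closure_minimal (fun y hy => hy.1.1) isClosed_closure hz
  by_cases hzd : z = d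
  · exfalso
    subst hzd
    have h1 : ∀ᶠ y in 𝓝[closure D \ {z}] z, R < ‖ψ y‖ := h.atd.eventually_gt_atTop R
    obtain ⟨U, hU, hUS⟩ := mem_nhdsWithin_iff_exists_mem_nhds_inter.1 h1
    obtain ⟨y, hyU, hyK⟩ := mem_closure_iff_nhds.1 hz U hU
    have : R < ‖ψ y‖ := hUS ⟨hyU, hyK.1⟩
    exact absurd hyK.2 (not_le.2 this)
  · refine ⟨⟨hzD, hzd⟩, ?_⟩
    have : (𝓝[{z | z ∈ closure D \ {d} ∧ ‖ψ z‖ ≤ R}] z).NeBot := mem_closure_iff_nhdsWithin_neBot.1 hz
    have h1 : Tendsto ψ (𝓝[{z | z ∈ closure D \ {d} ∧ ‖ψ z‖ ≤ R}] z) (𝓝 (ψ z)) :=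
      (h.cont z ⟨hzD, hzd⟩).mono fun y hy => hy.1
    exact le_of_tendsto h1.norm (eventually_nhdsWithin_of_forall fun y hy => hy.2)

end PvChart

/-- the inverse of a continuous injection of a compact set is continuous -/
theorem pvcy_compact_inv {K : Set ℂ} (hK : IsCompact K) {ψ φ : ℂ → ℂ} (hc : ContinuousOn ψ K) (hi : InjOn ψ K)
    (hφ : ∀ z ∈ K, φ (ψ z) = z) : ContinuousOn φ (ψ '' K) := by
  rintro _ ⟨z0, hz0, rfl⟩
  rw [ContinuousWithinAt, hφ z0 hz0]
  intro U hU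
  obtain ⟨V, hVU, hVo, hzV⟩ := mem_nhds_iff.1 hU
  have hc2 : IsClosed (ψ '' (K \ V)) := ((hK.diff hVo).image_of_continuousOn (hc.mono sdiff_subset)).isClosed
  have hn : ψ z0 ∉ ψ '' (K \ V) := by
    rintro ⟨z, hz, e⟩
    have := hi hz.1 hz0 e
    exact hz.2 (this ▸ hzV)
  rw [mem_map]
  filter_upwards [mem_nhdsWithin_of_mem_nhds (hc2.isOpen_compl.mem_nhds hn), self_mem_nhdsWithin] with w hw1 hw2
  obtain ⟨z, hz, rfl⟩ := hw2
  show φ (ψ z) ∈ U
  rw [hφ z hz]
  by_contra hzU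
  exact hw1 ⟨z, ⟨hz, fun h => hzU (hVU h)⟩, rfl⟩

/-- **the inverse chart is continuous on the closed half plane** -/
theorem pvcy_inv_continuousOn {D : Set ℂ} {d : ℂ} {ψ : ℂ → ℂ} (h : PvChart D d ψ) :
    ContinuousOn (pvcyInv D d ψ) {w | 0 ≤ w.im} := by
  intro w0 hw0
  have h1 := pvcy_compact_inv (h.isCompact_sublevel (‖w0‖ + 1)) (φ := pvcyInv D d ψ) (h.cont.mono fun z hz => hz.1)
    (h.inj.mono fun z hz => hz.1) fun z hz => h.inv_psi hz.1
  have hsub : {w : ℂ | 0 ≤ w.im} ∩ Metric.ball 0 (‖w0‖ + 1) ⊆ ψ '' {z | z ∈ closure D \ {d} ∧ ‖ψ z‖ ≤ ‖w0‖ + 1} := by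
    rintro w ⟨hw1, hw2⟩
    refine ⟨pvcyInv D d ψ w, ⟨h.inv_mem hw1, ?_⟩, h.psi_inv hw1⟩
    rw [h.psi_inv hw1]
    exact (mem_ball_zero_iff.1 hw2).le
  have hb : Metric.ball (0 : ℂ) (‖w0‖ + 1) ∈ 𝓝 w0 := Metric.isOpen_ball.mem_nhds (by simp)
  refine (h1 w0 (hsub ⟨hw0, mem_of_mem_nhds hb⟩)).mono_of_mem_nhdsWithin ?_
  exact mem_of_superset (inter_mem_nhdsWithin _ hb) hsub

/-- **`F ∘ ψ⁻¹` is holomorphic** (the critical points of `ψ` are removable singularities) -/
theorem pvcy_comp_differentiableOn {D : Set ℂ} {d : ℂ} {ψ : ℂ → ℂ} (h : PvChart D d ψ) {F : ℂ → ℂ}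
    (hF : DifferentiableOn ℂ F D) : DifferentiableOn ℂ (fun w => F (pvcyInv D d ψ w)) {w | 0 < w.im} := by
  have ho : IsOpen {w : ℂ | 0 < w.im} := isOpen_lt continuous_const continuous_im
  have hcl : ∀ w : ℂ, 0 < w.im → {w : ℂ | 0 ≤ w.im} ∈ 𝓝 w := fun w hw =>
    mem_of_superset (ho.mem_nhds hw) fun y (hy : 0 < y.im) => (le_of_lt hy : 0 ≤ y.im)
  have hφc : ∀ w : ℂ, 0 < w.im → ContinuousAt (pvcyInv D d ψ) w := fun w hw =>
    (pvcy_inv_continuousOn h).continuousAt (hcl w hw)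
  intro w0 hw0
  have hz0 : pvcyInv D d ψ w0 ∈ D := h.inv_mem_D hw0
  have hFc : ContinuousAt (fun w => F (pvcyInv D d ψ w)) w0 :=
    ContinuousAt.comp (f := pvcyInv D d ψ) (g := F) (hF.differentiableAt (h.isOpen.mem_nhds hz0)).continuousAt (hφc w0 hw0)
  have han : AnalyticAt ℂ ψ (pvcyInv D d ψ w0) := h.hol.analyticAt (h.isOpen.mem_nhds hz0)
  refine (Complex.analyticAt_of_differentiable_on_punctured_nhds_of_continuousAt ?_ hFc).differentiableAt.differentiableWithinAt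
  rcases han.deriv.eventually_eq_zero_or_eventually_ne_zero with hzero | hne
  · -- `ψ` would be locally constant
    exfalso
    obtain ⟨r, hr, hball⟩ := Metric.eventually_nhds_iff_ball.1 (hzero.and (h.isOpen.eventually_mem hz0))
    have hconst := Metric.isOpen_ball.is_const_of_deriv_eq_zero (convex_ball (pvcyInv D d ψ w0) r).isPreconnected
      (f := ψ) (h.hol.mono fun y hy => (hball y hy).2) (fun y hy => (hball y hy).1)
      (Metric.mem_ball_self hr) (y := pvcyInv D d ψ w0 + (r / 2 : ℝ)) (by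
        rw [Metric.mem_ball, dist_eq_norm]
        simp only [add_sub_cancel_left, norm_real, Real.norm_eq_abs]
        rw [abs_of_pos (by positivity)]
        linarith)
    have h2 : pvcyInv D d ψ w0 + (r / 2 : ℝ) ∈ D := (hball _ (by
        rw [Metric.mem_ball, dist_eq_norm]
        simp only [add_sub_cancel_left, norm_real, Real.norm_eq_abs]
        rw [abs_of_pos (by positivity)]
        linarith)).2
    have h3 := h.inj (h.sub hz0) (h.sub h2) hconst
    have h4 : ((r / 2 : ℝ) : ℂ) = 0 := by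
      have := h3.symm
      rwa [add_eq_left] at this
    have h5 : r / 2 = 0 := by exact_mod_cast h4
    linarith
  · have ht : Tendsto (pvcyInv D d ψ) (𝓝[≠] w0) (𝓝[≠] (pvcyInv D d ψ w0)) := by
      refine tendsto_nhdsWithin_iff.2 ⟨(hφc w0 hw0).tendsto.mono_left nhdsWithin_le_nhds, ?_⟩
      filter_upwards [mem_nhdsWithin_of_mem_nhds (ho.mem_nhds hw0), self_mem_nhdsWithin] with w hw1 hw2 e
      apply hw2
      have h1 : (0 : ℝ) < w.im := hw1
      have h0 : (0 : ℝ) < w0.im := hw0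
      rw [mem_singleton_iff, ← h.psi_inv h1.le, e, h.psi_inv h0.le]
    filter_upwards [ht.eventually hne, mem_nhdsWithin_of_mem_nhds (ho.mem_nhds hw0)] with w hw1 hw2
    have hwD : pvcyInv D d ψ w ∈ D := h.inv_mem_D hw2
    have hd1 : HasDerivAt ψ (deriv ψ (pvcyInv D d ψ w)) (pvcyInv D d ψ w) :=
      (h.hol.differentiableAt (h.isOpen.mem_nhds hwD)).hasDerivAt
    have hd2 : HasDerivAt (pvcyInv D d ψ) (deriv ψ (pvcyInv D d ψ w))⁻¹ w := by
      refine HasDerivAt.of_local_left_inverse (hφc w hw2) hd1 hw1 ?_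
      filter_upwards [ho.mem_nhds hw2] with y hy
      exact h.psi_inv (le_of_lt hy)
    exact DifferentiableAt.comp (f := pvcyInv D d ψ) (g := F) w (hF.differentiableAt (h.isOpen.mem_nhds hwD)) hd2.differentiableAt

/-! ## 4. the transfer -/

/-- **the uniqueness on the half plane** in the normal form `w0 = 0`, `w1 = 1`, `w2 = e^{iπ/3}`      (BOX CX1, helper174: `pvcx_uniq`) -/
def PvcyUniq : Prop :=
  ∀ G : ℂ → ℂ, DifferentiableOn ℂ G {z | 0 < z.im} → ContinuousOn G ({z | 0 ≤ z.im} \ {0, 1}) →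
    (∃ C : ℝ, ∀ z : ℂ, 0 ≤ z.im → z ≠ 0 → z ≠ 1 → ‖G z‖ ≤ C) → (∀ x : ℝ, 0 < x → x < 1 → (G x).im = 0) →
    (∀ x : ℝ, 1 < x → ∃ t : ℝ, G x = 1 + t * exp (2 * Real.pi * I / 3)) →
    (∀ x : ℝ, x < 0 → ∃ t : ℝ, G x = t * exp (Real.pi * I / 3)) →
    ∀ x : ℝ, 0 < x → x < 1 → G x = (cardyF x : ℂ)

/-- **TRANSFER by the given chart**: a bounded holomorphic function on `D`, continuous up to the three open arcs `(a,c)`, `(c,d)`, `(d,a)`, with values on the three side LINES of the positively oriented equilateral triangle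
`w0, w1, w2 = w0 + (w1 - w0) e^{iπ/3}`, has at `b ∈ (a,c)` the value `w0 + cardyF (ψ b).re (w1 - w0)`.      TEX[lemma:boundary-uniqueness] + (observable:beta) -/
theorem pvcy_transfer (hU : PvcyUniq) {D : Set ℂ} {d : ℂ} {ψ : ℂ → ℂ} (h : PvChart D d ψ) {a b c : ℂ}
    (ha : a ∈ frontier D) (hb : b ∈ frontier D) (hc : c ∈ frontier D) (had : a ≠ d) (hbd : b ≠ d) (hcd : c ≠ d)
    (hψa : ψ a = 0) (hψc : ψ c = 1) (hord : 0 < (ψ b).re ∧ (ψ b).re < 1) {F : ℂ → ℂ} {w0 w1 : ℂ} (hw : w0 ≠ w1)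
    (hF : DifferentiableOn ℂ F D) (hFc : ContinuousOn F (closure D \ {a, c, d}))
    (hFb : ∃ C : ℝ, ∀ z ∈ closure D \ {a, c, d}, ‖F z‖ ≤ C)
    (h01 : ∀ z ∈ frontier D, z ≠ d → 0 < (ψ z).re → (ψ z).re < 1 → ∃ t : ℝ, F z = w0 + t * (w1 - w0))
    (h1 : ∀ z ∈ frontier D, z ≠ d → 1 < (ψ z).re → ∃ t : ℝ, F z = w1 + t * ((w1 - w0) * exp (2 * Real.pi * I / 3)))
    (h0 : ∀ z ∈ frontier D, z ≠ d → (ψ z).re < 0 → ∃ t : ℝ, F z = w0 + t * ((w1 - w0) * exp (Real.pi * I / 3))) :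
    F b = w0 + cardyF (ψ b).re * (w1 - w0) := by
  have hne : w1 - w0 ≠ 0 := sub_ne_zero.2 hw.symm
  have haS : a ∈ closure D \ {d} := ⟨frontier_subset_closure ha, had⟩
  have hbS : b ∈ closure D \ {d} := ⟨frontier_subset_closure hb, hbd⟩
  have hcS : c ∈ closure D \ {d} := ⟨frontier_subset_closure hc, hcd⟩
  -- the inverse chart avoids the marks
  have hmaps : ∀ w : ℂ, 0 ≤ w.im → w ≠ 0 → w ≠ 1 → pvcyInv D d ψ w ∈ closure D \ {a, c, d} := by
    intro w hw0 hw1 hw2
    refine ⟨(h.inv_mem hw0).1, ?_⟩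
    rintro (e | e | e)
    · exact hw1 (by rw [← h.psi_inv hw0, e, hψa])
    · exact hw2 (by rw [← h.psi_inv hw0, e, hψc])
    · exact (h.inv_mem hw0).2 e
  have hreal : ∀ x : ℝ, pvcyInv D d ψ x ∈ frontier D ∧ pvcyInv D d ψ x ≠ d ∧ (ψ (pvcyInv D d ψ x)).re = x := by
    intro x
    have h1 := h.inv_mem_frontier (w := (x : ℂ)) (by simp)
    refine ⟨h1.1, h1.2, ?_⟩
    rw [h.psi_inv (w := (x : ℂ)) (by simp)]
    simp
  have key := hU (fun w => (F (pvcyInv D d ψ w) - w0) / (w1 - w0)) ?_ ?_ ?_ ?_ ?_ ?_ (ψ b).re hord.1 hord.2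
  · have e : ((ψ b).re : ℂ) = ψ b := by
      apply Complex.ext
      · simp
      · simp [h.im_eq_zero hb hbd]
    simp only [e, h.inv_psi hbS] at key
    rw [div_eq_iff hne] at key
    linear_combination key
  · exact ((pvcy_comp_differentiableOn h hF).sub_const w0).div_const _
  · refine ContinuousOn.div_const (ContinuousOn.sub ?_ continuousOn_const) _
    refine hFc.comp ((pvcy_inv_continuousOn h).mono sdiff_subset) fun w hw => ?_
    exact hmaps w hw.1 (fun e => hw.2 (Or.inl e)) (fun e => hw.2 (Or.inr e))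
  · obtain ⟨C, hC⟩ := hFb
    refine ⟨(C + ‖w0‖) / ‖w1 - w0‖, fun w hw0 hw1 hw2 => ?_⟩
    rw [norm_div]
    refine div_le_div_of_nonneg_right ((norm_sub_le _ _).trans ?_) (norm_nonneg _)
    linarith [hC _ (hmaps w hw0 hw1 hw2)]
  · intro x hx0 hx1
    obtain ⟨g1, g2, g3⟩ := hreal x
    obtain ⟨t, ht⟩ := h01 _ g1 g2 (by rw [g3]; exact hx0) (by rw [g3]; exact hx1)
    simp only [ht]
    rw [add_sub_cancel_left, mul_div_cancel_right₀ _ hne]
    simp
  · intro x hx1
    obtain ⟨g1, g2, g3⟩ := hreal x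
    obtain ⟨t, ht⟩ := h1 _ g1 g2 (by rw [g3]; exact hx1)
    refine ⟨t, ?_⟩
    simp only [ht]
    field_simp
    ring
  · intro x hx0
    obtain ⟨g1, g2, g3⟩ := hreal x
    obtain ⟨t, ht⟩ := h0 _ g1 g2 (by rw [g3]; exact hx0)
    refine ⟨t, ?_⟩
    simp only [ht]
    field_simp
    ring

end Claimed.Agent.R289
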