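import Claimed.Agent.R289.Cx1
import Claimed.Agent.R289.Cx2

/-!
# Row 289 (S0537, Cardy for Poisson-Voronoi), box CHART: everything on the GIVEN chart `ψ`      (helper61; prefix `pvch_`, namespace `PvChart`)

`PvChart D d ψ` (declared in `R289/Cx2.lean`, helper197) = the hypotheses of the frozen statement on `(D, d, ψ)`.   SORRY-FREE.
1. LINK  `pvch_uniq : PvcyUniq` (from `pvcx_cardy_tri`, helper174), **`pvch_cardy`** = `pvcy_transfer` without hypothesis; `pvch_inv_diff` (the inverse chart is holomorphic).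
2. ELEMENTARY  `PvChart.im_pos`, `im_zero`, `im_nonneg`; changes of chart: `PvChart.aff` (`α ψ + β`), `PvChart.inv` (the pole is moved to another boundary point).      (statements of helper212, `R289/End.lean`)
3. DISC CHART  `pvchC`, `pvchCi` (Cayley), `PvChart.disc` (`Ψ`), `PvChart.dinv` (`Ψ⁻¹`): mutually inverse bijections `closure D ↔ closedBall 0 1`, `D ↔ ball 0 1`, `frontier D ↔ sphere`, `d ↔ 1`;
   `disc_cont`, `dinv_cont`, `disc_diff`, `dinv_diff`.
4. SUBDOMAINS  `PvChart.sd h s = Ψ⁻¹(ball 0 s)`, `0 < s < 1`: `sd_isOpen`, `sd_closure`, `sd_frontier`, `sd_closure_sub : closure ⊆ D`, `mem_sd_of` (exhaustion); pole `sp h s = Ψ⁻¹(s)`, disc chart `sg h s = Ψ/s`, chart `sψ h s = Cayley⁻¹(Ψ/s)`: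
   **`PvChart.sub_chart`** (a `PvChart`), **`PvChart.sub_an`** (the clause `an` of `PvAn`, `Defs/Top.lean`);   radial projection `rad h s z = Ψ⁻¹(s Ψ z)`, radial lift `lift h s z = Ψ⁻¹(Ψ z / s)`: mutually inverse `closure D ↔ closure D_s`, frontier ↔ frontier, `d ↔ sp`,
   they keep the chart coordinate (`sψ_rad`, `ψ_lift`); `rad_cont` (radial segment); **`rad_unif`**, **`lift_unif`**: `sup |rad h s z - z| → 0` as `s ↑ 1`.
5. MIRROR  **`pvch_mirror`** (= the statement `pvo_mirror` of `Obs/Abs.lean`): no bounded holomorphic function with boundary values on the side lines of the NEGATIVELY oriented triangle (case `a = 1` of the transport constant).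
-/

set_option autoImplicit false

namespace Claimed.Agent.R289

open Complex MeasureTheory Set Filter Topology
open Claims.C0465

/-! ## 1. the link CX1 - CX2 -/

theorem pvch_exp23 : cexp (2 * Real.pi * I / 3) = cexp (Real.pi / 3 * I) * cexp (Real.pi / 3 * I) := by
  rw [← Complex.exp_add]; congr 1; ring

/-- the uniqueness on the half plane, in the normal form of CX2 -/
theorem pvch_uniq : PvcyUniq := by
  intro G hd hc hb c1 c2 c3 x hx0 hx1
  obtain ⟨C, hC⟩ := hb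
  have z2 : cexp (Real.pi / 3 * I) * cexp (Real.pi / 3 * I) = cexp (Real.pi / 3 * I) - 1 := pvcx_zeta_sq
  have key := pvcx_cardy_tri (G := G) (C := C) (w0 := 0) (w1 := 1) (w2 := cexp (Real.pi / 3 * I)) one_ne_zero (by simp) hc hd hC
    (fun x h0 h1 => ⟨(G x).re, by
      apply Complex.ext
      · simp
      · simp [c1 x h0 h1]⟩)
    (fun x h1 => by
      obtain ⟨t, ht⟩ := c2 x h1
      exact ⟨t, by rw [ht, pvch_exp23, z2]⟩)
    (fun x h0 => by
      obtain ⟨t, ht⟩ := c3 x h0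
      refine ⟨t, ?_⟩
      rw [ht, sub_zero, zero_add]
      congr 2
      ring)
    x hx0 hx1
  simpa using key

/-- **Cardy's formula from the three side conditions on the frozen domain** (`pvcy_transfer` + `pvcx_cardy_tri`) -/
theorem pvch_cardy {D : Set ℂ} {d : ℂ} {ψ : ℂ → ℂ} (h : PvChart D d ψ) {a b c : ℂ}
    (ha : a ∈ frontier D) (hb : b ∈ frontier D) (hc : c ∈ frontier D) (had : a ≠ d) (hbd : b ≠ d) (hcd : c ≠ d)
    (hψa : ψ a = 0) (hψc : ψ c = 1) (hord : 0 < (ψ b).re ∧ (ψ b).re < 1) {F : ℂ → ℂ} {w0 w1 : ℂ} (hw : w0 ≠ w1)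
    (hF : DifferentiableOn ℂ F D) (hFc : ContinuousOn F (closure D \ {a, c, d}))
    (hFb : ∃ C : ℝ, ∀ z ∈ closure D \ {a, c, d}, ‖F z‖ ≤ C)
    (h01 : ∀ z ∈ frontier D, z ≠ d → 0 < (ψ z).re → (ψ z).re < 1 → ∃ t : ℝ, F z = w0 + t * (w1 - w0))
    (h1 : ∀ z ∈ frontier D, z ≠ d → 1 < (ψ z).re → ∃ t : ℝ, F z = w1 + t * ((w1 - w0) * exp (2 * Real.pi * I / 3)))
    (h0 : ∀ z ∈ frontier D, z ≠ d → (ψ z).re < 0 → ∃ t : ℝ, F z = w0 + t * ((w1 - w0) * exp (Real.pi * I / 3))) :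
    F b = w0 + cardyF (ψ b).re * (w1 - w0) :=
  pvcy_transfer pvch_uniq h ha hb hc had hbd hcd hψa hψc hord hw hF hFc hFb h01 h1 h0

/-- the inverse chart is holomorphic -/
theorem pvch_inv_diff {D : Set ℂ} {d : ℂ} {ψ : ℂ → ℂ} (h : PvChart D d ψ) : DifferentiableOn ℂ (pvcyInv D d ψ) {w | 0 < w.im} :=
  pvcy_comp_differentiableOn h (F := fun z => z) differentiableOn_id

/-! ## 2. elementary facts, changes of chart -/

namespace PvChart

variable {D : Set ℂ} {d : ℂ} {ψ : ℂ → ℂ}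

theorem im_pos (h : PvChart D d ψ) {z : ℂ} (hz : z ∈ D) : 0 < (ψ z).im := by
  have : ψ z ∈ ψ '' D := mem_image_of_mem _ hz
  rwa [h.imgD] at this

theorem im_zero (h : PvChart D d ψ) {z : ℂ} (hz : z ∈ frontier D) (hzd : z ≠ d) : (ψ z).im = 0 := h.im_eq_zero hz hzd

theorem im_nonneg (h : PvChart D d ψ) {z : ℂ} (hz : z ∈ closure D) (hzd : z ≠ d) : 0 ≤ (ψ z).im := by
  have : ψ z ∈ ψ '' (closure D \ {d}) := mem_image_of_mem _ ⟨hz, hzd⟩
  rwa [h.img] at this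

/-- real affine change of the chart -/
theorem aff (h : PvChart D d ψ) {α β : ℝ} (hα : 0 < α) : PvChart D d fun z => (α : ℂ) * ψ z + (β : ℂ) := by
  have hα' : (α : ℂ) ≠ 0 := by exact_mod_cast hα.ne'
  have him : ∀ w : ℂ, ((α : ℂ) * w + (β : ℂ)).im = α * w.im := fun w => by simp
  have hsol : ∀ w : ℂ, (α : ℂ) * ((w - β) / α) + (β : ℂ) = w := fun w => by field_simp; ring
  have him2 : ∀ w : ℂ, ((w - β) / α).im = w.im / α := fun w => by
    rw [Complex.div_ofReal_im]; simp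
  refine ⟨h.isOpen, h.bdd, h.hd, (h.hol.const_mul _).add_const _, ?_, (continuousOn_const.mul h.cont).add continuousOn_const, ?_, ?_, ?_⟩
  · intro z hz z' hz' e
    have : (α : ℂ) * ψ z = (α : ℂ) * ψ z' := add_right_cancel e
    exact h.inj hz hz' (mul_left_cancel₀ hα' this)
  · ext w
    constructor
    · rintro ⟨z, hz, rfl⟩
      show 0 < ((α : ℂ) * ψ z + (β : ℂ)).im
      rw [him]; exact mul_pos hα (h.im_pos hz)
    · intro hw
      have : (w - β) / α ∈ ψ '' D := by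
        rw [h.imgD]
        show 0 < ((w - β) / α).im
        rw [him2]; exact div_pos hw hα
      obtain ⟨z, hz, e⟩ := this
      exact ⟨z, hz, by show (α : ℂ) * ψ z + (β : ℂ) = w; rw [e, hsol]⟩
  · ext w
    constructor
    · rintro ⟨z, hz, rfl⟩
      show ((α : ℂ) * ψ z + (β : ℂ)).im = 0
      rw [him, h.im_zero hz.1 hz.2, mul_zero]
    · intro hw
      have hw' : w.im = 0 := hw
      have : (w - β) / α ∈ ψ '' (frontier D \ {d}) := by
        rw [h.imgB]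
        show ((w - β) / α).im = 0
        rw [him2, hw', zero_div]
      obtain ⟨z, hz, e⟩ := this
      exact ⟨z, hz, by show (α : ℂ) * ψ z + (β : ℂ) = w; rw [e, hsol]⟩
  · have h1 : Tendsto (fun z => α * ‖ψ z‖ + -|β|) (𝓝[closure D \ {d}] d) atTop :=
      tendsto_atTop_add_const_right _ _ (h.atd.const_mul_atTop hα)
    refine tendsto_atTop_mono (fun z => ?_) h1
    have h2 := norm_sub_le ((α : ℂ) * ψ z + (β : ℂ)) (β : ℂ)
    rw [add_sub_cancel_right, norm_mul, Complex.norm_real, Complex.norm_real, Real.norm_eq_abs, Real.norm_eq_abs, abs_of_pos hα] at h2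
    linarith

theorem psi_ne (h : PvChart D d ψ) {e z : ℂ} (he : e ∈ frontier D) (hed : e ≠ d) (hz : z ∈ closure D) (hzd : z ≠ d) (hze : z ≠ e) :
    ψ z - ψ e ≠ 0 := fun hh =>
  hze (h.inj ⟨hz, hzd⟩ ⟨frontier_subset_closure he, hed⟩ (sub_eq_zero.1 hh))

theorem pvch_mob_im (w : ℂ) (t : ℝ) : (-1 / (w - t)).im = w.im / Complex.normSq (w - t) := by
  rw [Complex.div_im]
  simp
  ring

/-- **the pole is moved to another boundary point `e`**: `ψ_e = -1 / (ψ - ψ e)`, `ψ_e d = 0` -/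
theorem inv (h : PvChart D d ψ) {e : ℂ} (he : e ∈ frontier D) (hed : e ≠ d) :
    PvChart D e fun z => if z = d then 0 else -1 / (ψ z - ψ e) := by
  obtain ⟨t, ht⟩ : ∃ t : ℝ, ψ e = (t : ℂ) := ⟨(ψ e).re, by
    apply Complex.ext
    · simp
    · simp [h.im_zero he hed]⟩
  have heS : e ∈ closure D \ {d} := ⟨frontier_subset_closure he, hed⟩
  have hval : ∀ z, z ≠ d → (if z = d then (0 : ℂ) else -1 / (ψ z - ψ e)) = -1 / (ψ z - ψ e) := fun z hz => if_neg hz
  have hne0 : ∀ z ∈ closure D, z ≠ d → z ≠ e → (-1 / (ψ z - ψ e) : ℂ) ≠ 0 := fun z hz hzd hze =>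
    div_ne_zero (by simp) (h.psi_ne he hed hz hzd hze)
  have hDe : ∀ z ∈ D, z ≠ e := fun z hz hze => by
    have := h.im_pos hz
    rw [hze, h.im_zero he hed] at this
    exact lt_irrefl _ this
  refine ⟨h.isOpen, h.bdd, he, ?_, ?_, ?_, ?_, ?_, ?_⟩
  · -- holomorphic
    have h1 : DifferentiableOn ℂ (fun z => -1 / (ψ z - ψ e)) D :=
      (differentiableOn_const _).div (h.hol.sub_const _) fun z hz => h.psi_ne he hed (subset_closure hz) (h.sub hz).2 (hDe z hz)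
    exact h1.congr fun z hz => hval z (h.sub hz).2
  · -- injective
    intro z hz z' hz' hh
    simp only at hh
    by_cases h1 : z = d
    · by_cases h2 : z' = d
      · rw [h1, h2]
      · rw [if_pos h1, if_neg h2] at hh
        exact absurd hh.symm (hne0 z' hz'.1 h2 hz'.2)
    · by_cases h2 : z' = d
      · rw [if_neg h1, if_pos h2] at hh
        exact absurd hh (hne0 z hz.1 h1 hz.2)
      · rw [if_neg h1, if_neg h2] at hh
        have a1 := h.psi_ne he hed hz.1 h1 hz.2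
        have a2 := h.psi_ne he hed hz'.1 h2 hz'.2
        have : ψ z - ψ e = ψ z' - ψ e := by
          field_simp at hh
          linear_combination hh
        exact h.inj ⟨hz.1, h1⟩ ⟨hz'.1, h2⟩ (sub_left_injective this)
  · -- continuous
    intro z hz
    by_cases hzd : z = d
    · subst hzd
      rw [← continuousWithinAt_sdiff_self]
      unfold ContinuousWithinAt
      simp only [if_true]
      rw [tendsto_zero_iff_norm_tendsto_zero]
      have hle : 𝓝[(closure D \ {e}) \ {z}] z ≤ 𝓝[closure D \ {z}] z := nhdsWithin_mono _ fun x hx => ⟨hx.1.1, hx.2⟩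
      have h1 : Tendsto (fun x => ‖ψ x - ψ e‖) (𝓝[(closure D \ {e}) \ {z}] z) atTop := by
        refine tendsto_atTop_mono (fun x => ?_) (tendsto_atTop_add_const_right _ (-‖ψ e‖) (h.atd.mono_left hle))
        have := norm_sub_norm_le (ψ x) (ψ e)
        linarith
      refine h1.inv_tendsto_atTop.congr' ?_
      filter_upwards [self_mem_nhdsWithin] with x hx
      rw [hval x hx.2, norm_div]
      simp
    · have hU : {x | x ≠ d} ∈ 𝓝 z := isOpen_ne.mem_nhds hzd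
      have h1 : ContinuousWithinAt ψ (closure D \ {e}) z := by
        refine (h.cont z ⟨hz.1, hzd⟩).mono_of_mem_nhdsWithin ?_
        have H : (closure D \ {e}) ∩ {x | x ≠ d} ∈ 𝓝[closure D \ {e}] z := inter_mem_nhdsWithin _ hU
        exact mem_of_superset H fun x hx => ⟨hx.1.1, hx.2⟩
      have h2 : ContinuousWithinAt (fun x => -1 / (ψ x - ψ e)) (closure D \ {e}) z :=
        continuousWithinAt_const.div (h1.sub continuousWithinAt_const) (h.psi_ne he hed hz.1 hzd hz.2)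
      refine h2.congr_of_eventuallyEq ?_ (hval z hzd)
      filter_upwards [mem_nhdsWithin_of_mem_nhds hU] with x hx
      exact hval x hx
  · -- image of the domain
    ext w
    constructor
    · rintro ⟨z, hz, rfl⟩
      show 0 < (if z = d then (0 : ℂ) else -1 / (ψ z - ψ e)).im
      rw [hval z (h.sub hz).2, ht, pvch_mob_im]
      refine div_pos (h.im_pos hz) (Complex.normSq_pos.2 ?_)
      rw [← ht]; exact h.psi_ne he hed (subset_closure hz) (h.sub hz).2 (hDe z hz)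
    · intro hw
      have hw' : 0 < w.im := hw
      have hw0 : w ≠ 0 := fun h0 => by rw [h0] at hw'; simp at hw'
      have h1 : 0 < ((t : ℂ) - 1 / w).im := by
        have := pvch_mob_im w 0
        simp only [Complex.ofReal_zero, sub_zero] at this
        have e1 : ((t : ℂ) - 1 / w).im = (-1 / w).im := by
          rw [Complex.sub_im, Complex.ofReal_im, zero_sub, neg_div, Complex.neg_im]
        rw [e1, this]
        exact div_pos hw' (Complex.normSq_pos.2 hw0)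
      have : (t : ℂ) - 1 / w ∈ ψ '' D := by rw [h.imgD]; exact h1
      obtain ⟨z, hz, e1⟩ := this
      refine ⟨z, hz, ?_⟩
      show (if z = d then (0 : ℂ) else -1 / (ψ z - ψ e)) = w
      rw [hval z (h.sub hz).2, e1, ht]
      field_simp
      ring
  · -- image of the boundary
    ext w
    constructor
    · rintro ⟨z, hz, rfl⟩
      show (if z = d then (0 : ℂ) else -1 / (ψ z - ψ e)).im = 0
      by_cases hzd : z = d
      · rw [if_pos hzd]; simp
      · rw [hval z hzd, ht, pvch_mob_im, h.im_zero hz.1 hzd, zero_div]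
    · intro hw
      have hw' : w.im = 0 := hw
      by_cases hw0 : w = 0
      · exact ⟨d, ⟨h.hd, fun hh => hed hh.symm⟩, by simp [hw0]⟩
      · have h1 : ((t : ℂ) - 1 / w).im = 0 := by
          have := pvch_mob_im w 0
          simp only [Complex.ofReal_zero, sub_zero] at this
          have e1 : ((t : ℂ) - 1 / w).im = (-1 / w).im := by
            rw [Complex.sub_im, Complex.ofReal_im, zero_sub, neg_div, Complex.neg_im]
          rw [e1, this, hw', zero_div]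
        have : (t : ℂ) - 1 / w ∈ ψ '' (frontier D \ {d}) := by rw [h.imgB]; exact h1
        obtain ⟨z, hz, e1⟩ := this
        have hze : z ≠ e := fun hh => by
          rw [hh, ht] at e1
          have : (1 / w : ℂ) = 0 := by linear_combination e1
          exact (one_div_ne_zero hw0) this
        refine ⟨z, ⟨hz.1, hze⟩, ?_⟩
        show (if z = d then (0 : ℂ) else -1 / (ψ z - ψ e)) = w
        rw [hval z hz.2, e1, ht]
        field_simp
        ring
  · -- the new pole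
    have hU : {x | x ≠ d} ∈ 𝓝 e := isOpen_ne.mem_nhds hed
    have h1 : Tendsto ψ (𝓝[closure D \ {e}] e) (𝓝 (ψ e)) := by
      have h2 : ContinuousWithinAt ψ (closure D \ {e}) e := by
        refine (h.cont e heS).mono_of_mem_nhdsWithin ?_
        have H : (closure D \ {e}) ∩ {x | x ≠ d} ∈ 𝓝[closure D \ {e}] e := inter_mem_nhdsWithin _ hU
        exact mem_of_superset H fun x hx => ⟨hx.1.1, hx.2⟩
      exact h2
    have h3 : Tendsto (fun x => ‖ψ x - ψ e‖) (𝓝[closure D \ {e}] e) (𝓝[>] 0) := by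
      refine tendsto_nhdsWithin_iff.2 ⟨?_, ?_⟩
      · have := (h1.sub_const (ψ e)).norm
        simpa using this
      · filter_upwards [self_mem_nhdsWithin, mem_nhdsWithin_of_mem_nhds hU] with x hx hxd
        exact norm_pos_iff.2 (h.psi_ne he hed hx.1 hxd hx.2)
    refine h3.inv_tendsto_nhdsGT_zero.congr' ?_
    filter_upwards [mem_nhdsWithin_of_mem_nhds hU] with x hxd
    rw [hval x hxd, norm_div]
    simp

end PvChart

/-! ## 3. the disc chart -/

/-- the Cayley transform of the upper half plane -/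
noncomputable def pvchC (w : ℂ) : ℂ := (w - I) / (w + I)

/-- its inverse -/
noncomputable def pvchCi (ζ : ℂ) : ℂ := I * (1 + ζ) / (1 - ζ)

theorem pvch_norm_id (w : ℂ) : ‖w + I‖ ^ 2 - ‖w - I‖ ^ 2 = 4 * w.im := by
  rw [Complex.sq_norm, Complex.sq_norm, Complex.normSq_apply, Complex.normSq_apply]
  simp
  ring

theorem pvch_add_I_ne {w : ℂ} (hw : 0 ≤ w.im) : w + I ≠ 0 := fun h => by
  have := congrArg Complex.im h
  simp at this
  linarith

theorem pvch_C_norm_le {w : ℂ} (hw : 0 ≤ w.im) : ‖pvchC w‖ ≤ 1 := by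
  unfold pvchC
  rw [norm_div, div_le_one (norm_pos_iff.2 (pvch_add_I_ne hw))]
  have := pvch_norm_id w
  exact abs_le_of_sq_le_sq' (by linarith) (norm_nonneg _) |>.2

theorem pvch_C_norm_lt {w : ℂ} (hw : 0 < w.im) : ‖pvchC w‖ < 1 := by
  unfold pvchC
  rw [norm_div, div_lt_one (norm_pos_iff.2 (pvch_add_I_ne hw.le))]
  have := pvch_norm_id w
  exact abs_lt_of_sq_lt_sq' (by linarith) (norm_nonneg _) |>.2

theorem pvch_C_norm_eq {w : ℂ} (hw : w.im = 0) : ‖pvchC w‖ = 1 := by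
  unfold pvchC
  rw [norm_div, div_eq_one_iff_eq (norm_pos_iff.2 (pvch_add_I_ne hw.ge)).ne']
  have := pvch_norm_id w
  rw [hw] at this
  have h2 : ‖w - I‖ ^ 2 = ‖w + I‖ ^ 2 := by linarith
  exact (sq_eq_sq₀ (norm_nonneg _) (norm_nonneg _)).1 h2

theorem pvch_one_sub_C {w : ℂ} (hw : 0 ≤ w.im) : 1 - pvchC w = 2 * I / (w + I) := by
  unfold pvchC
  have := pvch_add_I_ne hw
  field_simp
  ring

theorem pvch_C_ne_one {w : ℂ} (hw : 0 ≤ w.im) : pvchC w ≠ 1 := fun h => by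
  have h1 := pvch_one_sub_C hw
  rw [h, sub_self] at h1
  have h2 : (2 * I / (w + I) : ℂ) ≠ 0 := div_ne_zero (by simp) (pvch_add_I_ne hw)
  exact h2 h1.symm

theorem pvch_Ci_C {w : ℂ} (hw : 0 ≤ w.im) : pvchCi (pvchC w) = w := by
  have h1 := pvch_add_I_ne hw
  have h2 : 1 - pvchC w ≠ 0 := sub_ne_zero.2 (pvch_C_ne_one hw).symm
  unfold pvchCi
  rw [div_eq_iff h2, pvch_one_sub_C hw]
  unfold pvchC
  field_simp
  ring

theorem pvch_Ci_add_I {ζ : ℂ} (hζ : ζ ≠ 1) : pvchCi ζ + I = 2 * I / (1 - ζ) := by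
  have : 1 - ζ ≠ 0 := sub_ne_zero.2 hζ.symm
  unfold pvchCi
  field_simp
  ring

theorem pvch_C_Ci {ζ : ℂ} (hζ : ζ ≠ 1) : pvchC (pvchCi ζ) = ζ := by
  have h1 : 1 - ζ ≠ 0 := sub_ne_zero.2 hζ.symm
  unfold pvchC
  rw [pvch_Ci_add_I hζ]
  unfold pvchCi
  field_simp
  ring

theorem pvch_Ci_im {ζ : ℂ} (hζ : ζ ≠ 1) : 4 * (pvchCi ζ).im = ‖pvchCi ζ + I‖ ^ 2 * (1 - ‖ζ‖ ^ 2) := by
  have h1 : pvchCi ζ + I ≠ 0 := by
    rw [pvch_Ci_add_I hζ]
    exact div_ne_zero (by simp) (sub_ne_zero.2 hζ.symm)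
  have h2 : ‖ζ‖ = ‖pvchCi ζ - I‖ / ‖pvchCi ζ + I‖ := by
    conv_lhs => rw [← pvch_C_Ci hζ]
    unfold pvchC
    rw [norm_div]
  have h3 : 0 < ‖pvchCi ζ + I‖ := norm_pos_iff.2 h1
  rw [← pvch_norm_id, h2]
  field_simp

theorem pvch_Ci_im_nonneg {ζ : ℂ} (hζ : ζ ≠ 1) (h1 : ‖ζ‖ ≤ 1) : 0 ≤ (pvchCi ζ).im := by
  have := pvch_Ci_im hζ
  have h2 : 0 ≤ 1 - ‖ζ‖ ^ 2 := by have := norm_nonneg ζ; nlinarith
  have h3 : 0 ≤ ‖pvchCi ζ + I‖ ^ 2 * (1 - ‖ζ‖ ^ 2) := by positivity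
  linarith

theorem pvch_Ci_im_pos {ζ : ℂ} (h1 : ‖ζ‖ < 1) : 0 < (pvchCi ζ).im := by
  have hζ : ζ ≠ 1 := fun h => by rw [h] at h1; simp at h1
  have := pvch_Ci_im hζ
  have h0 : pvchCi ζ + I ≠ 0 := by
    rw [pvch_Ci_add_I hζ]
    exact div_ne_zero (by simp) (sub_ne_zero.2 hζ.symm)
  have h2 : 0 < 1 - ‖ζ‖ ^ 2 := by have := norm_nonneg ζ; nlinarith
  have h3 : 0 < ‖pvchCi ζ + I‖ ^ 2 * (1 - ‖ζ‖ ^ 2) := by have := norm_pos_iff.2 h0; positivity
  linarith

theorem pvch_Ci_im_zero {ζ : ℂ} (hζ : ζ ≠ 1) (h1 : ‖ζ‖ = 1) : (pvchCi ζ).im = 0 := by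
  have := pvch_Ci_im hζ
  rw [h1] at this
  linarith

/-- a continuous injective map on a compact set has a continuous inverse -/
theorem pvch_inv_cont {X Y : Type*} [TopologicalSpace X] [TopologicalSpace Y] [T2Space Y] {K : Set X} (hK : IsCompact K)
    {f : X → Y} {g : Y → X} (hf : ContinuousOn f K) (hg : ∀ x ∈ K, g (f x) = x) : ContinuousOn g (f '' K) := by
  rintro _ ⟨x0, hx0, rfl⟩
  have hev : ∀ᶠ y in 𝓝[f '' K] (f x0), y ∈ f '' K := eventually_mem_nhdsWithin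
  have hgK : ∀ y ∈ f '' K, g y ∈ K ∧ f (g y) = y := by
    rintro _ ⟨x, hx, rfl⟩
    rw [hg x hx]; exact ⟨hx, rfl⟩
  refine hK.tendsto_nhds_of_unique_mapClusterPt (hev.mono fun y hy => (hgK y hy).1) fun x hx hcl => ?_
  have h4 : ClusterPt x (𝓟 K ⊓ map g (𝓝[f '' K] (f x0))) := by
    have : map g (𝓝[f '' K] (f x0)) ≤ 𝓟 K := by
      rw [le_principal_iff, mem_map]
      exact hev.mono fun y hy => (hgK y hy).1
    rw [inf_eq_right.2 this]
    exact hcl
  have h5 : Tendsto f (𝓝 x ⊓ (𝓟 K ⊓ map g (𝓝[f '' K] (f x0)))) (𝓝 (f x)) := by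
    refine (hf x hx).mono_left ?_
    rw [nhdsWithin, ← inf_assoc]
    exact inf_le_left
  have h6 : Tendsto f (𝓝 x ⊓ (𝓟 K ⊓ map g (𝓝[f '' K] (f x0)))) (𝓝 (f x0)) := by
    have h7 : Tendsto f (map g (𝓝[f '' K] (f x0))) (𝓝 (f x0)) := by
      rw [tendsto_map'_iff]
      refine (tendsto_id.mono_left nhdsWithin_le_nhds).congr' ?_
      exact hev.mono fun y hy => (hgK y hy).2.symm
    exact h7.mono_left (inf_le_right.trans inf_le_right)
  have : NeBot (𝓝 x ⊓ (𝓟 K ⊓ map g (𝓝[f '' K] (f x0)))) := h4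
  have h8 : f x = f x0 := tendsto_nhds_unique h5 h6
  rw [← hg x hx, h8]

namespace PvChart

variable {D : Set ℂ} {d : ℂ} {ψ : ℂ → ℂ}

open Classical in
/-- the disc chart `Ψ = Cayley ∘ ψ`, `Ψ d = 1` -/
noncomputable def disc (_h : PvChart D d ψ) (z : ℂ) : ℂ := if z = d then 1 else pvchC (ψ z)

open Classical in
/-- the inverse disc chart -/
noncomputable def dinv (_h : PvChart D d ψ) (ζ : ℂ) : ℂ := if ζ = 1 then d else pvcyInv D d ψ (pvchCi ζ)

theorem disc_d (h : PvChart D d ψ) : h.disc d = 1 := by simp [disc]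

theorem disc_of_ne (h : PvChart D d ψ) {z : ℂ} (hz : z ≠ d) : h.disc z = pvchC (ψ z) := by simp [disc, hz]

theorem dinv_one (h : PvChart D d ψ) : h.dinv 1 = d := by simp [dinv]

theorem dinv_of_ne (h : PvChart D d ψ) {ζ : ℂ} (hζ : ζ ≠ 1) : h.dinv ζ = pvcyInv D d ψ (pvchCi ζ) := by simp [dinv, hζ]

theorem disc_norm_le (h : PvChart D d ψ) {z : ℂ} (hz : z ∈ closure D) : ‖h.disc z‖ ≤ 1 := by
  by_cases hzd : z = d
  · rw [hzd, h.disc_d]; simp
  · rw [h.disc_of_ne hzd]; exact pvch_C_norm_le (h.im_nonneg hz hzd)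

theorem disc_norm_lt (h : PvChart D d ψ) {z : ℂ} (hz : z ∈ D) : ‖h.disc z‖ < 1 := by
  rw [h.disc_of_ne (h.sub hz).2]; exact pvch_C_norm_lt (h.im_pos hz)

theorem disc_norm_eq (h : PvChart D d ψ) {z : ℂ} (hz : z ∈ frontier D) : ‖h.disc z‖ = 1 := by
  by_cases hzd : z = d
  · rw [hzd, h.disc_d]; simp
  · rw [h.disc_of_ne hzd]; exact pvch_C_norm_eq (h.im_zero hz hzd)

theorem dinv_disc (h : PvChart D d ψ) {z : ℂ} (hz : z ∈ closure D) : h.dinv (h.disc z) = z := by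
  by_cases hzd : z = d
  · rw [hzd, h.disc_d, h.dinv_one]
  · have h0 := h.im_nonneg hz hzd
    rw [h.disc_of_ne hzd, h.dinv_of_ne (pvch_C_ne_one h0), pvch_Ci_C h0, h.inv_psi ⟨hz, hzd⟩]

theorem dinv_mem (h : PvChart D d ψ) {ζ : ℂ} (hζ : ‖ζ‖ ≤ 1) : h.dinv ζ ∈ closure D := by
  by_cases h1 : ζ = 1
  · rw [h1, h.dinv_one]; exact frontier_subset_closure h.hd
  · rw [h.dinv_of_ne h1]; exact (h.inv_mem (pvch_Ci_im_nonneg h1 hζ)).1

theorem dinv_mem_D (h : PvChart D d ψ) {ζ : ℂ} (hζ : ‖ζ‖ < 1) : h.dinv ζ ∈ D := by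
  have h1 : ζ ≠ 1 := fun h => by rw [h] at hζ; simp at hζ
  rw [h.dinv_of_ne h1]; exact h.inv_mem_D (pvch_Ci_im_pos hζ)

theorem dinv_mem_fr (h : PvChart D d ψ) {ζ : ℂ} (hζ : ‖ζ‖ = 1) : h.dinv ζ ∈ frontier D := by
  by_cases h1 : ζ = 1
  · rw [h1, h.dinv_one]; exact h.hd
  · rw [h.dinv_of_ne h1]; exact (h.inv_mem_frontier (pvch_Ci_im_zero h1 hζ)).1

theorem disc_dinv (h : PvChart D d ψ) {ζ : ℂ} (hζ : ‖ζ‖ ≤ 1) : h.disc (h.dinv ζ) = ζ := by
  by_cases h1 : ζ = 1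
  · rw [h1, h.dinv_one, h.disc_d]
  · have h0 := pvch_Ci_im_nonneg h1 hζ
    rw [h.dinv_of_ne h1, h.disc_of_ne (h.inv_mem h0).2, h.psi_inv h0, pvch_C_Ci h1]

theorem disc_img (h : PvChart D d ψ) : h.disc '' closure D = Metric.closedBall 0 1 := by
  ext ζ
  rw [mem_closedBall_zero_iff]
  constructor
  · rintro ⟨z, hz, rfl⟩; exact h.disc_norm_le hz
  · intro hζ; exact ⟨_, h.dinv_mem hζ, h.disc_dinv hζ⟩

theorem pvchC_contAt {w : ℂ} (hw : 0 ≤ w.im) : ContinuousAt pvchC w := by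
  unfold pvchC
  exact (continuousAt_id.sub continuousAt_const).div (continuousAt_id.add continuousAt_const) (pvch_add_I_ne hw)

/-- **the disc chart is continuous on `closure D`** -/
theorem disc_cont (h : PvChart D d ψ) : ContinuousOn h.disc (closure D) := by
  intro z hz
  by_cases hzd : z = d
  · subst hzd
    rw [← continuousWithinAt_sdiff_self]
    unfold ContinuousWithinAt
    rw [h.disc_d, tendsto_iff_norm_sub_tendsto_zero]
    have h1 : Tendsto (fun x => ‖ψ x + I‖) (𝓝[closure D \ {z}] z) atTop := by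
      refine tendsto_atTop_mono (fun x => ?_) (tendsto_atTop_add_const_right _ (-1) h.atd)
      have := norm_sub_le (ψ x + I) I
      rw [add_sub_cancel_right, Complex.norm_I] at this
      linarith
    have h2 : Tendsto (fun x => 2 * (‖ψ x + I‖)⁻¹) (𝓝[closure D \ {z}] z) (𝓝 0) := by
      simpa using h1.inv_tendsto_atTop.const_mul 2
    refine h2.congr' ?_
    filter_upwards [self_mem_nhdsWithin] with x hx
    rw [h.disc_of_ne hx.2, norm_sub_rev, pvch_one_sub_C (h.im_nonneg hx.1 hx.2), norm_div]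
    simp [div_eq_mul_inv]
  · have h1 : ContinuousWithinAt ψ (closure D) z := by
      have := h.cont z ⟨hz, hzd⟩
      refine this.mono_of_mem_nhdsWithin ?_
      have H : closure D ∩ {x | x ≠ d} ∈ 𝓝[closure D] z := inter_mem_nhdsWithin _ (isOpen_ne.mem_nhds hzd)
      exact mem_of_superset H fun x hx => ⟨hx.1, hx.2⟩
    have h2 : ContinuousWithinAt (fun x => pvchC (ψ x)) (closure D) z := (pvchC_contAt (h.im_nonneg hz hzd)).comp_continuousWithinAt h1
    refine h2.congr_of_eventuallyEq ?_ (h.disc_of_ne hzd)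
    filter_upwards [mem_nhdsWithin_of_mem_nhds (isOpen_ne.mem_nhds hzd)] with x hx
    exact h.disc_of_ne hx

/-- **the inverse disc chart is continuous on the closed disc** -/
theorem dinv_cont (h : PvChart D d ψ) : ContinuousOn h.dinv (Metric.closedBall 0 1) := by
  rw [← h.disc_img]
  exact pvch_inv_cont h.bdd.isCompact_closure h.disc_cont fun z hz => h.dinv_disc hz

theorem disc_diff (h : PvChart D d ψ) : DifferentiableOn ℂ h.disc D := by
  have h1 : DifferentiableOn ℂ (fun z => pvchC (ψ z)) D := by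
    unfold pvchC
    exact (h.hol.sub_const _).div (h.hol.add_const _) fun z hz => pvch_add_I_ne (h.im_pos hz).le
  exact h1.congr fun z hz => h.disc_of_ne (h.sub hz).2

theorem dinv_diff (h : PvChart D d ψ) : DifferentiableOn ℂ h.dinv (Metric.ball 0 1) := by
  have hne : ∀ ζ ∈ Metric.ball (0 : ℂ) 1, ζ ≠ 1 := fun ζ hζ e => by
    rw [e, mem_ball_zero_iff] at hζ; simp at hζ
  have h0 : DifferentiableOn ℂ pvchCi (Metric.ball 0 1) := by
    unfold pvchCi
    exact ((differentiableOn_const _).mul ((differentiableOn_const _).add differentiableOn_id)).div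
      ((differentiableOn_const _).sub differentiableOn_id) fun ζ hζ => sub_ne_zero.2 (hne ζ hζ).symm
  have h1 : DifferentiableOn ℂ (fun ζ => pvcyInv D d ψ (pvchCi ζ)) (Metric.ball 0 1) :=
    (pvch_inv_diff h).comp h0 fun ζ hζ => pvch_Ci_im_pos (mem_ball_zero_iff.1 hζ)
  exact h1.congr fun ζ hζ => h.dinv_of_ne (hne ζ hζ)

theorem disc_injOn (h : PvChart D d ψ) : InjOn h.disc (closure D) := fun z hz z' hz' e => by
  rw [← h.dinv_disc hz, ← h.dinv_disc hz', e]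

theorem dinv_injOn (h : PvChart D d ψ) : InjOn h.dinv (Metric.closedBall 0 1) := fun ζ hζ ζ' hζ' e => by
  rw [← h.disc_dinv (mem_closedBall_zero_iff.1 hζ), ← h.disc_dinv (mem_closedBall_zero_iff.1 hζ'), e]

end PvChart

/-- forces the equation lemmas of the definitions to be generated HERE -/
theorem pvch_eqns_cite : True := by
  have := @pvchC.eq_1; have := @pvchCi.eq_1; have := @PvChart.disc.eq_1; have := @PvChart.dinv.eq_1
  trivial

/-! ## 4. the analytic subdomains `D_s = Ψ⁻¹(ball 0 s)`, `0 < s < 1` -/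

theorem pvch_Ci_contAt {ζ : ℂ} (hζ : ζ ≠ 1) : ContinuousAt pvchCi ζ := by
  unfold pvchCi
  exact (continuousAt_const.mul (continuousAt_const.add continuousAt_id)).div (continuousAt_const.sub continuousAt_id)
    (sub_ne_zero.2 hζ.symm)

theorem pvch_Ci_diffAt {ζ : ℂ} (hζ : ζ ≠ 1) : DifferentiableAt ℂ pvchCi ζ := by
  unfold pvchCi
  exact ((differentiableAt_const _).mul ((differentiableAt_const _).add differentiableAt_id)).div
    ((differentiableAt_const _).sub differentiableAt_id) (sub_ne_zero.2 hζ.symm)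

theorem pvch_Ci_atTop : Tendsto (fun ζ => ‖pvchCi ζ‖) (𝓝[≠] (1 : ℂ)) atTop := by
  have h1 : Tendsto (fun ζ : ℂ => ‖1 + ζ‖) (𝓝[≠] (1 : ℂ)) (𝓝 2) := by
    have : Tendsto (fun ζ : ℂ => ‖1 + ζ‖) (𝓝 (1 : ℂ)) (𝓝 ‖(1 : ℂ) + 1‖) := by
      apply Continuous.tendsto; fun_prop
    have e : ‖(1 : ℂ) + 1‖ = 2 := by norm_num
    rw [e] at this
    exact this.mono_left nhdsWithin_le_nhds
  have h2 : Tendsto (fun ζ : ℂ => ‖(1 - ζ)⁻¹‖) (𝓝[≠] (1 : ℂ)) atTop := by
    have h3 : Tendsto (fun ζ : ℂ => 1 - ζ) (𝓝[≠] (1 : ℂ)) (𝓝[≠] 0) := by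
      refine tendsto_nhdsWithin_iff.2 ⟨?_, ?_⟩
      · have : Tendsto (fun ζ : ℂ => 1 - ζ) (𝓝 (1 : ℂ)) (𝓝 (1 - 1)) := by
          apply Continuous.tendsto; fun_prop
        rw [sub_self] at this
        exact this.mono_left nhdsWithin_le_nhds
      · filter_upwards [self_mem_nhdsWithin] with ζ hζ
        exact sub_ne_zero.2 (Ne.symm hζ)
    exact tendsto_norm_inv_nhdsNE_zero_atTop.comp h3
  have h4 := h1.pos_mul_atTop (by norm_num) h2
  refine h4.congr fun ζ => ?_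
  unfold pvchCi
  rw [div_eq_mul_inv, norm_mul, norm_mul, Complex.norm_I, one_mul]

namespace PvChart

variable {D : Set ℂ} {d : ℂ} {ψ : ℂ → ℂ}

/-- the subdomain `D_s = Ψ⁻¹(ball 0 s)` -/
def sd (h : PvChart D d ψ) (s : ℝ) : Set ℂ := {z | z ∈ D ∧ ‖h.disc z‖ < s}

/-- the pole of the subdomain, `Ψ⁻¹(s)` -/
noncomputable def sp (h : PvChart D d ψ) (s : ℝ) : ℂ := h.dinv s

/-- the disc chart of the subdomain, `Ψ / s`: holomorphic and injective on `D ⊇ closure D_s` -/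
noncomputable def sg (h : PvChart D d ψ) (s : ℝ) (z : ℂ) : ℂ := h.disc z / s

/-- the half plane chart of the subdomain -/
noncomputable def sψ (h : PvChart D d ψ) (s : ℝ) (z : ℂ) : ℂ := pvchCi (h.sg s z)

/-- the radial projection `closure D → closure D_s` -/
noncomputable def rad (h : PvChart D d ψ) (s : ℝ) (z : ℂ) : ℂ := h.dinv (s * h.disc z)

/-- the radial lift `closure D_s → closure D` -/
noncomputable def lift (h : PvChart D d ψ) (s : ℝ) (z : ℂ) : ℂ := h.dinv (h.disc z / s)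

theorem sd_sub (h : PvChart D d ψ) (s : ℝ) : h.sd s ⊆ D := fun _ hz => hz.1

theorem sd_isOpen (h : PvChart D d ψ) (s : ℝ) : IsOpen (h.sd s) := by
  have := h.disc_diff.continuousOn.norm.isOpen_inter_preimage h.isOpen (isOpen_Iio (a := s))
  exact this

theorem norm_real_mul (s : ℝ) (hs : 0 ≤ s) (ζ : ℂ) : ‖(s : ℂ) * ζ‖ = s * ‖ζ‖ := by
  rw [norm_mul, Complex.norm_real, Real.norm_of_nonneg hs]

theorem norm_div_real (s : ℝ) (hs : 0 ≤ s) (ζ : ℂ) : ‖ζ / (s : ℂ)‖ = ‖ζ‖ / s := by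
  rw [norm_div, Complex.norm_real, Real.norm_of_nonneg hs]

/-- the closed subdomain -/
theorem sd_closure (h : PvChart D d ψ) {s : ℝ} (hs0 : 0 < s) (hs1 : s < 1) : closure (h.sd s) = {z | z ∈ D ∧ ‖h.disc z‖ ≤ s} := by
  have hsub : Metric.closedBall (0 : ℂ) s ⊆ Metric.closedBall 0 1 := Metric.closedBall_subset_closedBall hs1.le
  have e1 : {z | z ∈ D ∧ ‖h.disc z‖ ≤ s} = h.dinv '' Metric.closedBall 0 s := by
    ext z
    constructor
    · rintro ⟨hz, hn⟩
      exact ⟨h.disc z, mem_closedBall_zero_iff.2 hn, h.dinv_disc (subset_closure hz)⟩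
    · rintro ⟨ζ, hζ, rfl⟩
      rw [mem_closedBall_zero_iff] at hζ
      exact ⟨h.dinv_mem_D (hζ.trans_lt hs1), by rw [h.disc_dinv (hζ.trans hs1.le)]; exact hζ⟩
  have e2 : h.sd s = h.dinv '' Metric.ball 0 s := by
    ext z
    constructor
    · rintro ⟨hz, hn⟩
      exact ⟨h.disc z, mem_ball_zero_iff.2 hn, h.dinv_disc (subset_closure hz)⟩
    · rintro ⟨ζ, hζ, rfl⟩
      rw [mem_ball_zero_iff] at hζ
      exact ⟨h.dinv_mem_D (hζ.trans hs1), by rw [h.disc_dinv (hζ.le.trans hs1.le)]; exact hζ⟩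
  apply Subset.antisymm
  · have hc : IsClosed (h.dinv '' Metric.closedBall 0 s) :=
      ((isCompact_closedBall (0 : ℂ) s).image_of_continuousOn (h.dinv_cont.mono hsub)).isClosed
    rw [e1]
    refine closure_minimal ?_ hc
    rw [e2]
    exact image_mono Metric.ball_subset_closedBall
  · rw [e1, e2, ← closure_ball (0 : ℂ) hs0.ne']
    apply ContinuousOn.image_closure
    rw [closure_ball (0 : ℂ) hs0.ne']
    exact h.dinv_cont.mono hsub

theorem sd_closure_sub (h : PvChart D d ψ) {s : ℝ} (hs0 : 0 < s) (hs1 : s < 1) : closure (h.sd s) ⊆ D := by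
  rw [h.sd_closure hs0 hs1]; exact fun _ hz => hz.1

theorem sd_frontier (h : PvChart D d ψ) {s : ℝ} (hs0 : 0 < s) (hs1 : s < 1) : frontier (h.sd s) = {z | z ∈ D ∧ ‖h.disc z‖ = s} := by
  rw [(h.sd_isOpen s).frontier_eq, h.sd_closure hs0 hs1]
  ext z
  constructor
  · rintro ⟨⟨h1, h2⟩, h3⟩
    exact ⟨h1, le_antisymm h2 (not_lt.1 fun h4 => h3 ⟨h1, h4⟩)⟩
  · rintro ⟨h1, h2⟩
    exact ⟨⟨h1, h2.le⟩, fun h3 => absurd h3.2 (by rw [h2]; exact lt_irrefl _)⟩

theorem sp_mem (h : PvChart D d ψ) {s : ℝ} (hs0 : 0 < s) (hs1 : s < 1) : h.sp s ∈ frontier (h.sd s) := by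
  have hn : ‖(s : ℂ)‖ = s := by rw [Complex.norm_real, Real.norm_of_nonneg hs0.le]
  rw [h.sd_frontier hs0 hs1]
  exact ⟨h.dinv_mem_D (by rw [hn]; exact hs1), by rw [sp, h.disc_dinv (by rw [hn]; exact hs1.le), hn]⟩

theorem sg_sp (h : PvChart D d ψ) {s : ℝ} (hs0 : 0 < s) (hs1 : s < 1) : h.sg s (h.sp s) = 1 := by
  have hn : ‖(s : ℂ)‖ = s := by rw [Complex.norm_real, Real.norm_of_nonneg hs0.le]
  rw [sg, sp, h.disc_dinv (by rw [hn]; exact hs1.le), div_self (by exact_mod_cast hs0.ne')]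

theorem sg_diff (h : PvChart D d ψ) (s : ℝ) : DifferentiableOn ℂ (h.sg s) D := h.disc_diff.div_const _

theorem sg_injOn (h : PvChart D d ψ) {s : ℝ} (hs0 : 0 < s) : InjOn (h.sg s) (closure D) := fun z hz z' hz' e => by
  have hs : (s : ℂ) ≠ 0 := by exact_mod_cast hs0.ne'
  exact h.disc_injOn hz hz' (by simpa [sg, div_left_inj' hs] using e)

theorem sg_ne_one (h : PvChart D d ψ) {s : ℝ} (hs0 : 0 < s) (hs1 : s < 1) {z : ℂ} (hz : z ∈ closure D) (hzp : z ≠ h.sp s) : h.sg s z ≠ 1 := fun e =>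
  hzp (h.sg_injOn hs0 hz (subset_closure (h.sd_closure_sub hs0 hs1 (frontier_subset_closure (h.sp_mem hs0 hs1)))) (e.trans (h.sg_sp hs0 hs1).symm))

theorem sg_norm (h : PvChart D d ψ) {s : ℝ} (hs0 : 0 < s) (z : ℂ) : ‖h.sg s z‖ = ‖h.disc z‖ / s := norm_div_real s hs0.le _

/-- `Ψ⁻¹ (s ζ)`, the parametrisation of the closed subdomain by the closed unit disc -/
theorem sg_dinv (h : PvChart D d ψ) {s : ℝ} (hs0 : 0 < s) (hs1 : s < 1) {ζ : ℂ} (hζ : ‖ζ‖ ≤ 1) : h.sg s (h.dinv (s * ζ)) = ζ := by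
  have hs : (s : ℂ) ≠ 0 := by exact_mod_cast hs0.ne'
  have hn : ‖(s : ℂ) * ζ‖ ≤ 1 := by
    rw [norm_real_mul s hs0.le]; nlinarith [norm_nonneg ζ]
  rw [sg, h.disc_dinv hn, mul_div_cancel_left₀ _ hs]

theorem dinv_smul_mem (h : PvChart D d ψ) {s : ℝ} (hs0 : 0 < s) (hs1 : s < 1) {ζ : ℂ} (hζ : ‖ζ‖ ≤ 1) : h.dinv (s * ζ) ∈ D := by
  apply h.dinv_mem_D
  rw [norm_real_mul s hs0.le]; nlinarith [norm_nonneg ζ]

theorem disc_dinv_smul (h : PvChart D d ψ) {s : ℝ} (hs0 : 0 < s) (hs1 : s < 1) {ζ : ℂ} (hζ : ‖ζ‖ ≤ 1) : h.disc (h.dinv (s * ζ)) = s * ζ := by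
  apply h.disc_dinv
  rw [norm_real_mul s hs0.le]; nlinarith [norm_nonneg ζ]

/-- **the subdomain with its chart satisfies the hypotheses of the frozen statement** -/
theorem sub_chart (h : PvChart D d ψ) {s : ℝ} (hs0 : 0 < s) (hs1 : s < 1) : PvChart (h.sd s) (h.sp s) (h.sψ s) := by
  have hcl := h.sd_closure_sub hs0 hs1
  have hne : ∀ z ∈ closure (h.sd s) \ {h.sp s}, h.sg s z ≠ 1 := fun z hz => h.sg_ne_one hs0 hs1 (subset_closure (hcl hz.1)) hz.2
  have hsub : h.sd s ⊆ closure (h.sd s) \ {h.sp s} := fun z hz => ⟨subset_closure hz, fun e => by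
    have h1 := h.sp_mem hs0 hs1
    rw [(h.sd_isOpen s).frontier_eq] at h1
    exact h1.2 (e ▸ hz)⟩
  refine ⟨h.sd_isOpen s, h.bdd.subset (h.sd_sub s), h.sp_mem hs0 hs1, ?_, ?_, ?_, ?_, ?_, ?_⟩
  · intro z hz
    exact ((pvch_Ci_diffAt (hne z (hsub hz))).comp_differentiableWithinAt z ((h.sg_diff s) z hz.1)).mono (h.sd_sub s)
  · intro z hz z' hz' e
    have e2 : h.sg s z = h.sg s z' := by
      rw [← pvch_C_Ci (hne z hz), ← pvch_C_Ci (hne z' hz')]
      exact congrArg pvchC e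
    exact h.sg_injOn hs0 (subset_closure (hcl hz.1)) (subset_closure (hcl hz'.1)) e2
  · intro z hz
    exact ((pvch_Ci_contAt (hne z hz)).comp_continuousWithinAt ((h.sg_diff s).continuousOn z (hcl hz.1))).mono fun x hx => hcl hx.1
  · ext w
    constructor
    · rintro ⟨z, hz, rfl⟩
      apply pvch_Ci_im_pos
      rw [h.sg_norm hs0, div_lt_one hs0]
      exact hz.2
    · intro hw
      have hw' : 0 < w.im := hw
      have hn := pvch_C_norm_lt hw'
      refine ⟨h.dinv (s * pvchC w), ⟨h.dinv_smul_mem hs0 hs1 hn.le, ?_⟩, ?_⟩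
      · rw [h.disc_dinv_smul hs0 hs1 hn.le, norm_real_mul s hs0.le]; nlinarith
      · rw [sψ, h.sg_dinv hs0 hs1 hn.le, pvch_Ci_C hw'.le]
  · ext w
    constructor
    · rintro ⟨z, hz, rfl⟩
      have hz1 := hz.1
      rw [h.sd_frontier hs0 hs1] at hz1
      apply pvch_Ci_im_zero (hne z ⟨frontier_subset_closure hz.1, hz.2⟩)
      rw [h.sg_norm hs0, hz1.2, div_self hs0.ne']
    · intro hw
      have hw' : w.im = 0 := hw
      have hn := pvch_C_norm_eq hw'
      refine ⟨h.dinv (s * pvchC w), ⟨?_, ?_⟩, ?_⟩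
      · rw [h.sd_frontier hs0 hs1]
        exact ⟨h.dinv_smul_mem hs0 hs1 hn.le, by rw [h.disc_dinv_smul hs0 hs1 hn.le, norm_real_mul s hs0.le, hn, mul_one]⟩
      · intro e
        have e1 : h.sg s (h.dinv (s * pvchC w)) = 1 := by rw [e]; exact h.sg_sp hs0 hs1
        rw [h.sg_dinv hs0 hs1 hn.le] at e1
        exact pvch_C_ne_one hw'.ge e1
      · rw [sψ, h.sg_dinv hs0 hs1 hn.le, pvch_Ci_C hw'.ge]
  · have h1 : Tendsto (h.sg s) (𝓝[closure (h.sd s) \ {h.sp s}] (h.sp s)) (𝓝[≠] 1) := by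
      refine tendsto_nhdsWithin_iff.2 ⟨?_, ?_⟩
      · have h2 := (h.sg_diff s).continuousOn (h.sp s) (hcl (frontier_subset_closure (h.sp_mem hs0 hs1)))
        have h3 : Tendsto (h.sg s) (𝓝[D] (h.sp s)) (𝓝 1) := by
          have := h2.tendsto
          rwa [h.sg_sp hs0 hs1] at this
        exact h3.mono_left (nhdsWithin_mono _ fun x hx => hcl hx.1)
      · filter_upwards [self_mem_nhdsWithin] with z hz
        exact hne z hz
    exact pvch_Ci_atTop.comp h1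

/-- **the subdomain is analytic**: exactly the clause `an` of `PvAn` (`R289/Defs/Top.lean`) -/
theorem sub_an (h : PvChart D d ψ) {s : ℝ} (hs0 : 0 < s) (hs1 : s < 1) :
    ∃ (N : Set ℂ) (g : ℂ → ℂ), IsOpen N ∧ closure (h.sd s) ⊆ N ∧ DifferentiableOn ℂ g N ∧ Set.InjOn g N ∧ h.sd s = N ∩ g ⁻¹' Metric.ball 0 1 ∧ g (h.sp s) = 1 ∧
      ∀ z ∈ closure (h.sd s) \ {h.sp s}, h.sψ s z = Complex.I * (1 + g z) / (1 - g z) := by
  refine ⟨D, h.sg s, h.isOpen, h.sd_closure_sub hs0 hs1, h.sg_diff s, (h.sg_injOn hs0).mono subset_closure, ?_, h.sg_sp hs0 hs1, fun z _ => rfl⟩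
  ext z
  simp only [sd, mem_ofPred_eq, mem_inter_iff, mem_preimage, mem_ball_zero_iff, h.sg_norm hs0, div_lt_one hs0]

/-! ### the radial projection and the radial lift -/

theorem rad_d (h : PvChart D d ψ) (s : ℝ) : h.rad s d = h.sp s := by rw [rad, h.disc_d, mul_one, sp]

theorem rad_one (h : PvChart D d ψ) {z : ℂ} (hz : z ∈ closure D) : h.rad 1 z = z := by
  rw [rad, Complex.ofReal_one, one_mul, h.dinv_disc hz]

theorem rad_mem_D (h : PvChart D d ψ) {s : ℝ} (hs0 : 0 < s) (hs1 : s < 1) {z : ℂ} (hz : z ∈ closure D) : h.rad s z ∈ D :=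
  h.dinv_smul_mem hs0 hs1 (h.disc_norm_le hz)

theorem disc_rad (h : PvChart D d ψ) {s : ℝ} (hs0 : 0 < s) (hs1 : s < 1) {z : ℂ} (hz : z ∈ closure D) : h.disc (h.rad s z) = s * h.disc z :=
  h.disc_dinv_smul hs0 hs1 (h.disc_norm_le hz)

theorem sg_rad (h : PvChart D d ψ) {s : ℝ} (hs0 : 0 < s) (hs1 : s < 1) {z : ℂ} (hz : z ∈ closure D) : h.sg s (h.rad s z) = h.disc z :=
  h.sg_dinv hs0 hs1 (h.disc_norm_le hz)

theorem rad_mem (h : PvChart D d ψ) {s : ℝ} (hs0 : 0 < s) (hs1 : s < 1) {z : ℂ} (hz : z ∈ closure D) : h.rad s z ∈ closure (h.sd s) := by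
  rw [h.sd_closure hs0 hs1]
  refine ⟨h.rad_mem_D hs0 hs1 hz, ?_⟩
  rw [h.disc_rad hs0 hs1 hz, norm_real_mul s hs0.le]
  nlinarith [h.disc_norm_le hz]

theorem rad_mem_sd (h : PvChart D d ψ) {s : ℝ} (hs0 : 0 < s) (hs1 : s < 1) {z : ℂ} (hz : z ∈ D) : h.rad s z ∈ h.sd s := by
  refine ⟨h.rad_mem_D hs0 hs1 (subset_closure hz), ?_⟩
  rw [h.disc_rad hs0 hs1 (subset_closure hz), norm_real_mul s hs0.le]
  nlinarith [h.disc_norm_lt hz]

theorem rad_mem_fr (h : PvChart D d ψ) {s : ℝ} (hs0 : 0 < s) (hs1 : s < 1) {z : ℂ} (hz : z ∈ frontier D) : h.rad s z ∈ frontier (h.sd s) := by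
  rw [h.sd_frontier hs0 hs1]
  refine ⟨h.rad_mem_D hs0 hs1 (frontier_subset_closure hz), ?_⟩
  rw [h.disc_rad hs0 hs1 (frontier_subset_closure hz), norm_real_mul s hs0.le, h.disc_norm_eq hz, mul_one]

theorem rad_ne_sp (h : PvChart D d ψ) {s : ℝ} (hs0 : 0 < s) (hs1 : s < 1) {z : ℂ} (hz : z ∈ closure D) (hzd : z ≠ d) : h.rad s z ≠ h.sp s := fun e => by
  have e1 := h.sg_rad hs0 hs1 hz
  rw [e, h.sg_sp hs0 hs1, ← h.disc_d] at e1
  exact hzd (h.disc_injOn hz (frontier_subset_closure h.hd) e1.symm)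

/-- **the radial projection keeps the chart coordinate** -/
theorem sψ_rad (h : PvChart D d ψ) {s : ℝ} (hs0 : 0 < s) (hs1 : s < 1) {z : ℂ} (hz : z ∈ closure D) (hzd : z ≠ d) : h.sψ s (h.rad s z) = ψ z := by
  rw [sψ, h.sg_rad hs0 hs1 hz, h.disc_of_ne hzd, pvch_Ci_C (h.im_nonneg hz hzd)]

theorem lift_norm (h : PvChart D d ψ) {s : ℝ} (hs0 : 0 < s) (hs1 : s < 1) {z : ℂ} (hz : z ∈ closure (h.sd s)) : ‖h.disc z / (s : ℂ)‖ ≤ 1 := by
  rw [h.sd_closure hs0 hs1] at hz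
  rw [norm_div_real s hs0.le, div_le_one hs0]
  exact hz.2

theorem lift_mem (h : PvChart D d ψ) {s : ℝ} (hs0 : 0 < s) (hs1 : s < 1) {z : ℂ} (hz : z ∈ closure (h.sd s)) : h.lift s z ∈ closure D :=
  h.dinv_mem (h.lift_norm hs0 hs1 hz)

theorem lift_mem_fr (h : PvChart D d ψ) {s : ℝ} (hs0 : 0 < s) (hs1 : s < 1) {z : ℂ} (hz : z ∈ frontier (h.sd s)) : h.lift s z ∈ frontier D := by
  rw [h.sd_frontier hs0 hs1] at hz
  apply h.dinv_mem_fr
  rw [norm_div_real s hs0.le, hz.2, div_self hs0.ne']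

theorem lift_sp (h : PvChart D d ψ) {s : ℝ} (hs0 : 0 < s) (hs1 : s < 1) : h.lift s (h.sp s) = d := by
  have := h.sg_sp hs0 hs1
  rw [sg] at this
  rw [lift, this, h.dinv_one]

theorem rad_lift (h : PvChart D d ψ) {s : ℝ} (hs0 : 0 < s) (hs1 : s < 1) {z : ℂ} (hz : z ∈ closure (h.sd s)) : h.rad s (h.lift s z) = z := by
  have hs : (s : ℂ) ≠ 0 := by exact_mod_cast hs0.ne'
  rw [rad, lift, h.disc_dinv (h.lift_norm hs0 hs1 hz), mul_div_cancel₀ _ hs, h.dinv_disc (subset_closure (h.sd_closure_sub hs0 hs1 hz))]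

theorem lift_rad (h : PvChart D d ψ) {s : ℝ} (hs0 : 0 < s) (hs1 : s < 1) {z : ℂ} (hz : z ∈ closure D) : h.lift s (h.rad s z) = z := by
  have hs : (s : ℂ) ≠ 0 := by exact_mod_cast hs0.ne'
  rw [lift, h.disc_rad hs0 hs1 hz, mul_div_cancel_left₀ _ hs, h.dinv_disc hz]

theorem lift_ne_d (h : PvChart D d ψ) {s : ℝ} (hs0 : 0 < s) (hs1 : s < 1) {z : ℂ} (hz : z ∈ closure (h.sd s)) (hzp : z ≠ h.sp s) : h.lift s z ≠ d := fun e => by
  have := h.rad_lift hs0 hs1 hz
  rw [e, h.rad_d] at this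
  exact hzp this.symm

/-- **the radial lift keeps the chart coordinate** -/
theorem ψ_lift (h : PvChart D d ψ) {s : ℝ} (hs0 : 0 < s) (hs1 : s < 1) {z : ℂ} (hz : z ∈ closure (h.sd s)) (hzp : z ≠ h.sp s) : ψ (h.lift s z) = h.sψ s z := by
  rw [← h.sψ_rad hs0 hs1 (h.lift_mem hs0 hs1 hz) (h.lift_ne_d hs0 hs1 hz hzp), h.rad_lift hs0 hs1 hz]

/-- the radial segment `t ↦ Ψ⁻¹(t Ψ z)` is a path in `closure D` -/
theorem rad_cont (h : PvChart D d ψ) {z : ℂ} (hz : z ∈ closure D) : ContinuousOn (fun t : ℝ => h.rad t z) (Icc 0 1) := by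
  have h1 : ContinuousOn (fun t : ℝ => (t : ℂ) * h.disc z) (Icc 0 1) := by fun_prop
  refine h.dinv_cont.comp h1 fun t ht => ?_
  rw [mem_closedBall_zero_iff, norm_real_mul t ht.1]
  nlinarith [h.disc_norm_le hz, norm_nonneg (h.disc z), ht.1, ht.2]

/-- **the radial projections converge uniformly to the identity** as `s ↑ 1` -/
theorem rad_unif (h : PvChart D d ψ) {η : ℝ} (hη : 0 < η) : ∃ s0 : ℝ, 0 < s0 ∧ s0 < 1 ∧ ∀ s : ℝ, s0 ≤ s → s ≤ 1 → ∀ z ∈ closure D, ‖h.rad s z - z‖ < η := by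
  have hu := (isCompact_closedBall (0 : ℂ) 1).uniformContinuousOn_of_continuous h.dinv_cont
  rw [Metric.uniformContinuousOn_iff] at hu
  obtain ⟨δ, hδ, H⟩ := hu η hη
  refine ⟨max (1 / 2) (1 - δ / 2), by positivity, max_lt (by norm_num) (by linarith), fun s hs hs1 z hz => ?_⟩
  have hs0 : 0 ≤ s := le_trans (by norm_num) ((le_max_left _ _).trans hs)
  have hsδ : 1 - δ / 2 ≤ s := (le_max_right _ _).trans hs
  have hn := h.disc_norm_le hz
  have h1 : (s : ℂ) * h.disc z ∈ Metric.closedBall (0 : ℂ) 1 := by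
    rw [mem_closedBall_zero_iff, norm_real_mul s hs0]
    nlinarith [norm_nonneg (h.disc z)]
  have h2 : h.disc z ∈ Metric.closedBall (0 : ℂ) 1 := mem_closedBall_zero_iff.2 hn
  have h3 : dist ((s : ℂ) * h.disc z) (h.disc z) < δ := by
    have e : (s : ℂ) * h.disc z - h.disc z = ((s - 1 : ℝ) : ℂ) * h.disc z := by push_cast; ring
    rw [dist_eq_norm, e, norm_mul, Complex.norm_real, Real.norm_eq_abs, abs_of_nonpos (by linarith)]
    nlinarith [norm_nonneg (h.disc z)]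
  have := H _ h1 _ h2 h3
  rwa [h.dinv_disc hz, dist_eq_norm] at this

/-- the same for the lift: every point of the closed subdomain is close to its lift, and the whole radial segment between them stays close -/
theorem lift_unif (h : PvChart D d ψ) {η : ℝ} (hη : 0 < η) : ∃ s0 : ℝ, 0 < s0 ∧ s0 < 1 ∧ ∀ s : ℝ, s0 ≤ s → s < 1 → ∀ z ∈ closure (h.sd s),
    ‖z - h.lift s z‖ < η ∧ ∀ t : ℝ, s ≤ t → t ≤ 1 → ‖h.rad t (h.lift s z) - h.lift s z‖ < η := by
  obtain ⟨s0, h0, h1, H⟩ := h.rad_unif hη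
  refine ⟨s0, h0, h1, fun s hs hs1 z hz => ?_⟩
  have hs0 : 0 < s := h0.trans_le hs
  refine ⟨?_, fun t ht ht1 => H t (hs.trans ht) ht1 _ (h.lift_mem hs0 hs1 hz)⟩
  have := H s hs hs1.le _ (h.lift_mem hs0 hs1 hz)
  rwa [h.rad_lift hs0 hs1 hz] at this

/-- the subdomains exhaust `D` -/
theorem mem_sd_of (h : PvChart D d ψ) {K : Set ℂ} (hK : IsCompact K) (hKD : K ⊆ D) : ∃ s0 : ℝ, 0 < s0 ∧ s0 < 1 ∧ ∀ s : ℝ, s0 ≤ s → K ⊆ h.sd s := by
  rcases K.eq_empty_or_nonempty with rfl | hne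
  · exact ⟨1 / 2, by norm_num, by norm_num, fun s _ => empty_subset _⟩
  obtain ⟨z0, hz0, hmax⟩ := hK.exists_isMaxOn hne ((h.disc_diff.continuousOn.mono hKD).norm)
  have h1 := h.disc_norm_lt (hKD hz0)
  refine ⟨(1 + ‖h.disc z0‖) / 2, by positivity, by linarith, fun s hs z hz => ⟨hKD hz, ?_⟩⟩
  have : ‖h.disc z‖ ≤ ‖h.disc z0‖ := hmax hz
  linarith

theorem sd_mono (h : PvChart D d ψ) {s t : ℝ} (hst : s ≤ t) : h.sd s ⊆ h.sd t := fun _ hz => ⟨hz.1, hz.2.trans_le hst⟩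

end PvChart

/-- forces the equation lemmas of the definitions to be generated HERE -/
theorem pvch_eqns_cite2 : True := by
  have := @PvChart.sd.eq_1; have := @PvChart.sp.eq_1; have := @PvChart.sg.eq_1; have := @PvChart.sψ.eq_1; have := @PvChart.rad.eq_1; have := @PvChart.lift.eq_1
  trivial

/-! ## 5. the mirrored transfer -/

/-- **MIRROR** (chart transfer of `pvcx_mirror_tri`): no bounded holomorphic function on `D` has boundary values on the side lines of the NEGATIVELY oriented equilateral triangle.      (= the statement `pvo_mirror` of `Obs/Abs.lean`) -/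
theorem pvch_mirror {D : Set ℂ} {d : ℂ} {ψ : ℂ → ℂ} (h : PvChart D d ψ) {a c : ℂ}
    (ha : a ∈ frontier D) (hc : c ∈ frontier D) (had : a ≠ d) (hcd : c ≠ d) (hψa : ψ a = 0) (hψc : ψ c = 1) {G : ℂ → ℂ} {w0 w1 : ℂ} (hw : w0 ≠ w1)
    (hG : DifferentiableOn ℂ G D) (hGc : ContinuousOn G (closure D \ {a, c, d}))
    (hGb : ∃ C : ℝ, ∀ z ∈ closure D \ {a, c, d}, ‖G z‖ ≤ C)
    (h01 : ∀ z ∈ frontier D, z ≠ d → 0 < (ψ z).re → (ψ z).re < 1 → ∃ t : ℝ, G z = w0 + t * (w1 - w0))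
    (h1 : ∀ z ∈ frontier D, z ≠ d → 1 < (ψ z).re → ∃ t : ℝ, G z = w1 + t * ((w1 - w0) * exp (-(2 * Real.pi * I / 3))))
    (h0 : ∀ z ∈ frontier D, z ≠ d → (ψ z).re < 0 → ∃ t : ℝ, G z = w0 + t * ((w1 - w0) * exp (-(Real.pi * I / 3)))) : False := by
  have hmaps : ∀ w : ℂ, 0 ≤ w.im → w ≠ 0 → w ≠ 1 → pvcyInv D d ψ w ∈ closure D \ {a, c, d} := by
    intro w hw0 hw1 hw2
    refine ⟨(h.inv_mem hw0).1, ?_⟩
    rintro (e | e | e)
    · exact hw1 (by rw [← h.psi_inv hw0, e, hψa])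
    · exact hw2 (by rw [← h.psi_inv hw0, e, hψc])
    · exact (h.inv_mem hw0).2 e
  have hreal : ∀ x : ℝ, pvcyInv D d ψ x ∈ frontier D ∧ pvcyInv D d ψ x ≠ d ∧ (ψ (pvcyInv D d ψ x)).re = x := by
    intro x
    have h1 := h.inv_mem_frontier (w := (x : ℂ)) (by simp)
    refine ⟨h1.1, h1.2, ?_⟩
    rw [h.psi_inv (w := (x : ℂ)) (by simp)]
    simp
  obtain ⟨C, hC⟩ := hGb
  set η := cexp (-(Real.pi / 3 * I)) with hη
  have z2 : cexp (Real.pi / 3 * I) * cexp (Real.pi / 3 * I) = cexp (Real.pi / 3 * I) - 1 := pvcx_zeta_sq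
  have zi : cexp (Real.pi / 3 * I) * η = 1 := pvcx_zeta_inv
  have n2 : η * η = η - 1 := by
    linear_combination (η * η) * z2 - (cexp (Real.pi / 3 * I) * η + 1) * zi + η * zi
  have e1 : exp (-(Real.pi * I / 3)) = η := by rw [hη]; congr 1; ring
  have e2 : exp (-(2 * Real.pi * I / 3)) = η * η := by rw [hη, ← Complex.exp_add]; congr 1; ring
  refine pvcx_mirror_tri (G := fun w => G (pvcyInv D d ψ w)) (C := C) (w0 := w0) (w1 := w1) (w2 := w0 + η * (w1 - w0)) hw.symm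
    (by rw [add_sub_cancel_left]) ?_ (pvcy_comp_differentiableOn h hG) (fun w hw0 hw1 hw2 => hC _ (hmaps w hw0 hw1 hw2)) ?_ ?_ ?_
  · refine hGc.comp ((pvcy_inv_continuousOn h).mono sdiff_subset) fun w hw => ?_
    exact hmaps w hw.1 (fun e => hw.2 (Or.inl e)) (fun e => hw.2 (Or.inr e))
  · intro x hx0 hx1
    obtain ⟨g1, g2, g3⟩ := hreal x
    exact h01 _ g1 g2 (by rw [g3]; exact hx0) (by rw [g3]; exact hx1)
  · intro x hx1
    obtain ⟨g1, g2, g3⟩ := hreal x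
    obtain ⟨t, ht⟩ := h1 _ g1 g2 (by rw [g3]; exact hx1)
    refine ⟨t, ?_⟩
    simp only [ht, e2]
    linear_combination (t : ℂ) * (w1 - w0) * n2
  · intro x hx0
    obtain ⟨g1, g2, g3⟩ := hreal x
    obtain ⟨t, ht⟩ := h0 _ g1 g2 (by rw [g3]; exact hx0)
    refine ⟨t, ?_⟩
    simp only [ht, e1]
    ring

end Claimed.Agent.R289
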