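import Claimed.Agent.R289.Defs.Frozen
import Claimed.Agent.Shared.BrouwerCube
import Claimed.Agent.R289.Chart

/-!
# Row 289 (S0537, Cardy's formula for Poisson-Voronoi percolation), BOX END = THE TOP OF THE HUB      (owner helper212; design + Sec. 1, 2 by helper254; prefix `pvend_`, types `Pv*`)

    S0537  <=  `pvend_main : PvLower → (frozen statement)`          ONE exit: `PvLower`.

* `PvChart D d ψ`      (declared in `R289/Cx2.lean`, 197; kit `R289/Chart.lean`, 61) the hypotheses of the frozen statement on the domain and its chart (`ψ : closure D ∖ {d} → closed upper half plane`, pole at `d`).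
* `pvWhite ω`          the union of the closed white cells.
* `PvStrict D d ψ x ω` there is a PATH in `closure D`, inside `pvBlack ω`, DISJOINT from `pvWhite ω`, from the arc `ψ⁻¹[0,x]` to the arc `{d} ∪ ψ⁻¹[1,∞)`.
* `PvLower`            for every chart, `0 < x < 1`, `η > 0`: eventually as `ε ↓ 0` there is a MEASURABLE `E ⊆ {PvStrict}` with `pvLaw ε E ≥ cardyF x - η`.
PROOF of the frozen statement from `PvLower` (254, `notes/R289/audit254.md` Sec. 3):
  lower bound: the image of the path is a connected subset of `pvBlack ∩ closure D`;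
  upper bound: `PvLower` in the ROTATED chart `ψ' = 1 - x/ψ` (pole `a`; marks `b, c, d, a ↦ 0, 1-x, 1, ∞`) for the FLIPPED colours (`pvend_flip_law`) gives a strict WHITE path from the arc `bc` to the arc `da`;
  by TOP (`pvend_top`) it meets every connected subset of `closure D` which joins `ab` to `cd`; a strict white path is disjoint from `pvBlack`;   `cardyF x + cardyF (1-x) = 1` (174, `Cx1`).
  The event of the frozen statement is never shown measurable: outer measure squeezed between measurable events.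
TOP: Maehara's two-path lemma from Brouwer on the square (`Shared.bk_brouwer_cube`), strip chart `log (ψ - s)` whose two ends are two points of the connected set (after `PvChart.inv` one of them is the pole).
-/

set_option autoImplicit false

namespace Claimed.Agent.R289

open Set Filter Topology MeasureTheory
open Claims.C0465

/-! ## 1. the two-path lemma in a rectangle (Maehara), from Brouwer on the square -/

/-- **two paths in a rectangle**, one from the left side to the right side, one from the bottom to the top, meet -/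
theorem pvend_two_path {a b c d : ℝ} (h v : ℝ → ℝ × ℝ)
    (hh : ContinuousOn h (Icc 0 1)) (hv : ContinuousOn v (Icc 0 1))
    (hR : ∀ t ∈ Icc (0 : ℝ) 1, c ≤ (h t).2 ∧ (h t).2 ≤ d) (vR : ∀ t ∈ Icc (0 : ℝ) 1, a ≤ (v t).1 ∧ (v t).1 ≤ b)
    (h0 : (h 0).1 = a) (h1 : (h 1).1 = b) (v0 : (v 0).2 = c) (v1 : (v 1).2 = d) :
    ∃ s ∈ Icc (0 : ℝ) 1, ∃ t ∈ Icc (0 : ℝ) 1, h s = v t := by
  by_contra hcon
  push Not at hcon
  set Δ1 : (Fin 2 → ℝ) → ℝ := fun p => (v (p 1)).1 - (h (p 0)).1 with hΔ1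
  set Δ2 : (Fin 2 → ℝ) → ℝ := fun p => (h (p 0)).2 - (v (p 1)).2 with hΔ2
  set N : (Fin 2 → ℝ) → ℝ := fun p => max |Δ1 p| |Δ2 p| with hN
  have hmem : ∀ p ∈ Icc (0 : Fin 2 → ℝ) 1, ∀ i, p i ∈ Icc (0 : ℝ) 1 := fun p hp i => ⟨hp.1 i, hp.2 i⟩
  have hNpos : ∀ p ∈ Icc (0 : Fin 2 → ℝ) 1, 0 < N p := by
    intro p hp
    by_contra h0'
    have hle : N p ≤ 0 := not_lt.1 h0'
    have e1 : Δ1 p = 0 := abs_eq_zero.1 (le_antisymm ((le_max_left _ _).trans hle) (abs_nonneg _))
    have e2 : Δ2 p = 0 := abs_eq_zero.1 (le_antisymm ((le_max_right _ _).trans hle) (abs_nonneg _))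
    refine hcon (p 0) (hmem p hp 0) (p 1) (hmem p hp 1) (Prod.ext ?_ ?_)
    · simp only [hΔ1] at e1; linarith
    · simp only [hΔ2] at e2; linarith
  have c0 : ContinuousOn (fun p : Fin 2 → ℝ => h (p 0)) (Icc 0 1) :=
    hh.comp (continuous_apply 0).continuousOn fun p hp => hmem p hp 0
  have c1 : ContinuousOn (fun p : Fin 2 → ℝ => v (p 1)) (Icc 0 1) :=
    hv.comp (continuous_apply 1).continuousOn fun p hp => hmem p hp 1
  have cΔ1 : ContinuousOn Δ1 (Icc 0 1) := (continuous_fst.comp_continuousOn c1).sub (continuous_fst.comp_continuousOn c0)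
  have cΔ2 : ContinuousOn Δ2 (Icc 0 1) := (continuous_snd.comp_continuousOn c0).sub (continuous_snd.comp_continuousOn c1)
  have cN : ContinuousOn N (Icc 0 1) := ContinuousOn.sup cΔ1.abs cΔ2.abs
  set F : (Fin 2 → ℝ) → (Fin 2 → ℝ) := fun p => ![1 / 2 + Δ1 p / (2 * N p), 1 / 2 + Δ2 p / (2 * N p)] with hF
  have cF : ContinuousOn F (Icc 0 1) := by
    rw [continuousOn_pi]
    intro i
    have hne : ∀ p ∈ Icc (0 : Fin 2 → ℝ) 1, 2 * N p ≠ 0 := fun p hp => by have := hNpos p hp; positivity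
    fin_cases i
    · exact continuousOn_const.add (cΔ1.div (continuousOn_const.mul cN) hne)
    · exact continuousOn_const.add (cΔ2.div (continuousOn_const.mul cN) hne)
  have hb : ∀ p ∈ Icc (0 : Fin 2 → ℝ) 1, ∀ x : ℝ, |x| ≤ N p → 0 ≤ 1 / 2 + x / (2 * N p) ∧ 1 / 2 + x / (2 * N p) ≤ 1 := by
    intro p hp x hx
    have hp' := hNpos p hp
    obtain ⟨x1, x2⟩ := abs_le.1 hx
    have e : 1 / 2 + x / (2 * N p) = (N p + x) / (2 * N p) := by field_simp
    rw [e]
    exact ⟨div_nonneg (by linarith) (by positivity), by rw [div_le_one (by positivity)]; linarith⟩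
  have mF : MapsTo F (Icc 0 1) (Icc 0 1) := by
    intro p hp
    refine ⟨fun i => ?_, fun i => ?_⟩ <;> fin_cases i
    · exact (hb p hp _ (le_max_left _ _)).1
    · exact (hb p hp _ (le_max_right _ _)).1
    · exact (hb p hp _ (le_max_left _ _)).2
    · exact (hb p hp _ (le_max_right _ _)).2
  obtain ⟨p, hp, hfix⟩ := Claimed.Agent.Shared.bk_brouwer_cube 2 F cF mF
  have hp' := hNpos p hp
  have f0 : 1 / 2 + Δ1 p / (2 * N p) = p 0 := congrFun hfix 0
  have f1 : 1 / 2 + Δ2 p / (2 * N p) = p 1 := congrFun hfix 1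
  have key : ∀ x : ℝ, x = N p → 1 / 2 + x / (2 * N p) = 1 := fun x hx => by rw [hx]; field_simp; norm_num
  have key' : ∀ x : ℝ, x = -N p → 1 / 2 + x / (2 * N p) = 0 := fun x hx => by rw [hx]; field_simp; norm_num
  rcases max_choice |Δ1 p| |Δ2 p| with hm | hm
  · have hm' : |Δ1 p| = N p := hm.symm
    rcases abs_choice (Δ1 p) with ha | ha
    · rw [ha] at hm'
      have e := key _ hm'
      rw [f0] at e
      have : Δ1 p = (v (p 1)).1 - b := by simp only [hΔ1]; rw [e, h1]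
      have := (vR _ (hmem p hp 1)).2
      linarith
    · rw [ha] at hm'
      have e := key' (Δ1 p) (by linarith)
      rw [f0] at e
      have : Δ1 p = (v (p 1)).1 - a := by simp only [hΔ1]; rw [e, h0]
      have := (vR _ (hmem p hp 1)).1
      linarith
  · have hm' : |Δ2 p| = N p := hm.symm
    rcases abs_choice (Δ2 p) with ha | ha
    · rw [ha] at hm'
      have e := key _ hm'
      rw [f1] at e
      have : Δ2 p = (h (p 0)).2 - d := by simp only [hΔ2]; rw [e, v1]
      have := (hR _ (hmem p hp 0)).2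
      linarith
    · rw [ha] at hm'
      have e := key' (Δ2 p) (by linarith)
      rw [f1] at e
      have : Δ2 p = (h (p 0)).2 - c := by simp only [hΔ2]; rw [e, v0]
      have := (hR _ (hmem p hp 0)).1
      linarith

/-- a path from the bottom to the top of a rectangle meets every connected subset of the rectangle which touches the left and the right side -/
theorem pvend_rect {a b c d : ℝ} (hcd : c ≤ d) (v : ℝ → ℝ × ℝ) (hv : ContinuousOn v (Icc 0 1))
    (vR : ∀ t ∈ Icc (0 : ℝ) 1, a ≤ (v t).1 ∧ (v t).1 ≤ b) (v0 : (v 0).2 = c) (v1 : (v 1).2 = d)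
    (S : Set (ℝ × ℝ)) (hS : IsPreconnected S) (hSR : ∀ p ∈ S, a ≤ p.1 ∧ p.1 ≤ b ∧ c ≤ p.2 ∧ p.2 ≤ d)
    (hl : ∃ p ∈ S, p.1 = a) (hr : ∃ p ∈ S, p.1 = b) : ∃ t ∈ Icc (0 : ℝ) 1, v t ∈ S := by
  by_contra hcon
  push Not at hcon
  set V : Set (ℝ × ℝ) := v '' Icc 0 1 with hV
  have hVc : IsClosed V := (isCompact_Icc.image_of_continuousOn hv).isClosed
  set r : ℝ × ℝ → ℝ × ℝ := fun p => (max a (min p.1 b), max c (min p.2 d)) with hr'
  have hrc : Continuous r := by fun_prop
  have hrid : ∀ p ∈ S, r p = p := by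
    intro p hp
    obtain ⟨h1, h2, h3, h4⟩ := hSR p hp
    simp only [hr']
    rw [min_eq_left h2, max_eq_right h1, min_eq_left h4, max_eq_right h3]
  set U : Set (ℝ × ℝ) := r ⁻¹' Vᶜ with hU
  have hUo : IsOpen U := hVc.isOpen_compl.preimage hrc
  have hSU : S ⊆ U := by
    intro p hp
    show r p ∉ V
    rw [hrid p hp]
    rintro ⟨t, ht, rfl⟩
    exact hcon t ht hp
  obtain ⟨pl, hpl, el⟩ := hl
  obtain ⟨pr, hpr, er⟩ := hr
  have hCo : IsOpen (connectedComponentIn U pl) := hUo.connectedComponentIn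
  have hCc : IsConnected (connectedComponentIn U pl) := isConnected_connectedComponentIn_iff.2 (hSU hpl)
  have hCp : IsPathConnected (connectedComponentIn U pl) := (hCo.isConnected_iff_isPathConnected).1 hCc
  have hSC : S ⊆ connectedComponentIn U pl := hS.subset_connectedComponentIn hpl hSU
  obtain ⟨γ, hγ⟩ := hCp.joinedIn pl (hSC hpl) pr (hSC hpr)
  obtain ⟨s, hs, t, ht, hst⟩ := pvend_two_path (a := a) (b := b) (c := c) (d := d) (fun u => r (γ.extend u)) v
    (hrc.comp γ.continuous_extend).continuousOn hv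
    (fun u _ => ⟨le_max_left _ _, max_le hcd (min_le_right _ _)⟩) vR
    (by simp only [γ.extend_zero]; rw [hrid pl hpl, el]) (by simp only [γ.extend_one]; rw [hrid pr hpr, er]) v0 v1
  have h1 : γ.extend s ∈ U := by
    rw [γ.extend_apply hs]
    exact connectedComponentIn_subset U pl (hγ ⟨s, hs⟩)
  exact h1 ⟨t, ht, hst.symm⟩

/-! ## 2. the topological lemma in a strip chart -/

/-- **TOP, abstract form**: `Λ` is a continuous injective chart of `K` minus two points into the closed strip `0 ≤ Im ≤ π`, the two points are its ends.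
A path from the bottom line to the top line meets every connected subset of `K` which contains the two ends. -/
theorem pvend_top_abs {K : Set ℂ} {Λ : ℂ → ℂ} {pb pc : ℂ} (hbc : pb ≠ pc)
    (hΛc : ContinuousOn Λ (K \ {pb, pc})) (hΛi : InjOn Λ (K \ {pb, pc}))
    (hIm : ∀ z ∈ K \ {pb, pc}, 0 ≤ (Λ z).im ∧ (Λ z).im ≤ Real.pi)
    (hb : Tendsto (fun z => (Λ z).re) (𝓝[K \ {pb, pc}] pb) atBot)
    (hc : Tendsto (fun z => (Λ z).re) (𝓝[K \ {pb, pc}] pc) atTop)
    {S : Set ℂ} (hS : IsPreconnected S) (hSK : S ⊆ K) (hbS : pb ∈ S) (hcS : pc ∈ S)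
    {σ : ℝ → ℂ} (hσ : ContinuousOn σ (Icc 0 1)) (hσK : ∀ t ∈ Icc (0 : ℝ) 1, σ t ∈ K \ {pb, pc})
    (σ0 : (Λ (σ 0)).im = 0) (σ1 : (Λ (σ 1)).im = Real.pi) : ∃ t ∈ Icc (0 : ℝ) 1, σ t ∈ S := by
  classical
  have hπ := Real.pi_pos
  have cΛσ : ContinuousOn (fun t => Λ (σ t)) (Icc 0 1) := hΛc.comp hσ hσK
  obtain ⟨T0, hT0⟩ := isCompact_Icc.exists_bound_of_continuousOn (Complex.continuous_re.comp_continuousOn cΛσ)
  have hT0' : ∀ t ∈ Icc (0 : ℝ) 1, |(Λ (σ t)).re| ≤ T0 := fun t ht => by simpa using hT0 t ht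
  have hT00 : 0 ≤ T0 := (abs_nonneg _).trans (hT0' 0 ⟨le_rfl, zero_le_one⟩)
  set T : ℝ := T0 + 1 with hT
  set χ : ℝ → ℝ := fun u => max 0 (min (T - |u|) 1) with hχ
  have hχc : Continuous χ := by fun_prop
  have hχ01 : ∀ u, 0 ≤ χ u ∧ χ u ≤ 1 := fun u => ⟨le_max_left _ _, max_le zero_le_one (min_le_right _ _)⟩
  have hχ0 : ∀ u, T ≤ |u| → χ u = 0 := fun u hu => max_eq_left ((min_le_left _ _).trans (by linarith))
  have hχ1 : ∀ u, |u| ≤ T0 → χ u = 1 := fun u hu => by
    simp only [hχ]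
    rw [min_eq_right (by linarith), max_eq_right zero_le_one]
  set g : ℂ → ℝ × ℝ := fun z => (max (-T) (min (Λ z).re T), χ (Λ z).re * (Λ z).im + (1 - χ (Λ z).re) * (Real.pi / 2)) with hg
  set Pj : ℂ → ℝ × ℝ := fun z => if z = pb then (-T, Real.pi / 2) else if z = pc then (T, Real.pi / 2) else g z with hPj
  have hPjb : Pj pb = (-T, Real.pi / 2) := if_pos rfl
  have hPjc : Pj pc = (T, Real.pi / 2) := by
    show (if pc = pb then ((-T, Real.pi / 2) : ℝ × ℝ) else if pc = pc then (T, Real.pi / 2) else g pc) = _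
    rw [if_neg hbc.symm, if_pos rfl]
  have hPjg : ∀ z, z ≠ pb → z ≠ pc → Pj z = g z := fun z h1 h2 => by
    show (if z = pb then ((-T, Real.pi / 2) : ℝ × ℝ) else if z = pc then (T, Real.pi / 2) else g z) = _
    rw [if_neg h1, if_neg h2]
  have hmemK : ∀ z ∈ K, z ≠ pb → z ≠ pc → z ∈ K \ {pb, pc} := fun z hz h1 h2 => ⟨hz, by simp [h1, h2]⟩
  have cPj : ContinuousOn Pj K := by
    intro z hz
    by_cases h1 : z = pb
    · subst h1
      refine (continuousWithinAt_const (b := ((-T, Real.pi / 2) : ℝ × ℝ))).congr_of_eventuallyEq ?_ hPjb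
      have e1 := eventually_nhdsWithin_iff.1 (hb.eventually (eventually_lt_atBot (-T)))
      rw [EventuallyEq, eventually_nhdsWithin_iff]
      filter_upwards [e1, isOpen_ne.mem_nhds hbc] with w hw hwc hwK
      by_cases h2 : w = z
      · rw [h2, hPjb]
      · have h3 : (Λ w).re < -T := hw (hmemK w hwK h2 hwc)
        rw [hPjg w h2 hwc]
        simp only [hg]
        rw [hχ0 _ (by rw [abs_of_neg (by linarith)]; linarith), min_eq_left (by linarith), max_eq_left h3.le]
        simp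
    · by_cases h2 : z = pc
      · subst h2
        refine (continuousWithinAt_const (b := ((T, Real.pi / 2) : ℝ × ℝ))).congr_of_eventuallyEq ?_ hPjc
        have e1 := eventually_nhdsWithin_iff.1 (hc.eventually (eventually_gt_atTop T))
        rw [EventuallyEq, eventually_nhdsWithin_iff]
        filter_upwards [e1, isOpen_ne.mem_nhds hbc.symm] with w hw hwb hwK
        by_cases h3 : w = z
        · rw [h3, hPjc]
        · have h4 : T < (Λ w).re := hw (hmemK w hwK hwb h3)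
          rw [hPjg w hwb h3]
          simp only [hg]
          rw [hχ0 _ (by rw [abs_of_pos (by linarith)]; linarith), min_eq_right h4.le, max_eq_right (by linarith)]
          simp
      · have hz' := hmemK z hz h1 h2
        have hnb : K \ {pb, pc} ∈ 𝓝[K] z := by
          have : ({pb, pc} : Set ℂ)ᶜ ∈ 𝓝 z := (Set.toFinite {pb, pc}).isClosed.isOpen_compl.mem_nhds hz'.2
          exact inter_mem_nhdsWithin K this
        have cΛ : ContinuousWithinAt Λ K z := (hΛc z hz').mono_of_mem_nhdsWithin hnb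
        have cre : ContinuousWithinAt (fun w => (Λ w).re) K z := Complex.continuous_re.continuousAt.comp_continuousWithinAt cΛ
        have cim : ContinuousWithinAt (fun w => (Λ w).im) K z := Complex.continuous_im.continuousAt.comp_continuousWithinAt cΛ
        have cχ : ContinuousWithinAt (fun w => χ (Λ w).re) K z := hχc.continuousAt.comp_continuousWithinAt cre
        have cg : ContinuousWithinAt g K z := by
          have c1 : ContinuousWithinAt (fun w => max (-T) (min (Λ w).re T)) K z :=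
            ContinuousWithinAt.sup continuousWithinAt_const (ContinuousWithinAt.inf cre continuousWithinAt_const)
          have c2 : ContinuousWithinAt (fun w => χ (Λ w).re * (Λ w).im + (1 - χ (Λ w).re) * (Real.pi / 2)) K z :=
            (cχ.mul cim).add ((continuousWithinAt_const.sub cχ).mul continuousWithinAt_const)
          exact c1.prodMk c2
        refine cg.congr_of_eventuallyEq ?_ (hPjg z h1 h2)
        filter_upwards [hnb] with w hw
        exact hPjg w (fun h => hw.2 (by simp [h])) (fun h => hw.2 (by simp [h]))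
  have hTpos : 0 < T := by linarith
  have hrect : ∀ p ∈ Pj '' S, -T ≤ p.1 ∧ p.1 ≤ T ∧ 0 ≤ p.2 ∧ p.2 ≤ Real.pi := by
    rintro _ ⟨z, hz, rfl⟩
    by_cases h1 : z = pb
    · rw [h1, hPjb]
      exact ⟨le_rfl, by linarith, by positivity, by linarith⟩
    · by_cases h2 : z = pc
      · rw [h2, hPjc]
        exact ⟨by linarith, le_rfl, by positivity, by linarith⟩
      · rw [hPjg z h1 h2]
        obtain ⟨i0, i1⟩ := hIm z (hmemK z (hSK hz) h1 h2)
        obtain ⟨x0, x1⟩ := hχ01 (Λ z).re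
        refine ⟨le_max_left _ _, max_le (by linarith) (min_le_right _ _), ?_, ?_⟩
        · show 0 ≤ χ (Λ z).re * (Λ z).im + (1 - χ (Λ z).re) * (Real.pi / 2)
          have : 0 ≤ (1 - χ (Λ z).re) * (Real.pi / 2) := mul_nonneg (by linarith) (by positivity)
          have : 0 ≤ χ (Λ z).re * (Λ z).im := mul_nonneg x0 i0
          linarith
        · show χ (Λ z).re * (Λ z).im + (1 - χ (Λ z).re) * (Real.pi / 2) ≤ Real.pi
          have a1 : χ (Λ z).re * (Λ z).im ≤ χ (Λ z).re * Real.pi := mul_le_mul_of_nonneg_left i1 x0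
          have a2 : (1 - χ (Λ z).re) * (Real.pi / 2) ≤ (1 - χ (Λ z).re) * Real.pi := mul_le_mul_of_nonneg_left (by linarith) (by linarith)
          linarith
  obtain ⟨t, ht, z, hz, hzt⟩ := pvend_rect (a := -T) (b := T) (c := 0) (d := Real.pi) hπ.le (fun t => ((Λ (σ t)).re, (Λ (σ t)).im))
    ((Complex.continuous_re.comp_continuousOn cΛσ).prodMk (Complex.continuous_im.comp_continuousOn cΛσ))
    (fun t ht => by
      have := abs_le.1 (hT0' t ht)
      exact ⟨by show -T ≤ (Λ (σ t)).re; linarith [this.1], by show (Λ (σ t)).re ≤ T; linarith [this.2]⟩)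
    σ0 σ1 (Pj '' S) (hS.image Pj (cPj.mono hSK)) hrect ⟨Pj pb, ⟨pb, hbS, rfl⟩, by rw [hPjb]⟩ ⟨Pj pc, ⟨pc, hcS, rfl⟩, by rw [hPjc]⟩
  have hre := abs_le.1 (hT0' t ht)
  refine ⟨t, ht, ?_⟩
  by_cases h1 : z = pb
  · rw [h1, hPjb] at hzt
    have := congrArg Prod.fst hzt
    simp only at this
    linarith [hre.1]
  · by_cases h2 : z = pc
    · rw [h2, hPjc] at hzt
      have := congrArg Prod.fst hzt
      simp only at this
      linarith [hre.2]
    · rw [hPjg z h1 h2] at hzt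
      have e1 : max (-T) (min (Λ z).re T) = (Λ (σ t)).re := congrArg Prod.fst hzt
      have e2 : χ (Λ z).re * (Λ z).im + (1 - χ (Λ z).re) * (Real.pi / 2) = (Λ (σ t)).im := congrArg Prod.snd hzt
      have e3 : (Λ z).re = (Λ (σ t)).re := by
        rcases le_total (Λ z).re T with h3 | h3
        · rw [min_eq_left h3] at e1
          rcases le_total (-T) (Λ z).re with h4 | h4
          · rwa [max_eq_right h4] at e1
          · rw [max_eq_left h4] at e1
            linarith [hre.1]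
        · rw [min_eq_right h3, max_eq_right (by linarith)] at e1
          linarith [hre.2]
      rw [hχ1 _ (by rw [e3]; exact hT0' t ht)] at e2
      have e4 : (Λ z).im = (Λ (σ t)).im := by linarith
      have := hΛi (hmemK z (hSK hz) h1 h2) (hσK t ht) (Complex.ext e3 e4)
      rw [← this]
      exact hz
/-! ## 3. charts, the strict crossing event, THE EXIT -/

/-- the union of the closed white cells -/
def pvWhite (ω : PVSample) : Set ℂ :=
  ⋃ (k : ℤ × ℤ) (j : ℕ) (_ : j < ω.1 k) (_ : (ω.2 (k, j)).2 = false), pvCell ω (pvSite ω k j)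

/-- the boundary arc `ψ⁻¹ [0, x]` -/
def pvArcL (D : Set ℂ) (d : ℂ) (ψ : ℂ → ℂ) (x : ℝ) : Set ℂ := {z | z ∈ frontier D ∧ z ≠ d ∧ 0 ≤ (ψ z).re ∧ (ψ z).re ≤ x}

/-- the boundary arc `{d} ∪ ψ⁻¹ [1, ∞)` -/
def pvArcR (D : Set ℂ) (d : ℂ) (ψ : ℂ → ℂ) : Set ℂ := {z | z = d ∨ (z ∈ frontier D ∧ z ≠ d ∧ 1 ≤ (ψ z).re)}

/-- **strict black crossing**: a path in `closure D`, inside the black cells and disjoint from the closed white cells, from `ψ⁻¹[0,x]` to `{d} ∪ ψ⁻¹[1,∞)` -/
def PvStrict (D : Set ℂ) (d : ℂ) (ψ : ℂ → ℂ) (x : ℝ) (ω : PVSample) : Prop :=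
  ∃ σ : ℝ → ℂ, ContinuousOn σ (Icc 0 1) ∧ (∀ t ∈ Icc (0 : ℝ) 1, σ t ∈ closure D ∧ σ t ∈ pvBlack ω ∧ σ t ∉ pvWhite ω) ∧
    σ 0 ∈ pvArcL D d ψ x ∧ σ 1 ∈ pvArcR D d ψ

/-- **THE EXIT below the top of the Hub** (= lower bound in Cardy's formula for strict crossings, all charts) -/
def PvLower : Prop :=
  ∀ (D : Set ℂ) (d : ℂ) (ψ : ℂ → ℂ), PvChart D d ψ → ∀ x : ℝ, 0 < x → x < 1 → ∀ η : ℝ, 0 < η →
    ∀ᶠ ε in 𝓝[>] (0 : ℝ), ∃ E : Set PVSample, MeasurableSet E ∧ E ⊆ {ω | PvStrict D d ψ x ω} ∧ ENNReal.ofReal (cardyF x - η) ≤ pvLaw ε E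

/-- forces the equation lemmas of the definitions to be generated HERE -/
theorem pvend_eqns_cite : True := by
  have := @pvWhite.eq_1; have := @pvArcL.eq_1; have := @pvArcR.eq_1; have := @PvStrict.eq_1; have := @PvLower.eq_1
  trivial

/-! ## 4. (`PvChart.im_pos`, `im_zero`, `im_nonneg`, `aff`, `inv`: now in `R289/Chart.lean`, helper61, on the structure `PvChart` of `R289/Cx2.lean`, helper197) -/

/-! ## 5. the logarithm on the closed upper half plane -/

theorem pvend_log_cont : ContinuousOn Complex.log {w : ℂ | 0 ≤ w.im ∧ w ≠ 0} := by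
  intro w hw
  obtain ⟨h1, h2⟩ := hw
  by_cases hs : w ∈ Complex.slitPlane
  · exact (continuousAt_clog hs).continuousWithinAt
  · have hre : w.re < 0 ∧ w.im = 0 := by
      rw [Complex.mem_slitPlane_iff, not_or, not_lt, not_not] at hs
      refine ⟨lt_of_le_of_ne hs.1 fun h0 => h2 (Complex.ext h0 hs.2), hs.2⟩
    have harg : ContinuousWithinAt Complex.arg {w : ℂ | 0 ≤ w.im ∧ w ≠ 0} w :=
      (Complex.continuousWithinAt_arg_of_re_neg_of_im_zero hre.1 hre.2).mono fun z hz => hz.1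
    have hn : ContinuousWithinAt (fun z : ℂ => Real.log ‖z‖) {w : ℂ | 0 ≤ w.im ∧ w ≠ 0} w :=
      ((Real.continuousAt_log (norm_ne_zero_iff.2 h2)).comp continuous_norm.continuousAt).continuousWithinAt
    have : Complex.log = fun z : ℂ => ((Real.log ‖z‖ : ℝ) : ℂ) + ((Complex.arg z : ℝ) : ℂ) * Complex.I := by
      funext z; rfl
    rw [this]
    exact (Complex.continuous_ofReal.continuousAt.comp_continuousWithinAt hn).add
      ((Complex.continuous_ofReal.continuousAt.comp_continuousWithinAt harg).mul continuousWithinAt_const)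

/-! ## 6. TOP in a chart -/

section top

variable {D : Set ℂ} {d : ℂ} {ψ : ℂ → ℂ}

theorem pvend_real (h : PvChart D d ψ) {z : ℂ} (hz : z ∈ frontier D) (hzd : z ≠ d) : ψ z = (((ψ z).re : ℝ) : ℂ) :=
  Complex.ext rfl (by rw [h.im_zero hz hzd]; rfl)

/-- **TOP, the connected set contains the pole** and the boundary point `p`; the path starts on the boundary to the right of `p` and ends on the boundary to the left of `p` -/
theorem pvend_top0 (h : PvChart D d ψ) {S : Set ℂ} (hS : IsPreconnected S) (hSK : S ⊆ closure D) (hdS : d ∈ S)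
    {p : ℂ} (hpS : p ∈ S) (hpF : p ∈ frontier D) (hpd : p ≠ d)
    {σ : ℝ → ℂ} (hσ : ContinuousOn σ (Icc 0 1)) (hσK : ∀ t ∈ Icc (0 : ℝ) 1, σ t ∈ closure D)
    (h0F : σ 0 ∈ frontier D) (h0d : σ 0 ≠ d) (h0 : (ψ p).re ≤ (ψ (σ 0)).re)
    (h1F : σ 1 ∈ frontier D) (h1d : σ 1 ≠ d) (h1 : (ψ (σ 1)).re ≤ (ψ p).re) : ∃ t ∈ Icc (0 : ℝ) 1, σ t ∈ S := by
  by_cases hit : ∃ t ∈ Icc (0 : ℝ) 1, σ t = p ∨ σ t = d
  · obtain ⟨t, ht, e | e⟩ := hit
    · exact ⟨t, ht, e ▸ hpS⟩
    · exact ⟨t, ht, e ▸ hdS⟩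
  push Not at hit
  set s : ℂ := ψ p with hs
  have hsim : s.im = 0 := h.im_zero hpF hpd
  have hpK : p ∈ closure D := frontier_subset_closure hpF
  have hmem : ∀ z ∈ closure D \ {p, d}, z ∈ closure D ∧ z ≠ p ∧ z ≠ d := fun z hz =>
    ⟨hz.1, fun e => hz.2 (by simp [e]), fun e => hz.2 (by simp [e])⟩
  have hne : ∀ z ∈ closure D \ {p, d}, ψ z - s ≠ 0 := fun z hz h0 => by
    obtain ⟨a, b, c⟩ := hmem z hz
    exact b (h.inj ⟨a, c⟩ ⟨hpK, hpd⟩ (sub_eq_zero.1 h0))
  have him : ∀ z ∈ closure D \ {p, d}, 0 ≤ (ψ z - s).im := fun z hz => by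
    obtain ⟨a, b, c⟩ := hmem z hz
    rw [Complex.sub_im, hsim, sub_zero]
    exact h.im_nonneg a c
  have hsub : closure D \ {p, d} ⊆ closure D \ {d} := fun z hz => ⟨hz.1, (hmem z hz).2.2⟩
  have cψ : ContinuousOn (fun z => ψ z - s) (closure D \ {p, d}) := (h.cont.mono hsub).sub continuousOn_const
  refine pvend_top_abs (K := closure D) (Λ := fun z => Complex.log (ψ z - s)) (pb := p) (pc := d) hpd ?_ ?_ ?_ ?_ ?_ hS hSK hpS hdS hσ
    (fun t ht => ⟨hσK t ht, fun e => by
      rcases e with e | e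
      · exact (hit t ht).1 e
      · exact (hit t ht).2 e⟩) ?_ ?_
  · exact pvend_log_cont.comp cψ fun z hz => ⟨him z hz, hne z hz⟩
  · intro z1 hz1 z2 hz2 e
    have e' : ψ z1 - s = ψ z2 - s := by
      have := congrArg Complex.exp e
      simpa only [Complex.exp_log (hne z1 hz1), Complex.exp_log (hne z2 hz2)] using this
    exact h.inj (hsub hz1) (hsub hz2) (sub_left_injective e')
  · intro z hz
    rw [Complex.log_im]
    exact ⟨Complex.arg_nonneg_iff.2 (him z hz), Complex.arg_le_pi _⟩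
  · have t0 : Tendsto ψ (𝓝[closure D \ {p, d}] p) (𝓝 s) :=
      (h.cont p ⟨hpK, hpd⟩).tendsto.mono_left (nhdsWithin_mono _ hsub)
    have t1 : Tendsto (fun w => ‖ψ w - s‖) (𝓝[closure D \ {p, d}] p) (𝓝[>] 0) := by
      refine tendsto_nhdsWithin_iff.2 ⟨?_, ?_⟩
      · have := (t0.sub_const s).norm
        simpa using this
      · filter_upwards [self_mem_nhdsWithin] with w hw
        exact norm_pos_iff.2 (hne w hw)
    have := Real.tendsto_log_nhdsGT_zero.comp t1
    refine this.congr fun w => ?_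
    rw [Complex.log_re]; rfl
  · have t1 : Tendsto (fun w => ‖ψ w - s‖) (𝓝[closure D \ {p, d}] d) atTop := by
      have : Tendsto (fun w => ‖ψ w‖ + (-‖s‖)) (𝓝[closure D \ {p, d}] d) atTop :=
        tendsto_atTop_add_const_right _ _ (h.atd.mono_left (nhdsWithin_mono _ hsub))
      refine tendsto_atTop_mono (fun w => ?_) this
      have := norm_sub_norm_le (ψ w) s
      linarith
    have := Real.tendsto_log_atTop.comp t1
    refine this.congr fun w => ?_
    rw [Complex.log_re]; rfl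
  · have e0 : ψ (σ 0) - s = (((ψ (σ 0)).re - (ψ p).re : ℝ) : ℂ) := by
      rw [hs, pvend_real h h0F h0d, pvend_real h hpF hpd]; push_cast; simp
    show (Complex.log (ψ (σ 0) - s)).im = 0
    rw [Complex.log_im, e0, Complex.arg_ofReal_of_nonneg (by linarith)]
  · have e1 : ψ (σ 1) - s = (((ψ (σ 1)).re - (ψ p).re : ℝ) : ℂ) := by
      rw [hs, pvend_real h h1F h1d, pvend_real h hpF hpd]; push_cast; simp
    have hlt : (ψ (σ 1)).re - (ψ p).re < 0 := by
      rcases h1.lt_or_eq with h2 | h2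
      · linarith
      · exfalso
        have : ψ (σ 1) = ψ p := by rw [pvend_real h h1F h1d, pvend_real h hpF hpd, h2]
        exact (hit 1 ⟨zero_le_one, le_rfl⟩).1 (h.inj ⟨frontier_subset_closure h1F, h1d⟩ ⟨hpK, hpd⟩ this)
    show (Complex.log (ψ (σ 1) - s)).im = Real.pi
    rw [Complex.log_im, e1, Complex.arg_ofReal_of_neg hlt]

theorem pvend_inv_re (r s : ℝ) : (-1 / ((r : ℂ) - (s : ℂ))).re = 1 / (s - r) := by
  have : -1 / ((r : ℂ) - (s : ℂ)) = ((1 / (s - r) : ℝ) : ℂ) := by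
    push_cast
    rw [neg_div, ← div_neg, neg_sub]
  rw [this, Complex.ofReal_re]

/-- **TOP**: a path in `closure D` from the arc `ψ⁻¹[x,1]` to the arc `{d} ∪ ψ⁻¹(-∞,0]` meets every connected subset of `closure D` which joins `ψ⁻¹[0,x]` to `{d} ∪ ψ⁻¹[1,∞)` -/
theorem pvend_top (h : PvChart D d ψ) {x : ℝ} (hx0 : 0 < x) (hx1 : x < 1) {S : Set ℂ} (hS : IsPreconnected S) (hSK : S ⊆ closure D)
    (hL : ∃ z ∈ S, z ∈ pvArcL D d ψ x) (hR : ∃ z ∈ S, z ∈ pvArcR D d ψ)
    {σ : ℝ → ℂ} (hσ : ContinuousOn σ (Icc 0 1)) (hσK : ∀ t ∈ Icc (0 : ℝ) 1, σ t ∈ closure D)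
    (h0 : σ 0 ∈ frontier D ∧ σ 0 ≠ d ∧ x ≤ (ψ (σ 0)).re ∧ (ψ (σ 0)).re ≤ 1)
    (h1 : σ 1 = d ∨ (σ 1 ∈ frontier D ∧ σ 1 ≠ d ∧ (ψ (σ 1)).re ≤ 0)) : ∃ t ∈ Icc (0 : ℝ) 1, σ t ∈ S := by
  classical
  obtain ⟨p1, hp1S, hp1F, hp1d, hp1a, hp1b⟩ := hL
  obtain ⟨p2, hp2S, hp2⟩ := hR
  obtain ⟨h0F, h0d, h0a, h0b⟩ := h0
  have m0 : (0 : ℝ) ∈ Icc (0 : ℝ) 1 := ⟨le_rfl, zero_le_one⟩
  have m1 : (1 : ℝ) ∈ Icc (0 : ℝ) 1 := ⟨zero_le_one, le_rfl⟩
  rcases hp2 with hp2 | ⟨hp2F, hp2d, hp2a⟩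
  · subst hp2
    rcases h1 with h1 | ⟨h1F, h1d, h1a⟩
    · exact ⟨1, m1, h1 ▸ hp2S⟩
    · exact pvend_top0 h hS hSK hp2S hp1S hp1F hp1d hσ hσK h0F h0d (by linarith) h1F h1d (by linarith)
  · by_cases c0 : σ 0 = p2
    · exact ⟨0, m0, c0 ▸ hp2S⟩
    have h' := h.inv hp2F hp2d
    have hval : ∀ z, z ∈ frontier D → z ≠ d → ((if z = d then (0 : ℂ) else -1 / (ψ z - ψ p2))).re = 1 / ((ψ p2).re - (ψ z).re) := by
      intro z hz hzd
      rw [if_neg hzd, pvend_real h hz hzd, pvend_real h hp2F hp2d, pvend_inv_re]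
      simp
    have hlt0 : (ψ (σ 0)).re < (ψ p2).re := by
      rcases (h0b.trans hp2a).lt_or_eq with h2 | h2
      · exact h2
      · exfalso
        have : ψ (σ 0) = ψ p2 := by rw [pvend_real h h0F h0d, pvend_real h hp2F hp2d, h2]
        exact c0 (h.inj ⟨frontier_subset_closure h0F, h0d⟩ ⟨frontier_subset_closure hp2F, hp2d⟩ this)
    have hp12 : p1 ≠ p2 := fun e => by rw [e] at hp1b; linarith
    have h1F' : σ 1 ∈ frontier D := by
      rcases h1 with h1 | h1
      · rw [h1]; exact h.hd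
      · exact h1.1
    have h1p2 : σ 1 ≠ p2 := by
      rcases h1 with h1 | h1
      · rw [h1]; exact hp2d.symm
      · intro e; rw [e] at h1; linarith [h1.2.2]
    refine pvend_top0 h' hS hSK hp2S hp1S hp1F hp12 hσ hσK h0F c0 ?_ h1F' h1p2 ?_
    · show ((if p1 = d then (0 : ℂ) else -1 / (ψ p1 - ψ p2))).re ≤ ((if σ 0 = d then (0 : ℂ) else -1 / (ψ (σ 0) - ψ p2))).re
      rw [hval p1 hp1F hp1d, hval _ h0F h0d]
      exact one_div_le_one_div_of_le (by linarith) (by linarith)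
    · show ((if σ 1 = d then (0 : ℂ) else -1 / (ψ (σ 1) - ψ p2))).re ≤ ((if p1 = d then (0 : ℂ) else -1 / (ψ p1 - ψ p2))).re
      rw [hval p1 hp1F hp1d]
      rcases h1 with h1 | ⟨h1F, h1d, h1a⟩
      · rw [if_pos h1]
        have : 0 < (ψ p2).re - (ψ p1).re := by linarith
        simp only [Complex.zero_re]
        positivity
      · rw [hval _ h1F h1d]
        exact one_div_le_one_div_of_le (by linarith) (by linarith)

end top

/-! ## 7. the colour flip -/

section flip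

open ProbabilityTheory

/-- all colours are switched -/
def pvendFlip (ω : PVSample) : PVSample := (ω.1, fun i => ((ω.2 i).1, !(ω.2 i).2))

theorem pvend_flip_meas : Measurable pvendFlip := by
  unfold pvendFlip
  refine measurable_fst.prodMk (measurable_pi_lambda _ fun i => ?_)
  have h1 : Measurable fun ω : PVSample => ω.2 i := (measurable_pi_apply i).comp measurable_snd
  exact (measurable_fst.comp h1).prodMk ((measurable_of_countable not).comp (measurable_snd.comp h1))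

/-- the law of one position -/
noncomputable def pvendPos : Measure (ℝ × ℝ) := volume.restrict (Set.Ico (0 : ℝ) 1 ×ˢ Set.Ico (0 : ℝ) 1)

theorem pvend_pos_prob : IsProbabilityMeasure pvendPos := ⟨by
  unfold pvendPos
  rw [Measure.restrict_apply_univ, Measure.volume_eq_prod, Measure.prod_prod]; simp⟩

theorem pvend_coin_not : ((PMF.uniformOfFintype Bool).toMeasure).map not = (PMF.uniformOfFintype Bool).toMeasure := by
  refine Measure.ext_of_singleton fun b => ?_
  rw [Measure.map_apply (measurable_of_countable _) (measurableSet_singleton b)]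
  have : not ⁻¹' {b} = {!b} := by
    ext x; cases x <;> cases b <;> simp
  rw [this, PMF.toMeasure_apply_singleton _ _ (measurableSet_singleton _), PMF.toMeasure_apply_singleton _ _ (measurableSet_singleton _)]
  simp

theorem pvend_law_eq (ε : ℝ) : pvLaw ε = (Measure.infinitePi (fun _ : ℤ × ℤ => poissonMeasure ((ε⁻¹) ^ 2).toNNReal)).prod
    (Measure.infinitePi (fun _ : (ℤ × ℤ) × ℕ => pvendPos.prod (PMF.uniformOfFintype Bool).toMeasure)) := rfl

theorem pvend_prob (ε : ℝ) : IsProbabilityMeasure (pvLaw ε) := by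
  haveI := pvend_pos_prob
  rw [pvend_law_eq]
  infer_instance

theorem pvend_flip_law (ε : ℝ) : (pvLaw ε).map pvendFlip = pvLaw ε := by
  haveI := pvend_pos_prob
  have hf : Measurable (Prod.map (id : ℝ × ℝ → ℝ × ℝ) not) := measurable_id.prodMap (measurable_of_countable _)
  have e : pvendFlip = Prod.map id (fun (f : (ℤ × ℤ) × ℕ → (ℝ × ℝ) × Bool) i => Prod.map (id : ℝ × ℝ → ℝ × ℝ) not (f i)) := by
    funext ω; rfl
  have hm : Measurable (fun (f : (ℤ × ℤ) × ℕ → (ℝ × ℝ) × Bool) i => Prod.map (id : ℝ × ℝ → ℝ × ℝ) not (f i)) :=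
    measurable_pi_lambda _ fun i => hf.comp (measurable_pi_apply i)
  rw [e, pvend_law_eq, ← Measure.map_prod_map _ _ measurable_id hm, Measure.map_id,
    Measure.infinitePi_map_pi _ (fun _ => hf)]
  congr 2
  funext i
  rw [← Measure.map_prod_map _ _ measurable_id (measurable_of_countable _), Measure.map_id, pvend_coin_not]

theorem pvend_flip_site (ω : PVSample) (k : ℤ × ℤ) (j : ℕ) : pvSite (pvendFlip ω) k j = pvSite ω k j := rfl

theorem pvend_flip_cell (ω : PVSample) (v : ℂ) : pvCell (pvendFlip ω) v = pvCell ω v := rfl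

theorem pvend_flip_black (ω : PVSample) : pvBlack (pvendFlip ω) = pvWhite ω := by
  unfold pvBlack pvWhite
  refine iUnion_congr fun k => iUnion_congr fun j => iUnion_congr fun _ => ?_
  have : ((((pvendFlip ω).2 (k, j)).2 = true) ↔ ((ω.2 (k, j)).2 = false)) := by
    show (!(ω.2 (k, j)).2) = true ↔ _
    simp
  rw [pvend_flip_site, pvend_flip_cell]
  exact iUnion_congr_Prop this fun _ => rfl

theorem pvend_flip_white (ω : PVSample) : pvWhite (pvendFlip ω) = pvBlack ω := by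
  unfold pvBlack pvWhite
  refine iUnion_congr fun k => iUnion_congr fun j => iUnion_congr fun _ => ?_
  have : ((((pvendFlip ω).2 (k, j)).2 = false) ↔ ((ω.2 (k, j)).2 = true)) := by
    show (!(ω.2 (k, j)).2) = false ↔ _
    simp
  rw [pvend_flip_site, pvend_flip_cell]
  exact iUnion_congr_Prop this fun _ => rfl

end flip

/-! ## 8. the two inclusions -/

/-- the event of the frozen statement -/
def pvendX (D : Set ℂ) (d : ℂ) (ψ : ℂ → ℂ) (x : ℝ) : Set PVSample :=
  {ω | ∃ S : Set ℂ, S ⊆ pvBlack ω ∩ closure D ∧ IsConnected S ∧ (∃ z ∈ S, z ∈ pvArcL D d ψ x) ∧ (∃ z ∈ S, z ∈ pvArcR D d ψ)}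

/-- the rotated chart `1 - x/ψ` (pole at `a = ψ⁻¹ 0`, value `1` at `d`) -/
noncomputable def pvendRot (d : ℂ) (ψ : ℂ → ℂ) (x : ℝ) (z : ℂ) : ℂ := (x : ℂ) * (if z = d then 0 else -1 / (ψ z - 0)) + ((1 : ℝ) : ℂ)

theorem pvend_eqns_cite2 : True := by
  have := @pvendFlip.eq_1; have := @pvendPos.eq_1; have := @pvendX.eq_1; have := @pvendRot.eq_1
  trivial

section incl

variable {D : Set ℂ} {d : ℂ} {ψ : ℂ → ℂ}

theorem pvend_lower_sub (x : ℝ) : {ω | PvStrict D d ψ x ω} ⊆ pvendX D d ψ x := by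
  rintro ω ⟨σ, hσ, hin, h0, h1⟩
  have m0 : (0 : ℝ) ∈ Icc (0 : ℝ) 1 := ⟨le_rfl, zero_le_one⟩
  have m1 : (1 : ℝ) ∈ Icc (0 : ℝ) 1 := ⟨zero_le_one, le_rfl⟩
  refine ⟨σ '' Icc 0 1, ?_, ⟨⟨σ 0, mem_image_of_mem σ m0⟩, isPreconnected_Icc.image σ hσ⟩, ⟨σ 0, mem_image_of_mem σ m0, h0⟩,
    ⟨σ 1, mem_image_of_mem σ m1, h1⟩⟩
  rintro _ ⟨t, ht, rfl⟩
  exact ⟨(hin t ht).2.1, (hin t ht).1⟩

theorem pvend_rot (h : PvChart D d ψ) {a : ℂ} (ha : a ∈ frontier D) (had : a ≠ d) (hψa : ψ a = 0) {x : ℝ} (hx0 : 0 < x) :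
    PvChart D a (pvendRot d ψ x) := by
  have := (h.inv ha had).aff (β := 1) hx0
  rw [hψa] at this
  exact this

theorem pvend_upper_sub (h : PvChart D d ψ) {a : ℂ} (ha : a ∈ frontier D) (had : a ≠ d) (hψa : ψ a = 0) {x : ℝ} (hx0 : 0 < x) (hx1 : x < 1) :
    pvendFlip ⁻¹' {ω | PvStrict D a (pvendRot d ψ x) (1 - x) ω} ⊆ (pvendX D d ψ x)ᶜ := by
  rintro ω ⟨σ, hσ, hin, h0, h1⟩ ⟨S, hSsub, hSc, hL, hR⟩
  rw [pvend_flip_black, pvend_flip_white] at hin
  -- the values of the rotated chart on the frontier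
  have hval : ∀ z, z ∈ frontier D → z ≠ d → (pvendRot d ψ x z).re = 1 - x / (ψ z).re := by
    intro z hz hzd
    unfold pvendRot
    rw [if_neg hzd, pvend_real h hz hzd]
    have := pvend_inv_re (ψ z).re 0
    rw [Complex.ofReal_zero] at this
    simp only [Complex.add_re, Complex.re_ofReal_mul, Complex.ofReal_re, this]
    rw [zero_sub, one_div, inv_neg]
    ring
  have hvd : (pvendRot d ψ x d).re = 1 := by
    unfold pvendRot
    rw [if_pos rfl]; simp
  obtain ⟨t, ht, htS⟩ := pvend_top h hx0 hx1 hSc.isPreconnected (fun z hz => (hSsub hz).2) hL hR hσ (fun t ht => (hin t ht).1) (by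
      obtain ⟨a1, a2, a3, a4⟩ := h0
      have hd0 : σ 0 ≠ d := fun e => by rw [e, hvd] at a4; linarith
      rw [hval _ a1 hd0] at a3 a4
      have hpos : 0 < (ψ (σ 0)).re := by
        by_contra hn
        have : x / (ψ (σ 0)).re ≤ 0 := div_nonpos_of_nonneg_of_nonpos hx0.le (not_lt.1 hn)
        linarith
      refine ⟨a1, hd0, ?_, ?_⟩
      · have : x / (ψ (σ 0)).re ≤ 1 := by linarith
        rwa [div_le_one hpos] at this
      · have : x ≤ x / (ψ (σ 0)).re := by linarith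
        rw [le_div_iff₀ hpos] at this
        nlinarith) (by
      rcases h1 with h1 | ⟨a1, a2, a3⟩
      · right
        refine ⟨h1 ▸ ha, h1 ▸ had, ?_⟩
        rw [h1, hψa]; simp
      · by_cases c : σ 1 = d
        · exact Or.inl c
        · right
          refine ⟨a1, c, ?_⟩
          rw [hval _ a1 c] at a3
          by_contra hn
          have : 0 < x / (ψ (σ 1)).re := div_pos hx0 (not_le.1 hn)
          linarith)
  exact (hin t ht).2.2 (hSsub htS).1

end incl

/-! ## 9. THE TOP -/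

/-- **S0537 from the exit** -/
theorem pvend_main (hL : PvLower) (D : Set ℂ) (hDo : IsOpen D) (hDb : Bornology.IsBounded D)
    (hDj : ∃ γ : Circle → ℂ, Continuous γ ∧ Function.Injective γ ∧ Set.range γ = frontier D)
    (a b c d : ℂ) (ha : a ∈ frontier D) (hb : b ∈ frontier D) (hc : c ∈ frontier D)
    (hd : d ∈ frontier D) (ψ : ℂ → ℂ) (hψh : DifferentiableOn ℂ ψ D)
    (hψi : Set.InjOn ψ (closure D \ {d})) (hψc : ContinuousOn ψ (closure D \ {d}))
    (hψD : ψ '' D = {z | 0 < z.im}) (hψbd : ψ '' (frontier D \ {d}) = {z | z.im = 0})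
    (hψd : Tendsto (fun z => ‖ψ z‖) (𝓝[closure D \ {d}] d) atTop)
    (hψa : ψ a = 0) (hψc1 : ψ c = 1) (had : a ≠ d) (hbd : b ≠ d) (hcd : c ≠ d) (hord : 0 < (ψ b).re ∧ (ψ b).re < 1) :
    Tendsto
      (fun ε : ℝ => (pvLaw ε {ω | ∃ S : Set ℂ, S ⊆ pvBlack ω ∩ closure D ∧ IsConnected S ∧
          (∃ z ∈ S, z ∈ frontier D ∧ z ≠ d ∧ 0 ≤ (ψ z).re ∧ (ψ z).re ≤ (ψ b).re) ∧
          (∃ z ∈ S, z = d ∨ (z ∈ frontier D ∧ z ≠ d ∧ 1 ≤ (ψ z).re))}).toReal)
      (𝓝[>] 0) (𝓝 (cardyF (ψ b).re)) := by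
  have h : PvChart D d ψ := ⟨hDo, hDb, hd, hψh, hψi, hψc, hψD, hψbd, hψd⟩
  obtain ⟨hx0, hx1⟩ := hord
  set x : ℝ := (ψ b).re with hx
  have hX : {ω | ∃ S : Set ℂ, S ⊆ pvBlack ω ∩ closure D ∧ IsConnected S ∧
      (∃ z ∈ S, z ∈ frontier D ∧ z ≠ d ∧ 0 ≤ (ψ z).re ∧ (ψ z).re ≤ x) ∧
      (∃ z ∈ S, z = d ∨ (z ∈ frontier D ∧ z ≠ d ∧ 1 ≤ (ψ z).re))} = pvendX D d ψ x := rfl
  rw [hX]
  have hsym := pvcx_cardyF_symm (x := x) ⟨hx0.le, hx1.le⟩
  rw [Metric.tendsto_nhds]
  intro η hη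
  have hη2 : 0 < η / 2 := by positivity
  filter_upwards [hL D d ψ h x hx0 hx1 (η / 2) hη2,
    hL D a (pvendRot d ψ x) (pvend_rot h ha had hψa hx0) (1 - x) (by linarith) (by linarith) (η / 2) hη2] with ε h1 h2
  haveI := pvend_prob ε
  obtain ⟨E, -, hE, hEm⟩ := h1
  obtain ⟨E', hE'm, hE', hEm'⟩ := h2
  have hfin : pvLaw ε (pvendX D d ψ x) ≠ ⊤ := measure_ne_top _ _
  -- lower bound
  have lo : cardyF x - η / 2 ≤ (pvLaw ε (pvendX D d ψ x)).toReal := by
    have a1 : ENNReal.ofReal (cardyF x - η / 2) ≤ pvLaw ε (pvendX D d ψ x) :=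
      hEm.trans (measure_mono (hE.trans (pvend_lower_sub x)))
    exact (ENNReal.ofReal_le_iff_le_toReal hfin).1 a1
  -- upper bound
  have hi : (pvLaw ε (pvendX D d ψ x)).toReal ≤ cardyF x + η / 2 := by
    have hFm : MeasurableSet (pvendFlip ⁻¹' E') := pvend_flip_meas hE'm
    have a1 : pvLaw ε (pvendFlip ⁻¹' E') = pvLaw ε E' := by
      rw [← Measure.map_apply pvend_flip_meas hE'm, pvend_flip_law]
    have a2 : pvendX D d ψ x ⊆ (pvendFlip ⁻¹' E')ᶜ := by
      have := (preimage_mono hE').trans (pvend_upper_sub h ha had hψa hx0 hx1)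
      exact subset_compl_comm.1 this
    have a3 : pvLaw ε (pvendX D d ψ x) ≤ 1 - pvLaw ε E' := by
      calc pvLaw ε (pvendX D d ψ x) ≤ pvLaw ε (pvendFlip ⁻¹' E')ᶜ := measure_mono a2
        _ = 1 - pvLaw ε E' := by rw [prob_compl_eq_one_sub hFm, a1]
    have a4 : cardyF (1 - x) - η / 2 ≤ (pvLaw ε E').toReal := (ENNReal.ofReal_le_iff_le_toReal (measure_ne_top _ _)).1 hEm'
    have a5 : (pvLaw ε (pvendX D d ψ x)).toReal ≤ 1 - (pvLaw ε E').toReal := by
      have := ENNReal.toReal_mono (by simp) a3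
      rwa [ENNReal.toReal_sub_of_le prob_le_one ENNReal.one_ne_top, ENNReal.toReal_one] at this
    linarith
  rw [Real.dist_eq, abs_lt]
  constructor <;> linarith

end Claimed.Agent.R289
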