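import Claimed.Agent.R289.Ppp

/-!
# Row 289 (S0537), box PPP, file PppPv : THE FROZEN MODEL IS A POISSON PROCESS      (author helper267; landed by helper256)

* `lintegral_poisson_pow`, `isPpp_cell` (the mixed binomial process is Poisson), `pvLaw_map_pvTh` (the unit cells are i.i.d.)
* **V1** `pv_isPpp ε : IsPpp (pvInt ε) (pvP ε)`: the coloured configuration of the frozen model is the Poisson process of intensity `ε⁻² vol ⊗ coin`
* **INV** `pvP_isometry`, `pvP_translate`;  **SCALE** `pvP_scale`;  **FLIP** `pvP_flip`;  general rule `pvP_map_of_map`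
-/

set_option autoImplicit false

namespace Claimed.Agent.R289

open MeasureTheory ProbabilityTheory Set Filter Topology
open scoped ENNReal NNReal

theorem lintegral_poisson (r : ℝ≥0) (f : ℕ → ℝ≥0∞) :
    ∫⁻ n, f n ∂(poissonMeasure r) = ∑' n, ENNReal.ofReal (Real.exp (-r) * r ^ n / (n.factorial : ℝ)) * f n := by
  rw [poissonMeasure, lintegral_sum_measure]
  refine tsum_congr fun n => ?_
  rw [lintegral_smul_measure, lintegral_dirac, smul_eq_mul]

theorem lintegral_poisson_pow (r : ℝ≥0) (q : ℝ≥0∞) (hq : q ≤ 1) :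
    ∫⁻ n, q ^ n ∂(poissonMeasure r) = expNeg (r * (1 - q)) := by
  have hq' : q ≠ ∞ := ne_top_of_le_ne_top ENNReal.one_ne_top hq
  lift q to ℝ≥0 using hq'
  have hq1 : (q : ℝ) ≤ 1 := by exact_mod_cast hq
  rw [lintegral_poisson]
  have h1 : ∀ n : ℕ, ENNReal.ofReal (Real.exp (-r) * r ^ n / (n.factorial : ℝ)) * (q : ℝ≥0∞) ^ n
      = ENNReal.ofReal (Real.exp (-r) * (((r : ℝ) * q) ^ n / (n.factorial : ℝ))) := by
    intro n
    rw [← ENNReal.ofReal_coe_nnreal, ← ENNReal.ofReal_pow q.coe_nonneg, ← ENNReal.ofReal_mul (by positivity)]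
    congr 1
    rw [mul_pow]; ring
  simp_rw [h1]
  have h2 : HasSum (fun n : ℕ => Real.exp (-r) * (((r : ℝ) * q) ^ n / (n.factorial : ℝ))) (Real.exp (-r) * Real.exp ((r : ℝ) * q)) := by
    refine HasSum.mul_left _ ?_
    have := NormedSpace.expSeries_div_hasSum_exp ((r : ℝ) * q)
    rwa [← Real.exp_eq_exp_ℝ] at this
  rw [← ENNReal.ofReal_tsum_of_nonneg (fun n => by positivity) h2.summable, h2.tsum_eq]
  unfold expNeg
  have h3 : (r : ℝ≥0∞) * (1 - (q : ℝ≥0∞)) ≠ ∞ := ENNReal.mul_ne_top ENNReal.coe_ne_top (by simp)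
  rw [if_neg h3, ← Real.exp_add]
  congr 2
  rw [ENNReal.toReal_mul, ENNReal.toReal_sub_of_le hq ENNReal.one_ne_top]
  simp
  ring

variable {E : Type*} [MeasurableSpace E]

/-- **the mixed binomial process is Poisson** -/
theorem isPpp_cell (r : ℝ≥0) (ν : Measure E) [IsProbabilityMeasure ν] :
    IsPpp ((r : ℝ≥0∞) • ν) (((poissonMeasure r).prod (Measure.infinitePi fun _ : ℕ => ν)).map Conf.cell) := by
  refine ⟨fun B hB => ?_⟩
  rw [Measure.map_apply Conf.measurable_cell (Conf.measurableSet_void hB), Conf.cell_preimage_void,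
    Measure.prod_apply (Conf.measurableSet_cell_void hB)]
  have h1 : ∀ n : ℕ, Measure.infinitePi (fun _ : ℕ => ν) (Prod.mk n ⁻¹' {y : ℕ × (ℕ → E) | ∀ j < y.1, y.2 j ∉ B}) = (ν Bᶜ) ^ n := by
    intro n
    have : Prod.mk n ⁻¹' {y : ℕ × (ℕ → E) | ∀ j < y.1, y.2 j ∉ B} = Set.pi (Finset.range n : Set ℕ) fun _ => Bᶜ := by
      ext x; simp [Set.mem_pi]
    rw [this, Measure.infinitePi_pi _ fun _ _ => hB.compl]
    simp
  simp_rw [h1]
  rw [lintegral_poisson_pow r _ prob_le_one, Measure.smul_apply, smul_eq_mul]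
  congr 2
  rw [prob_compl_eq_one_sub hB, ENNReal.sub_sub_cancel ENNReal.one_ne_top prob_le_one]

open Claims.C0465

/-- the unit square of `ℝ × ℝ` at `k` -/
def pvSq (k : ℤ × ℤ) : Set (ℝ × ℝ) := Ico (k.1 : ℝ) (k.1 + 1) ×ˢ Ico (k.2 : ℝ) (k.2 + 1)

theorem measurableSet_pvSq (k : ℤ × ℤ) : MeasurableSet (pvSq k) := measurableSet_Ico.prod measurableSet_Ico

theorem iUnion_pvSq : ⋃ k, pvSq k = univ := by
  refine eq_univ_of_forall fun x => mem_iUnion.2 ⟨(⌊x.1⌋, ⌊x.2⌋), ?_⟩
  exact ⟨⟨Int.floor_le _, Int.lt_floor_add_one _⟩, ⟨Int.floor_le _, Int.lt_floor_add_one _⟩⟩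

theorem pairwise_disjoint_pvSq : Pairwise (Function.onFun Disjoint pvSq) := by
  intro k l hkl
  refine Set.disjoint_left.2 fun x hx hx' => hkl ?_
  have h1 : k.1 = l.1 := by
    have a := Int.floor_eq_iff.2 hx.1
    have b := Int.floor_eq_iff.2 hx'.1
    rw [← a, ← b]
  have h2 : k.2 = l.2 := by
    have a := Int.floor_eq_iff.2 hx.2
    have b := Int.floor_eq_iff.2 hx'.2
    rw [← a, ← b]
  exact Prod.ext h1 h2

theorem sum_restrict_pvSq : Measure.sum (fun k => (volume : Measure (ℝ × ℝ)).restrict (pvSq k)) = volume := by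
  rw [← Measure.restrict_iUnion pairwise_disjoint_pvSq measurableSet_pvSq, iUnion_pvSq, Measure.restrict_univ]

theorem map_shift_pvSq (k : ℤ × ℤ) :
    ((volume : Measure (ℝ × ℝ)).restrict (Ico (0 : ℝ) 1 ×ˢ Ico (0 : ℝ) 1)).map (fun x => (((k.1 : ℝ), (k.2 : ℝ)) : ℝ × ℝ) + x)
      = (volume : Measure (ℝ × ℝ)).restrict (pvSq k) := by
  have h := (measurePreserving_add_left (volume : Measure (ℝ × ℝ)) (((k.1 : ℝ), (k.2 : ℝ)) : ℝ × ℝ)).restrict_preimage (measurableSet_pvSq k)
  have e : (fun x => (((k.1 : ℝ), (k.2 : ℝ)) : ℝ × ℝ) + x) ⁻¹' pvSq k = Ico (0 : ℝ) 1 ×ˢ Ico (0 : ℝ) 1 := by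
    ext x
    simp only [pvSq, mem_preimage, mem_prod, mem_Ico, Prod.fst_add, Prod.snd_add]
    constructor
    · rintro ⟨⟨a, b⟩, c, d⟩; exact ⟨⟨by linarith, by linarith⟩, by linarith, by linarith⟩
    · rintro ⟨⟨a, b⟩, c, d⟩; exact ⟨⟨by linarith, by linarith⟩, by linarith, by linarith⟩
  rw [e] at h
  exact h.map_eq

/-- the law of one mark -/
noncomputable def pvMark : Measure ((ℝ × ℝ) × Bool) := ((volume : Measure (ℝ × ℝ)).restrict (Ico (0 : ℝ) 1 ×ˢ Ico (0 : ℝ) 1)).prod pvCoin

instance : IsProbabilityMeasure ((volume : Measure (ℝ × ℝ)).restrict (Ico (0 : ℝ) 1 ×ˢ Ico (0 : ℝ) 1)) := ⟨by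
  rw [Measure.restrict_apply_univ, Measure.volume_eq_prod, Measure.prod_prod]; simp⟩

instance : IsProbabilityMeasure pvMark := by unfold pvMark; infer_instance

theorem pvShift_eq (k : ℤ × ℤ) : pvShift k = Prod.map (fun x : ℝ × ℝ => Complex.measurableEquivRealProd.symm ((((k.1 : ℝ), (k.2 : ℝ)) : ℝ × ℝ) + x)) id := by
  funext u
  refine Prod.ext ?_ rfl
  apply Complex.ext <;> simp [pvShift, Complex.measurableEquivRealProd]

theorem sum_map_pvShift : Measure.sum (fun k => pvMark.map (pvShift k)) = (volume : Measure ℂ).prod pvCoin := by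
  have hm : ∀ k : ℤ × ℤ, Measurable (fun x : ℝ × ℝ => Complex.measurableEquivRealProd.symm ((((k.1 : ℝ), (k.2 : ℝ)) : ℝ × ℝ) + x)) := fun k =>
    Complex.measurableEquivRealProd.symm.measurable.comp (measurable_const_add _)
  have h1 : ∀ k, pvMark.map (pvShift k) = (((volume : Measure (ℝ × ℝ)).restrict (pvSq k)).map Complex.measurableEquivRealProd.symm).prod pvCoin := by
    intro k
    rw [pvShift_eq, pvMark, ← Measure.map_prod_map _ _ (hm k) measurable_id, Measure.map_id, ← map_shift_pvSq,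
      Measure.map_map Complex.measurableEquivRealProd.symm.measurable (measurable_const_add _)]
    rfl
  simp_rw [h1]
  rw [← Measure.prod_sum_left, ← Measure.map_sum Complex.measurableEquivRealProd.symm.measurable.aemeasurable, sum_restrict_pvSq,
    Complex.volume_preserving_equiv_real_prod.symm.map_eq]

/-- the rate -/
noncomputable def pvRate (ε : ℝ) : ℝ≥0 := ((ε⁻¹) ^ 2).toNNReal

/-- the law of the data of one unit cell -/
noncomputable def pvKap (ε : ℝ) : Measure (ℕ × (ℕ → (ℝ × ℝ) × Bool)) := (poissonMeasure (pvRate ε)).prod (Measure.infinitePi fun _ : ℕ => pvMark)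

instance (ε : ℝ) : IsProbabilityMeasure (pvKap ε) := by unfold pvKap; infer_instance

theorem pvLaw_eq (ε : ℝ) : pvLaw ε = (Measure.infinitePi (fun _ : ℤ × ℤ => poissonMeasure (pvRate ε))).prod (Measure.infinitePi (fun _ : (ℤ × ℤ) × ℕ => pvMark)) := rfl

instance (ε : ℝ) : IsProbabilityMeasure (pvLaw ε) := by rw [pvLaw_eq]; infer_instance

/-- **the unit cells are i.i.d.** -/
theorem pvLaw_map_pvTh (ε : ℝ) : (pvLaw ε).map pvTh = Measure.infinitePi fun _ : ℤ × ℤ => pvKap ε := by
  have h1 : pvTh = (fun p : (ℤ × ℤ → ℕ) × (ℤ × ℤ → ℕ → (ℝ × ℝ) × Bool) => fun k => (p.1 k, p.2 k))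
      ∘ Prod.map id (MeasurableEquiv.curry (ℤ × ℤ) ℕ ((ℝ × ℝ) × Bool)) := by
    funext ω k; rfl
  have hm : Measurable (fun p : (ℤ × ℤ → ℕ) × (ℤ × ℤ → ℕ → (ℝ × ℝ) × Bool) => fun k => (p.1 k, p.2 k)) := by fun_prop
  rw [h1, ← Measure.map_map hm (measurable_id.prodMap (MeasurableEquiv.curry _ _ _).measurable), pvLaw_eq,
    ← Measure.map_prod_map _ _ measurable_id (MeasurableEquiv.curry _ _ _).measurable, Measure.map_id,
    Measure.infinitePi_map_curry (fun (_ : ℤ × ℤ) (_ : ℕ) => pvMark), infinitePi_prod_zip]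
  rfl

theorem pvInt_eq (ε : ℝ) : pvInt ε = Measure.sum fun k => ((pvRate ε : ℝ≥0∞) • pvMark).map (pvShift k) := by
  have : ∀ k, ((pvRate ε : ℝ≥0∞) • pvMark).map (pvShift k) = (pvRate ε : ℝ≥0∞) • pvMark.map (pvShift k) := fun k => Measure.map_smul _ _ _
  simp_rw [this]
  have h2 : (Measure.sum fun k => (pvRate ε : ℝ≥0∞) • pvMark.map (pvShift k)) = (pvRate ε : ℝ≥0∞) • Measure.sum fun k => pvMark.map (pvShift k) := by
    ext s hs
    simp only [Measure.sum_apply _ hs, Measure.smul_apply, smul_eq_mul, ENNReal.tsum_mul_left]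
  rw [h2, sum_map_pvShift]
  rfl

/-- **V1**: the coloured configuration of the frozen model is the Poisson process of intensity `ε⁻² vol ⊗ coin` -/
theorem pv_isPpp (ε : ℝ) : IsPpp (pvInt ε) (pvP ε) := by
  have hk : ∀ k : ℤ × ℤ, IsPpp (((pvRate ε : ℝ≥0∞) • pvMark).map (pvShift k)) ((pvKap ε).map fun y => Conf.image (pvShift k) (Conf.cell y)) := by
    intro k
    have := (isPpp_cell (pvRate ε) pvMark).map (measurable_pvShift k)
    rwa [Measure.map_map (Conf.measurable_image (measurable_pvShift k)) Conf.measurable_cell] at this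
  have h := IsPpp.iUnion hk
  rw [← pvInt_eq] at h
  have hg : ∀ k : ℤ × ℤ, Measurable fun y : ℕ × (ℕ → (ℝ × ℝ) × Bool) => Conf.image (pvShift k) (Conf.cell y) := fun k =>
    (Conf.measurable_image (measurable_pvShift k)).comp Conf.measurable_cell
  have e : pvP ε = (Measure.infinitePi fun k : ℤ × ℤ => (pvKap ε).map fun y => Conf.image (pvShift k) (Conf.cell y)).map Conf.iUnion := by
    have hG : Measurable fun (x : ℤ × ℤ → ℕ × (ℕ → (ℝ × ℝ) × Bool)) (k : ℤ × ℤ) => Conf.image (pvShift k) (Conf.cell (x k)) :=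
      measurable_pi_lambda _ fun k => (hg k).comp (measurable_pi_apply k)
    rw [← Measure.infinitePi_map_pi _ hg, ← pvLaw_map_pvTh, Measure.map_map hG measurable_pvTh,
      Measure.map_map Conf.measurable_iUnion (hG.comp measurable_pvTh)]
    unfold pvP
    congr 1
    funext ω
    exact pvConf_eq ω
  rw [e]
  exact h

instance (ε : ℝ) : IsProbabilityMeasure (pvP ε) := (pv_isPpp ε).prob

/-! ## 8. invariance -/

/-- action of a map of the plane on coloured configurations -/
def cfMap (g : ℂ → ℂ) (η : Conf PvPt) : Conf PvPt := Conf.image (Prod.map g id) η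

theorem measurable_cfMap {g : ℂ → ℂ} (hg : Measurable g) : Measurable (cfMap g) := Conf.measurable_image (hg.prodMap measurable_id)

/-- general transformation rule -/
theorem pvP_map_of_map {g : ℂ → ℂ} (hg : Measurable g) {ε ε' : ℝ}
    (h : ENNReal.ofReal ((ε⁻¹) ^ 2) • (volume : Measure ℂ).map g = ENNReal.ofReal ((ε'⁻¹) ^ 2) • (volume : Measure ℂ)) :
    (pvP ε).map (cfMap g) = pvP ε' := by
  have h1 := (pv_isPpp ε).map (hg.prodMap measurable_id)
  refine IsPpp.unique h1 ?_
  have e : (pvInt ε).map (Prod.map g id) = pvInt ε' := by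
    by_cases h0 : ENNReal.ofReal ((ε⁻¹) ^ 2) = 0
    · have h0' : ENNReal.ofReal ((ε'⁻¹) ^ 2) = 0 := by
        rw [h0, zero_smul] at h
        by_contra hne
        have h2 := congrArg (fun m : Measure ℂ => m univ) h
        simp only [Measure.coe_zero, Pi.zero_apply, Measure.smul_apply, smul_eq_mul] at h2
        rcases mul_eq_zero.1 h2.symm with h3 | h3
        · exact hne h3
        · simp at h3
      unfold pvInt
      rw [h0, h0']; simp
    have hsf : SFinite ((volume : Measure ℂ).map g) := by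
      have hne : ENNReal.ofReal ((ε⁻¹) ^ 2) ≠ ∞ := ENNReal.ofReal_ne_top
      have : (volume : Measure ℂ).map g = (ENNReal.ofReal ((ε⁻¹) ^ 2))⁻¹ • (ENNReal.ofReal ((ε'⁻¹) ^ 2) • (volume : Measure ℂ)) := by
        rw [← h, smul_smul, ENNReal.inv_mul_cancel h0 hne, one_smul]
      rw [this]; infer_instance
    unfold pvInt
    rw [Measure.map_smul, ← Measure.map_prod_map _ _ hg measurable_id, Measure.map_id, ← Measure.prod_smul_left, h, Measure.prod_smul_left]
  rw [e]
  exact pv_isPpp ε'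

theorem pvP_map_preserving {g : ℂ → ℂ} (hg : MeasurePreserving g volume volume) (ε : ℝ) : (pvP ε).map (cfMap g) = pvP ε :=
  pvP_map_of_map hg.measurable (by rw [hg.map_eq])

theorem pv_isometry_preserving (g : ℂ ≃ᵢ ℂ) : MeasurePreserving g (volume : Measure ℂ) volume := by
  have h1 := (LinearIsometryEquiv.measurePreserving g.toRealLinearIsometryEquiv)
  have h2 := (measurePreserving_add_right (volume : Measure ℂ) (g 0))
  have h3 := h2.comp h1
  have : (fun x => x + g 0) ∘ g.toRealLinearIsometryEquiv = g := by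
    funext x
    simp [IsometryEquiv.toRealLinearIsometryEquiv_apply]
  rwa [this] at h3

/-- **INV**: invariance under the isometries of the plane -/
theorem pvP_isometry (g : ℂ ≃ᵢ ℂ) (ε : ℝ) : (pvP ε).map (cfMap g) = pvP ε := pvP_map_preserving (pv_isometry_preserving g) ε

theorem pvP_translate (a : ℂ) (ε : ℝ) : (pvP ε).map (cfMap fun z => z + a) = pvP ε :=
  pvP_map_preserving (measurePreserving_add_right volume a) ε

/-- **SCALE** -/
theorem pvP_scale {c : ℝ} (hc : c ≠ 0) (ε : ℝ) : (pvP ε).map (cfMap fun z => c • z) = pvP (c * ε) := by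
  refine pvP_map_of_map (measurable_const_smul c) ?_
  rw [Measure.map_addHaar_smul _ hc, Complex.finrank_real_complex, smul_smul, ← ENNReal.ofReal_mul (by positivity)]
  congr 2
  rw [abs_of_nonneg (by positivity), mul_inv, mul_pow]
  rw [inv_pow c 2]; ring

/-- colour switching -/
def cfFlip (η : Conf PvPt) : Conf PvPt := Conf.image (Prod.map id not) η

theorem measurable_cfFlip : Measurable cfFlip := Conf.measurable_image (measurable_id.prodMap (measurable_of_countable _))

theorem pvCoin_apply (b : Bool) : pvCoin {b} = 2⁻¹ := by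
  unfold pvCoin
  rw [PMF.toMeasure_apply_singleton _ _ (measurableSet_singleton b)]
  simp

theorem pvCoin_map_not : pvCoin.map not = pvCoin := by
  refine Measure.ext_of_singleton fun b => ?_
  rw [Measure.map_apply (measurable_of_countable _) (measurableSet_singleton b)]
  have : not ⁻¹' {b} = {!b} := by
    ext x; cases x <;> cases b <;> simp
  rw [this, pvCoin_apply, pvCoin_apply]

/-- **FLIP**: self-duality of the colouring -/
theorem pvP_flip (ε : ℝ) : (pvP ε).map cfFlip = pvP ε := by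
  have h1 := (pv_isPpp ε).map (measurable_id.prodMap (measurable_of_countable not))
  refine IsPpp.unique h1 ?_
  have e : (pvInt ε).map (Prod.map id not) = pvInt ε := by
    unfold pvInt
    rw [Measure.map_smul, ← Measure.map_prod_map _ _ measurable_id (measurable_of_countable _), Measure.map_id, pvCoin_map_not]
  rw [e]
  exact pv_isPpp ε

/-- house rule: the equation lemmas of the defs of this file are generated HERE -/
theorem pvpv_eqns_cite : True := by
  have := @pvSq.eq_1
  have := @pvMark.eq_1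
  have := @pvRate.eq_1
  have := @pvKap.eq_1
  have := @cfMap.eq_1
  have := @cfFlip.eq_1
  trivial

end Claimed.Agent.R289
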