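import Claimed.Agent.R289.PppPv
import Claimed.Agent.R289.PppCnt

/-!
# Row 289 (S0537), box FKG, file Fkg : ANNEALED FKG (HARRIS) FOR COLOURED POISSON PROCESSES      (owner helper159; prefix `pvf_` / `Pvf`)

Design of 259 (rsw_259.md sec. 5, "defect calculus"), simplified: NO series expansion, NO one-point term.
* `PvfTest le S f` : `f` measurable, `[0,1]`-valued, monotone on `S` for the relation `le`.
* `PvfDef P le S d` : `P`-a.e. point lies in `S` and `E f * E g - d ≤ E (f g)` for all tests.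
* F1 `PvfDef.prod` (defects add), F2 `PvfDef.map` (monotone images).
* order `Conf.cle K` (`K` = the black points): more black points, fewer white points.
* F3 `pvf_small` : a MONOCHROMATIC Poisson process of finite mass `m` has defect `≤ m ^ 2` (only the void probability of the whole space is used: every configuration is comparable with the empty one).
* F4 `pvf_halve`, `pvf_mono_fin` : halving `PPP(ν) = PPP(ν/2) ∪ PPP(ν/2)` : defect `≤ m ^ 2 / 2 ^ r`, hence `0`; `pvf_fin` : black ∪ white.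
* F5 `pvf_fkg` : sigma-finite intensity, by Levy's upward theorem for the filtration of the restrictions to an exhaustion.
* exports for the frozen model: section 6.
-/

set_option autoImplicit false
set_option linter.unusedSectionVars false
set_option linter.style.haveILetI false
set_option linter.unusedVariables false

namespace Claimed.Agent.R289

open MeasureTheory ProbabilityTheory Set Filter Topology
open scoped ENNReal NNReal

/-! ## 0. the abstract defect calculus -/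

section abs

variable {X Y : Type*} [MeasurableSpace X] [MeasurableSpace Y]

/-- test functions -/
structure PvfTest (le : X → X → Prop) (S : Set X) (f : X → ℝ) : Prop where
  meas : Measurable f
  nonneg : ∀ x, 0 ≤ f x
  le_one : ∀ x, f x ≤ 1
  mono : ∀ x ∈ S, ∀ y ∈ S, le x y → f x ≤ f y

/-- positive association up to the defect `d` -/
structure PvfDef (P : Measure X) (le : X → X → Prop) (S : Set X) (d : ℝ) : Prop where
  ae : ∀ᵐ x ∂P, x ∈ S
  ineq : ∀ f g, PvfTest le S f → PvfTest le S g → (∫ x, f x ∂P) * (∫ x, g x ∂P) - d ≤ ∫ x, f x * g x ∂P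

namespace PvfTest

variable {le : X → X → Prop} {S : Set X} {f g : X → ℝ}

theorem integrable (hf : PvfTest le S f) (P : Measure X) [IsFiniteMeasure P] : Integrable f P :=
  Integrable.of_bound hf.meas.aestronglyMeasurable 1 (ae_of_all _ fun x => by
    rw [Real.norm_eq_abs, abs_of_nonneg (hf.nonneg x)]; exact hf.le_one x)

theorem mul (hf : PvfTest le S f) (hg : PvfTest le S g) : PvfTest le S fun x => f x * g x where
  meas := hf.meas.mul hg.meas
  nonneg x := mul_nonneg (hf.nonneg x) (hg.nonneg x)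
  le_one x := mul_le_one₀ (hf.le_one x) (hg.nonneg x) (hg.le_one x)
  mono x hx y hy h := mul_le_mul (hf.mono x hx y hy h) (hg.mono x hx y hy h) (hg.nonneg x) (hf.nonneg y)

theorem integral_nonneg (hf : PvfTest le S f) (P : Measure X) : 0 ≤ ∫ x, f x ∂P :=
  MeasureTheory.integral_nonneg hf.nonneg

theorem integral_le_one (hf : PvfTest le S f) (P : Measure X) [IsProbabilityMeasure P] : ∫ x, f x ∂P ≤ 1 := by
  have := integral_mono (hf.integrable P) (integrable_const (1 : ℝ)) hf.le_one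
  simpa using this

/-- composition with a measurable monotone map -/
theorem comp {leY : Y → Y → Prop} {T : Set Y} {h : Y → ℝ} (hh : PvfTest leY T h) {φ : X → Y} (hφ : Measurable φ)
    (hS : ∀ x ∈ S, φ x ∈ T) (hm : ∀ x ∈ S, ∀ y ∈ S, le x y → leY (φ x) (φ y)) : PvfTest le S fun x => h (φ x) where
  meas := hh.meas.comp hφ
  nonneg _ := hh.nonneg _
  le_one _ := hh.le_one _
  mono x hx y hy hxy := hh.mono _ (hS x hx) _ (hS y hy) (hm x hx y hy hxy)

/-- sections -/
theorem sect {leY : Y → Y → Prop} {T : Set Y} {h : X × Y → ℝ}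
    (hh : PvfTest (fun a b : X × Y => le a.1 b.1 ∧ leY a.2 b.2) (S ×ˢ T) h) (rX : ∀ x, le x x) {x : X} (hx : x ∈ S) :
    PvfTest leY T fun y => h (x, y) where
  meas := hh.meas.comp measurable_prodMk_left
  nonneg _ := hh.nonneg _
  le_one _ := hh.le_one _
  mono y hy y' hy' hyy := hh.mono (x, y) ⟨hx, hy⟩ (x, y') ⟨hx, hy'⟩ ⟨rX x, hyy⟩

/-- partial integrals -/
theorem integral_right {leY : Y → Y → Prop} {T : Set Y} {h : X × Y → ℝ}
    (hh : PvfTest (fun a b : X × Y => le a.1 b.1 ∧ leY a.2 b.2) (S ×ˢ T) h) (rY : ∀ y, leY y y)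
    (Q : Measure Y) [IsProbabilityMeasure Q] (hQ : ∀ᵐ y ∂Q, y ∈ T) : PvfTest le S fun x => ∫ y, h (x, y) ∂Q := by
  have hi : ∀ x, Integrable (fun y => h (x, y)) Q := fun x =>
    Integrable.of_bound (hh.meas.comp measurable_prodMk_left).aestronglyMeasurable 1 (ae_of_all _ fun y => by
      rw [Real.norm_eq_abs, abs_of_nonneg (hh.nonneg _)]; exact hh.le_one _)
  refine ⟨?_, fun x => MeasureTheory.integral_nonneg fun y => hh.nonneg _, fun x => ?_, fun x hx x' hx' hxx => ?_⟩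
  · exact (hh.meas.stronglyMeasurable.integral_prod_right').measurable
  · have := integral_mono (hi x) (integrable_const (1 : ℝ)) fun y => hh.le_one (x, y)
    simpa using this
  · refine integral_mono_ae (hi x) (hi x') ?_
    filter_upwards [hQ] with y hy
    exact hh.mono (x, y) ⟨hx, hy⟩ (x', y) ⟨hx', hy⟩ ⟨hxx, rY y⟩

end PvfTest

namespace PvfDef

variable {P : Measure X} {Q : Measure Y} {lX : X → X → Prop} {lY : Y → Y → Prop} {S : Set X} {T : Set Y} {d e : ℝ}

theorem mono_def (h : PvfDef P lX S d) (hde : d ≤ e) : PvfDef P lX S e :=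
  ⟨h.ae, fun f g hf hg => by have := h.ineq f g hf hg; linarith⟩

/-- **F1**: defects add in products -/
theorem prod [IsProbabilityMeasure P] [IsProbabilityMeasure Q] (hP : PvfDef P lX S d) (hQ : PvfDef Q lY T e)
    (rX : ∀ x, lX x x) (rY : ∀ y, lY y y) :
    PvfDef (P.prod Q) (fun a b : X × Y => lX a.1 b.1 ∧ lY a.2 b.2) (S ×ˢ T) (d + e) := by
  refine ⟨?_, fun f g hf hg => ?_⟩
  · have h1 : ∀ᵐ p ∂(P.prod Q), p.1 ∈ S := Measure.quasiMeasurePreserving_fst.ae hP.ae
    have h2 : ∀ᵐ p ∂(P.prod Q), p.2 ∈ T := Measure.quasiMeasurePreserving_snd.ae hQ.ae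
    filter_upwards [h1, h2] with p a b using ⟨a, b⟩
  · have hF := hf.integral_right rY Q hQ.ae
    have hG := hg.integral_right rY Q hQ.ae
    have hH := (hf.mul hg).integral_right rY Q hQ.ae
    have h1 := hP.ineq _ _ hF hG
    have h2 : ∫ x, (∫ y, f (x, y) ∂Q) * (∫ y, g (x, y) ∂Q) ∂P - e ≤ ∫ x, ∫ y, f (x, y) * g (x, y) ∂Q ∂P := by
      have : ∫ x, ((∫ y, f (x, y) ∂Q) * (∫ y, g (x, y) ∂Q) - e) ∂P ≤ ∫ x, ∫ y, f (x, y) * g (x, y) ∂Q ∂P := by
        refine integral_mono_ae (((hF.mul hG).integrable P).sub (integrable_const e)) (hH.integrable P) ?_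
        filter_upwards [hP.ae] with x hx
        exact hQ.ineq _ _ (hf.sect rX hx) (hg.sect rX hx)
      rw [integral_sub ((hF.mul hG).integrable P) (integrable_const e)] at this
      simpa using this
    rw [integral_prod _ (hf.integrable _), integral_prod _ (hg.integrable _), integral_prod _ ((hf.mul hg).integrable _)]
    linarith

/-- **F2**: monotone images -/
theorem map (hP : PvfDef P lX S d) {φ : X → Y} (hφ : Measurable φ) (hS : ∀ x ∈ S, φ x ∈ T)
    (hm : ∀ x ∈ S, ∀ y ∈ S, lX x y → lY (φ x) (φ y)) (hae : ∀ᵐ y ∂(P.map φ), y ∈ T) : PvfDef (P.map φ) lY T d := by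
  refine ⟨hae, fun f g hf hg => ?_⟩
  rw [integral_map hφ.aemeasurable hf.meas.aestronglyMeasurable, integral_map hφ.aemeasurable hg.meas.aestronglyMeasurable,
    integral_map hφ.aemeasurable (hf.mul hg).meas.aestronglyMeasurable]
  exact hP.ineq _ _ (hf.comp hφ hS hm) (hg.comp hφ hS hm)

/-- a defect which is arbitrarily small is zero -/
theorem zero_of_tendsto {u : ℕ → ℝ} (hu : Tendsto u atTop (𝓝 0)) (h : ∀ n, PvfDef P lX S (u n)) : PvfDef P lX S 0 := by
  refine ⟨(h 0).ae, fun f g hf hg => ?_⟩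
  have h1 : Tendsto (fun n => (∫ x, f x ∂P) * (∫ x, g x ∂P) - u n) atTop (𝓝 ((∫ x, f x ∂P) * (∫ x, g x ∂P) - 0)) :=
    tendsto_const_nhds.sub hu
  exact le_of_tendsto' h1 fun n => (h n).ineq f g hf hg

end PvfDef

end abs

/-! ## 1. the colour order on configurations -/

section order

variable {E : Type*}

/-- the empty configuration -/
def Conf.nil : Conf E := ⟨∅⟩

/-- `η ≤ ξ` : more black points (`K` = the black points), fewer white points -/
def Conf.cle (K : Set E) (η ξ : Conf E) : Prop := η.pts ∩ K ⊆ ξ.pts ∧ ξ.pts \ K ⊆ η.pts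

theorem Conf.cle_refl (K : Set E) (η : Conf E) : Conf.cle K η η := ⟨inter_subset_left, sdiff_subset⟩

theorem Conf.cle_trans {K : Set E} {η ξ ζ : Conf E} (h : Conf.cle K η ξ) (h' : Conf.cle K ξ ζ) : Conf.cle K η ζ :=
  ⟨fun p hp => h'.1 ⟨h.1 hp, hp.2⟩, fun p hp => h.2 ⟨h'.2 hp, hp.2⟩⟩

theorem Conf.cle_union {K : Set E} {η ξ η' ξ' : Conf E} (h : Conf.cle K η ξ) (h' : Conf.cle K η' ξ') :
    Conf.cle K (Conf.union η η') (Conf.union ξ ξ') := by
  constructor
  · rintro p ⟨hp | hp, hK⟩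
    · exact Or.inl (h.1 ⟨hp, hK⟩)
    · exact Or.inr (h'.1 ⟨hp, hK⟩)
  · rintro p ⟨hp | hp, hK⟩
    · exact Or.inl (h.2 ⟨hp, hK⟩)
    · exact Or.inr (h'.2 ⟨hp, hK⟩)

theorem Conf.cle_restr {K : Set E} (O : Set E) {η ξ : Conf E} (h : Conf.cle K η ξ) : Conf.cle K (Conf.restr O η) (Conf.restr O ξ) :=
  ⟨fun p hp => ⟨h.1 ⟨hp.1.1, hp.2⟩, hp.1.2⟩, fun p hp => ⟨h.2 ⟨hp.1.1, hp.2⟩, hp.1.2⟩⟩

theorem Conf.nil_cle {K : Set E} {η : Conf E} (h : η.pts ⊆ K) : Conf.cle K Conf.nil η :=
  ⟨fun p hp => hp.1.elim, fun p hp => (hp.2 (h hp.1)).elim⟩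

theorem Conf.cle_nil {K : Set E} {η : Conf E} (h : η.pts ∩ K = ∅) : Conf.cle K η Conf.nil :=
  ⟨fun p hp => by rw [h] at hp; exact hp.elim, fun p hp => hp.1.elim⟩

/-- admissible domains of monotonicity (e.g. the locally finite configurations) -/
structure PvfDom (S : Set (Conf E)) : Prop where
  sub : ∀ η ∈ S, ∀ ξ : Conf E, ξ.pts ⊆ η.pts → ξ ∈ S
  union : ∀ η ∈ S, ∀ ξ ∈ S, Conf.union η ξ ∈ S

theorem PvfDom.univ : PvfDom (Set.univ : Set (Conf E)) := ⟨fun _ _ _ _ => mem_univ _, fun _ _ _ _ => mem_univ _⟩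

theorem PvfDom.restr {S : Set (Conf E)} (hS : PvfDom S) (O : Set E) {η : Conf E} (h : η ∈ S) : Conf.restr O η ∈ S :=
  hS.sub η h _ inter_subset_left

theorem PvfDom.nil {S : Set (Conf E)} (hS : PvfDom S) {η : Conf E} (h : η ∈ S) : Conf.nil ∈ S :=
  hS.sub η h _ (empty_subset _)

variable [MeasurableSpace E]

/-- a.e. membership passes to the two terms of a superposition (no measurability of `S`) -/
theorem pvf_ae_of_union {μ₁ μ₂ : Measure (Conf E)} [IsProbabilityMeasure μ₁] [IsProbabilityMeasure μ₂] {S : Set (Conf E)}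
    (hS : PvfDom S) (h : ∀ᵐ η ∂((μ₁.prod μ₂).map fun x => Conf.union x.1 x.2), η ∈ S) :
    (∀ᵐ η ∂μ₁, η ∈ S) ∧ ∀ᵐ η ∂μ₂, η ∈ S := by
  have h1 := Measure.ae_ae_of_ae_prod (ae_of_ae_map Conf.measurable_union.aemeasurable h)
  constructor
  · filter_upwards [h1] with x hx
    obtain ⟨y, hy⟩ := hx.exists
    exact hS.sub _ hy _ subset_union_left
  · obtain ⟨x, hx⟩ := h1.exists
    filter_upwards [hx] with y hy
    exact hS.sub _ hy _ subset_union_right

/-- the superposition map is a monotone map for the product order -/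
theorem PvfDef.union {μ₁ μ₂ : Measure (Conf E)} [IsProbabilityMeasure μ₁] [IsProbabilityMeasure μ₂] {S : Set (Conf E)} {K : Set E}
    {d e : ℝ} (hS : PvfDom S) (h₁ : PvfDef μ₁ (Conf.cle K) S d) (h₂ : PvfDef μ₂ (Conf.cle K) S e)
    (hae : ∀ᵐ η ∂((μ₁.prod μ₂).map fun x => Conf.union x.1 x.2), η ∈ S) :
    PvfDef ((μ₁.prod μ₂).map fun x => Conf.union x.1 x.2) (Conf.cle K) S (d + e) :=
  (h₁.prod h₂ (Conf.cle_refl K) (Conf.cle_refl K)).map Conf.measurable_union (fun x hx => hS.union _ hx.1 _ hx.2)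
    (fun _ _ _ _ hxy => Conf.cle_union hxy.1 hxy.2) hae

end order

/-! ## 2. F3 : a monochromatic process of small mass -/

section small

variable {E : Type*} [MeasurableSpace E]

theorem Conf.void_univ_eq : Conf.void (Set.univ : Set E) = {Conf.nil} := by
  ext η
  simp only [Conf.void, inter_univ, mem_ofPred_eq, mem_singleton_iff]
  exact ⟨fun h => Conf.ext h, fun h => by rw [h]; rfl⟩

theorem pvf_small {ν : Measure E} {μ : Measure (Conf E)} (h : IsPpp ν μ) (hfin : ν univ ≠ ∞) {K : Set E} {S : Set (Conf E)}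
    (hS : PvfDom S) (hae : ∀ᵐ η ∂μ, η ∈ S)
    (hc : (∀ᵐ η ∂μ, Conf.cle K Conf.nil η) ∨ ∀ᵐ η ∂μ, Conf.cle K η Conf.nil) :
    PvfDef μ (Conf.cle K) S ((ν univ).toReal ^ 2) := by
  have := h.prob
  refine ⟨hae, fun f g hf hg => ?_⟩
  obtain ⟨η₀, hη₀⟩ := hae.exists
  have h0 : Conf.nil ∈ S := hS.nil hη₀
  set m : ℝ := (ν univ).toReal with hm
  have hm0 : 0 ≤ m := ENNReal.toReal_nonneg
  set a : ℝ := f Conf.nil with ha
  set b : ℝ := g Conf.nil with hb
  have hA : MeasurableSet (Conf.void (Set.univ : Set E)) := Conf.measurableSet_void MeasurableSet.univ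
  -- the probability of a nonempty configuration
  have hp : μ.real (Conf.void (Set.univ : Set E))ᶜ ≤ m := by
    rw [measureReal_compl hA, probReal_univ, measureReal_def, h.void _ MeasurableSet.univ, expNeg, if_neg hfin,
      ENNReal.toReal_ofReal (Real.exp_pos _).le]
    have := Real.add_one_le_exp (-m)
    linarith
  have hp0 : 0 ≤ μ.real (Conf.void (Set.univ : Set E))ᶜ := measureReal_nonneg
  have key : ∀ (φ : Conf E → ℝ), PvfTest (Conf.cle K) S φ → |∫ η, φ η ∂μ - φ Conf.nil| ≤ m := by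
    intro φ hφ
    have e1 : ∫ η, φ η ∂μ - φ Conf.nil = ∫ η, (φ η - φ Conf.nil) ∂μ := by
      rw [integral_sub (hφ.integrable μ) (integrable_const _)]; simp
    rw [e1, ← Real.norm_eq_abs]
    refine le_trans (norm_integral_le_of_norm_le (g := (Conf.void (Set.univ : Set E))ᶜ.indicator 1)
      ((integrable_const (1 : ℝ)).indicator hA.compl) (ae_of_all _ fun η => ?_)) ?_
    · by_cases hη : η ∈ Conf.void (Set.univ : Set E)
      · rw [Conf.void_univ_eq, mem_singleton_iff] at hη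
        rw [hη]; simp [Set.indicator_apply_nonneg]
      · rw [Set.indicator_of_mem (show η ∈ (Conf.void (Set.univ : Set E))ᶜ from hη), Real.norm_eq_abs, abs_le]
        have h1 := hφ.nonneg η; have h2 := hφ.le_one η; have h3 := hφ.nonneg Conf.nil; have h4 := hφ.le_one Conf.nil
        simp only [Pi.one_apply]
        constructor <;> linarith
    · rw [integral_indicator_one hA.compl]; exact hp
  have k1 := key f hf
  have k2 := key g hg
  -- the product of the centred functions is nonnegative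
  have k3 : 0 ≤ ∫ η, (f η - a) * (g η - b) ∂μ := by
    refine integral_nonneg_of_ae ?_
    rcases hc with hc | hc
    · filter_upwards [hae, hc] with η h1 h2
      exact mul_nonneg (sub_nonneg.2 (hf.mono _ h0 _ h1 h2)) (sub_nonneg.2 (hg.mono _ h0 _ h1 h2))
    · filter_upwards [hae, hc] with η h1 h2
      exact mul_nonneg_of_nonpos_of_nonpos (sub_nonpos.2 (hf.mono _ h1 _ h0 h2)) (sub_nonpos.2 (hg.mono _ h1 _ h0 h2))
  have k4 : ∫ η, (f η - a) * (g η - b) ∂μ = ∫ η, f η * g η ∂μ - b * ∫ η, f η ∂μ - a * ∫ η, g η ∂μ + a * b := by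
    have e : ∀ η, (f η - a) * (g η - b) = f η * g η - b * f η - a * g η + a * b := fun η => by ring
    simp_rw [e]
    have i1 : Integrable (fun η => f η * g η) μ := (hf.mul hg).integrable μ
    have i2 : Integrable (fun η => b * f η) μ := (hf.integrable μ).const_mul b
    have i3 : Integrable (fun η => a * g η) μ := (hg.integrable μ).const_mul a
    have i12 : Integrable (fun η => f η * g η - b * f η) μ := i1.sub i2
    have i123 : Integrable (fun η => f η * g η - b * f η - a * g η) μ := i12.sub i3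
    rw [integral_add i123 (integrable_const _), integral_sub i12 i3, integral_sub i1 i2, integral_const_mul, integral_const_mul]
    simp
  rw [k4] at k3
  have k5 : (∫ η, f η ∂μ - a) * (∫ η, g η ∂μ - b) ≤ m ^ 2 := by
    calc (∫ η, f η ∂μ - a) * (∫ η, g η ∂μ - b) ≤ |(∫ η, f η ∂μ - a) * (∫ η, g η ∂μ - b)| := le_abs_self _
      _ = |∫ η, f η ∂μ - a| * |∫ η, g η ∂μ - b| := abs_mul _ _
      _ ≤ m * m := mul_le_mul k1 k2 (abs_nonneg _) hm0
      _ = m ^ 2 := by ring
  nlinarith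

end small

/-! ## 3. F4 : halving; finite intensity measures -/

section fin

variable {E : Type*} [MeasurableSpace E]

/-- existence of the Poisson process of a finite intensity measure -/
theorem pvf_exists (ν : Measure E) (hfin : ν univ ≠ ∞) : ∃ μ : Measure (Conf E), IsPpp ν μ := by
  by_cases h0 : ν = 0
  · refine ⟨Measure.dirac Conf.nil, ⟨fun B hB => ?_⟩⟩
    rw [Measure.dirac_apply' _ (Conf.measurableSet_void hB), h0]
    have : (Conf.nil : Conf E) ∈ Conf.void B := by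
      rw [Conf.mem_void]; intro p hp; exact hp.elim
    simp [this, expNeg_zero]
  · have h1 : ν univ ≠ 0 := by rwa [Ne, Measure.measure_univ_eq_zero]
    have : IsProbabilityMeasure ((ν univ)⁻¹ • ν) := ⟨by
      rw [Measure.smul_apply, smul_eq_mul, ENNReal.inv_mul_cancel h1 hfin]⟩
    have h2 := isPpp_cell (ν univ).toNNReal ((ν univ)⁻¹ • ν)
    rw [ENNReal.coe_toNNReal hfin, smul_smul, ENNReal.mul_inv_cancel h1 hfin, one_smul] at h2
    exact ⟨_, h2⟩

theorem pvf_half_add (ν : Measure E) : (2⁻¹ : ℝ≥0∞) • ν + (2⁻¹ : ℝ≥0∞) • ν = ν := by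
  rw [← add_smul, ENNReal.inv_two_add_inv_two, one_smul]

/-- monochromatic intensity gives configurations comparable with the empty one -/
theorem pvf_cmp_nil {ν : Measure E} {μ : Measure (Conf E)} (h : IsPpp ν μ) {K : Set E} (hK : MeasurableSet K)
    (hc : ν Kᶜ = 0 ∨ ν K = 0) : (∀ᵐ η ∂μ, Conf.cle K Conf.nil η) ∨ ∀ᵐ η ∂μ, Conf.cle K η Conf.nil := by
  have := h.prob
  rcases hc with hc | hc
  · left
    have h1 : μ (Conf.void Kᶜ) = 1 := by rw [h.void _ hK.compl, hc, expNeg_zero]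
    have h2 : ∀ᵐ η ∂μ, η ∈ Conf.void Kᶜ := (prob_compl_eq_zero_iff (Conf.measurableSet_void hK.compl)).2 h1
    filter_upwards [h2] with η hη
    rw [Conf.mem_void] at hη
    exact Conf.nil_cle fun p hp => not_not.1 (hη p hp)
  · right
    have h1 : μ (Conf.void K) = 1 := by rw [h.void _ hK, hc, expNeg_zero]
    have h2 : ∀ᵐ η ∂μ, η ∈ Conf.void K := (prob_compl_eq_zero_iff (Conf.measurableSet_void hK)).2 h1
    filter_upwards [h2] with η hη
    exact Conf.cle_nil hη

theorem pvf_halve {K : Set E} (hK : MeasurableSet K) {S : Set (Conf E)} (hS : PvfDom S) (r : ℕ) :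
    ∀ (ν : Measure E) (μ : Measure (Conf E)), IsPpp ν μ → ν univ ≠ ∞ → (ν Kᶜ = 0 ∨ ν K = 0) → (∀ᵐ η ∂μ, η ∈ S) →
      PvfDef μ (Conf.cle K) S ((ν univ).toReal ^ 2 / 2 ^ r) := by
  induction r with
  | zero =>
    intro ν μ h hfin hc hae
    simpa using pvf_small h hfin hS hae (pvf_cmp_nil h hK hc)
  | succ r ih =>
    intro ν μ h hfin hc hae
    have hfin' : ((2⁻¹ : ℝ≥0∞) • ν) univ ≠ ∞ := by
      rw [Measure.smul_apply, smul_eq_mul]; exact ENNReal.mul_ne_top (by simp) hfin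
    obtain ⟨μ', h'⟩ := pvf_exists ((2⁻¹ : ℝ≥0∞) • ν) hfin'
    have := h'.prob
    have hU := h'.union h'
    rw [pvf_half_add] at hU
    have e : ((μ'.prod μ').map fun x => Conf.union x.1 x.2) = μ := hU.unique h
    have hae' : ∀ᵐ η ∂((μ'.prod μ').map fun x => Conf.union x.1 x.2), η ∈ S := by rw [e]; exact hae
    have hc' : ((2⁻¹ : ℝ≥0∞) • ν) Kᶜ = 0 ∨ ((2⁻¹ : ℝ≥0∞) • ν) K = 0 := by
      rcases hc with hc | hc
      · left; rw [Measure.smul_apply, hc]; simp
      · right; rw [Measure.smul_apply, hc]; simp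
    have h1 := ih _ μ' h' hfin' hc' (pvf_ae_of_union hS hae').1
    have h2 := PvfDef.union hS h1 h1 hae'
    rw [e] at h2
    refine h2.mono_def (le_of_eq ?_)
    rw [Measure.smul_apply, smul_eq_mul, ENNReal.toReal_mul]
    simp only [ENNReal.toReal_inv, ENNReal.toReal_ofNat]
    rw [pow_succ]; field_simp; ring

/-- **F4**: FKG for a monochromatic process of finite mass -/
theorem pvf_mono_fin {K : Set E} (hK : MeasurableSet K) {S : Set (Conf E)} (hS : PvfDom S) {ν : Measure E} {μ : Measure (Conf E)}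
    (h : IsPpp ν μ) (hfin : ν univ ≠ ∞) (hc : ν Kᶜ = 0 ∨ ν K = 0) (hae : ∀ᵐ η ∂μ, η ∈ S) : PvfDef μ (Conf.cle K) S 0 := by
  refine PvfDef.zero_of_tendsto (u := fun r : ℕ => (ν univ).toReal ^ 2 / 2 ^ r) ?_ fun r => pvf_halve hK hS r ν μ h hfin hc hae
  have h1 : Tendsto (fun r : ℕ => (ν univ).toReal ^ 2 * (2⁻¹ : ℝ) ^ r) atTop (𝓝 ((ν univ).toReal ^ 2 * 0)) :=
    (tendsto_pow_atTop_nhds_zero_of_lt_one (by norm_num) (by norm_num)).const_mul _
  rw [mul_zero] at h1
  refine h1.congr fun r => ?_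
  rw [inv_pow, div_eq_mul_inv]

/-- the splice decomposition `μ = μ|O ∪ μ|Oᶜ` -/
theorem pvf_split {m : Measure E} {μ : Measure (Conf E)} (h : IsPpp m μ) {O : Set E} (hO : MeasurableSet O) :
    (((μ.map (Conf.restr O)).prod (μ.map (Conf.restr Oᶜ))).map fun x => Conf.union x.1 x.2) = μ := by
  have h1 := (h.restr hO).union (h.restr hO.compl)
  rw [Measure.restrict_add_restrict_compl hO] at h1
  exact h1.unique h

/-- a.e. membership passes to restrictions -/
theorem pvf_ae_restr {m : Measure E} {μ : Measure (Conf E)} (h : IsPpp m μ) {O : Set E} (hO : MeasurableSet O) {S : Set (Conf E)}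
    (hS : PvfDom S) (hae : ∀ᵐ η ∂μ, η ∈ S) : ∀ᵐ η ∂(μ.map (Conf.restr O)), η ∈ S := by
  have := (h.restr hO).prob
  have := (h.restr hO.compl).prob
  refine (pvf_ae_of_union (μ₁ := μ.map (Conf.restr O)) (μ₂ := μ.map (Conf.restr Oᶜ)) hS ?_).1
  rw [pvf_split h hO]; exact hae

/-- FKG for a finite intensity measure -/
theorem pvf_fin {K : Set E} (hK : MeasurableSet K) {S : Set (Conf E)} (hS : PvfDom S) {ν : Measure E} {μ : Measure (Conf E)}
    (h : IsPpp ν μ) (hfin : ν univ ≠ ∞) (hae : ∀ᵐ η ∂μ, η ∈ S) : PvfDef μ (Conf.cle K) S 0 := by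
  have := (h.restr hK).prob
  have := (h.restr hK.compl).prob
  have hf : ∀ O : Set E, (ν.restrict O) univ ≠ ∞ := fun O =>
    ne_top_of_le_ne_top hfin (by rw [Measure.restrict_apply_univ]; exact measure_mono (subset_univ _))
  have h1 := pvf_mono_fin hK hS (h.restr hK) (hf K) (Or.inl (by rw [Measure.restrict_apply hK.compl]; simp)) (pvf_ae_restr h hK hS hae)
  have h2 := pvf_mono_fin hK hS (h.restr hK.compl) (hf Kᶜ) (Or.inr (by rw [Measure.restrict_apply hK]; simp)) (pvf_ae_restr h hK.compl hS hae)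
  have h3 := PvfDef.union hS h1 h2 (by rw [pvf_split h hK]; exact hae)
  rw [pvf_split h hK, add_zero] at h3
  exact h3

end fin

/-! ## 4. resampling outside `O` as an honest conditional expectation -/

section ce

variable {E : Type*} [MeasurableSpace E]

/-- keep `x.1` inside `O`, take `x.2` outside -/
def Conf.spl (O : Set E) (x : Conf E × Conf E) : Conf E := Conf.union (Conf.restr O x.1) (Conf.restr Oᶜ x.2)

theorem Conf.measurable_spl {O : Set E} (hO : MeasurableSet O) : Measurable (Conf.spl O : Conf E × Conf E → Conf E) :=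
  Conf.measurable_union.comp ((Conf.measurable_restr hO).prodMap (Conf.measurable_restr hO.compl))

theorem Conf.restr_spl (O : Set E) (x : Conf E × Conf E) : Conf.restr O (Conf.spl O x) = Conf.restr O x.1 := by
  ext p
  simp only [Conf.restr, Conf.spl, Conf.union, mem_inter_iff, mem_union, mem_compl_iff]
  tauto

theorem Conf.spl_restr (O : Set E) (σ η : Conf E) : Conf.spl O (Conf.restr O σ, η) = Conf.spl O (σ, η) := by
  ext p
  simp only [Conf.restr, Conf.spl, Conf.union, mem_inter_iff, mem_union, mem_compl_iff]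
  tauto

theorem Conf.restr_restr_of_subset {O O' : Set E} (h : O ⊆ O') (η : Conf E) : Conf.restr O (Conf.restr O' η) = Conf.restr O η := by
  ext p
  simp only [Conf.restr, mem_inter_iff]
  exact ⟨fun hp => ⟨hp.1.1, hp.2⟩, fun hp => ⟨⟨hp.1, h hp.2⟩, hp.2⟩⟩

/-- `E[f | η ∩ O]` as a function of `σ` (through `σ ∩ O` only) -/
noncomputable def pvfCE (μ : Measure (Conf E)) (O : Set E) (f : Conf E → ℝ) (σ : Conf E) : ℝ := ∫ η, f (Conf.spl O (σ, η)) ∂μ

theorem pvfCE_restr (μ : Measure (Conf E)) (O : Set E) (f : Conf E → ℝ) (σ : Conf E) : pvfCE μ O f (Conf.restr O σ) = pvfCE μ O f σ := by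
  unfold pvfCE; simp_rw [Conf.spl_restr]

theorem pvfCE_test {μ : Measure (Conf E)} [IsProbabilityMeasure μ] {O : Set E} (hO : MeasurableSet O) {K : Set E} {S : Set (Conf E)}
    (hS : PvfDom S) (hae : ∀ᵐ η ∂μ, η ∈ S) {f : Conf E → ℝ} (hf : PvfTest (Conf.cle K) S f) : PvfTest (Conf.cle K) S (pvfCE μ O f) := by
  have h1 : PvfTest (fun a b : Conf E × Conf E => Conf.cle K a.1 b.1 ∧ Conf.cle K a.2 b.2) (S ×ˢ S) fun x => f (Conf.spl O x) :=
    hf.comp (Conf.measurable_spl hO) (fun x hx => hS.union _ (hS.restr O hx.1) _ (hS.restr Oᶜ hx.2))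
      fun x _ y _ hxy => Conf.cle_union (Conf.cle_restr O hxy.1) (Conf.cle_restr Oᶜ hxy.2)
  exact h1.integral_right (Conf.cle_refl K) μ hae

theorem pvfCE_integral {m : Measure E} {μ : Measure (Conf E)} (h : IsPpp m μ) {O : Set E} (hO : MeasurableSet O) {f : Conf E → ℝ}
    (hf : Integrable f μ) : ∫ σ, pvfCE μ O f σ ∂μ = ∫ η, f η ∂μ := by
  have := h.prob
  have e : (μ.prod μ).map (Conf.spl O) = μ := h.splice hO
  have hi' : Integrable f ((μ.prod μ).map (Conf.spl O)) := by rw [e]; exact hf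
  have hi : Integrable (fun x => f (Conf.spl O x)) (μ.prod μ) := hi'.comp_measurable (Conf.measurable_spl hO)
  calc ∫ σ, pvfCE μ O f σ ∂μ = ∫ x, f (Conf.spl O x) ∂(μ.prod μ) := (integral_prod _ hi).symm
    _ = ∫ η, f η ∂((μ.prod μ).map (Conf.spl O)) := (integral_map (Conf.measurable_spl hO).aemeasurable hi'.aestronglyMeasurable).symm
    _ = ∫ η, f η ∂μ := by rw [e]

theorem pvfCE_indicator (μ : Measure (Conf E)) (O : Set E) (f : Conf E → ℝ) (t : Set (Conf E)) :
    pvfCE μ O ((Conf.restr O ⁻¹' t).indicator f) = (Conf.restr O ⁻¹' t).indicator (pvfCE μ O f) := by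
  funext σ
  unfold pvfCE
  by_cases hσ : σ ∈ Conf.restr O ⁻¹' t
  · rw [Set.indicator_of_mem hσ]
    refine integral_congr_ae (ae_of_all _ fun η => ?_)
    refine Set.indicator_of_mem ?_ _
    rw [mem_preimage, Conf.restr_spl]; exact hσ
  · rw [Set.indicator_of_notMem hσ]
    have : ∀ η, (Conf.restr O ⁻¹' t).indicator f (Conf.spl O (σ, η)) = 0 := by
      intro η
      refine Set.indicator_of_notMem ?_ _
      rw [mem_preimage, Conf.restr_spl]; exact hσ
    simp_rw [this]; simp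

/-- `pvfCE` is a version of the conditional expectation -/
theorem pvfCE_condExp {m : Measure E} {μ : Measure (Conf E)} (h : IsPpp m μ) {O : Set E} (hO : MeasurableSet O) {f : Conf E → ℝ}
    (hfm : Measurable f) (hb : ∀ η, |f η| ≤ 1) :
    pvfCE μ O f =ᵐ[μ] μ[f | MeasurableSpace.comap (Conf.restr O) inferInstance] := by
  have := h.prob
  have hle : MeasurableSpace.comap (Conf.restr O) (inferInstance : MeasurableSpace (Conf E)) ≤ (inferInstance : MeasurableSpace (Conf E)) :=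
    (Conf.measurable_restr hO).comap_le
  have hf : Integrable f μ := Integrable.of_bound hfm.aestronglyMeasurable 1 (ae_of_all _ hb)
  have hm : Measurable (pvfCE μ O f) :=
    ((hfm.comp (Conf.measurable_spl hO)).stronglyMeasurable.integral_prod_right').measurable
  have hbd : ∀ σ, |pvfCE μ O f σ| ≤ 1 := by
    intro σ
    have := norm_integral_le_of_norm_le_const (μ := μ) (f := fun η => f (Conf.spl O (σ, η))) (C := 1) (ae_of_all _ fun η => hb _)
    simpa [pvfCE] using this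
  have hi : Integrable (pvfCE μ O f) μ := Integrable.of_bound hm.aestronglyMeasurable 1 (ae_of_all _ hbd)
  refine ae_eq_condExp_of_forall_setIntegral_eq hle hf (fun s _ _ => hi.integrableOn) ?_ ?_
  · rintro s ⟨t, ht, rfl⟩ _
    have hs : MeasurableSet (Conf.restr O ⁻¹' t) := Conf.measurable_restr hO ht
    rw [← integral_indicator hs, ← integral_indicator hs, ← pvfCE_indicator, pvfCE_integral h hO (hf.indicator hs)]
  · have e : pvfCE μ O f = (pvfCE μ O f) ∘ Conf.restr O := by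
      funext σ; exact (pvfCE_restr μ O f σ).symm
    rw [e]
    exact (hm.comp (comap_measurable _)).stronglyMeasurable.aestronglyMeasurable

end ce

/-! ## 5. F5 : sigma-finite intensity -/

section inf

variable {E : Type*} [MeasurableSpace E]

/-- the filtration of the restrictions to an increasing sequence of sets -/
def pvfFil (W : ℕ → Set E) (hW : ∀ n, MeasurableSet (W n)) (hmono : Monotone W) :
    Filtration ℕ (inferInstance : MeasurableSpace (Conf E)) where
  seq n := MeasurableSpace.comap (Conf.restr (W n)) inferInstance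
  mono' := by
    intro n k hnk
    have e : (Conf.restr (W n) : Conf E → Conf E) = Conf.restr (W n) ∘ Conf.restr (W k) := by
      funext η; exact (Conf.restr_restr_of_subset (hmono hnk) η).symm
    show MeasurableSpace.comap (Conf.restr (W n)) inferInstance ≤ MeasurableSpace.comap (Conf.restr (W k)) inferInstance
    rw [e, ← MeasurableSpace.comap_comp]
    exact MeasurableSpace.comap_mono (Conf.measurable_restr (hW n)).comap_le
  le' n := (Conf.measurable_restr (hW n)).comap_le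

theorem pvfFil_iSup (W : ℕ → Set E) (hW : ∀ n, MeasurableSet (W n)) (hmono : Monotone W) (hU : ⋃ n, W n = univ) :
    (⨆ n, pvfFil W hW hmono n) = (inferInstance : MeasurableSpace (Conf E)) := by
  refine le_antisymm (iSup_le fun n => (pvfFil W hW hmono).le n) ?_
  refine MeasurableSpace.generateFrom_le ?_
  rintro _ ⟨B, hB, rfl⟩
  have e : Conf.void B = ⋂ n, Conf.restr (W n) ⁻¹' Conf.void B := by
    ext η
    simp only [mem_iInter, mem_preimage, Conf.mem_void, Conf.restr, mem_inter_iff, and_imp]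
    constructor
    · intro h n p hp _; exact h p hp
    · intro h p hp
      obtain ⟨n, hn⟩ := mem_iUnion.1 (hU ▸ mem_univ p : p ∈ ⋃ n, W n)
      exact h n p hp hn
  rw [e]
  refine MeasurableSet.iInter fun n => ?_
  exact (le_iSup (fun n => (pvfFil W hW hmono) n) n) _ ⟨Conf.void B, Conf.measurableSet_void hB, rfl⟩

/-- Levy's upward theorem for the resampled functions -/
theorem pvfCE_tendsto {m : Measure E} {μ : Measure (Conf E)} (h : IsPpp m μ) (W : ℕ → Set E) (hW : ∀ n, MeasurableSet (W n))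
    (hmono : Monotone W) (hU : ⋃ n, W n = univ) {f : Conf E → ℝ} (hfm : Measurable f) (hb : ∀ η, |f η| ≤ 1) :
    Tendsto (fun n => eLpNorm (pvfCE μ (W n) f - f) 1 μ) atTop (𝓝 0) := by
  have := h.prob
  have hf : Integrable f μ := Integrable.of_bound hfm.aestronglyMeasurable 1 (ae_of_all _ hb)
  have hsm : StronglyMeasurable[⨆ n, pvfFil W hW hmono n] f := by
    rw [pvfFil_iSup W hW hmono hU]; exact hfm.stronglyMeasurable
  have h1 := hf.tendsto_eLpNorm_condExp (ℱ := pvfFil W hW hmono) hsm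
  refine h1.congr fun n => ?_
  refine eLpNorm_congr_ae ?_
  filter_upwards [pvfCE_condExp h (hW n) hfm hb] with η hη
  simp only [Pi.sub_apply]
  rw [hη]; rfl

/-- **F5 = annealed FKG** for a coloured Poisson process with an exhaustion by sets of finite intensity -/
theorem pvf_fkg_of_exhaustion {m : Measure E} {μ : Measure (Conf E)} (h : IsPpp m μ) (W : ℕ → Set E) (hW : ∀ n, MeasurableSet (W n))
    (hmono : Monotone W) (hU : ⋃ n, W n = univ) (hfin : ∀ n, m (W n) ≠ ∞) {K : Set E} (hK : MeasurableSet K) {S : Set (Conf E)}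
    (hS : PvfDom S) (hae : ∀ᵐ η ∂μ, η ∈ S) : PvfDef μ (Conf.cle K) S 0 := by
  have := h.prob
  refine ⟨hae, fun f g hf hg => ?_⟩
  have hbf : ∀ η, |f η| ≤ 1 := fun η => by rw [abs_of_nonneg (hf.nonneg η)]; exact hf.le_one η
  have hbg : ∀ η, |g η| ≤ 1 := fun η => by rw [abs_of_nonneg (hg.nonneg η)]; exact hg.le_one η
  have hF : ∀ n, PvfTest (Conf.cle K) S (pvfCE μ (W n) f) := fun n => pvfCE_test (hW n) hS hae hf
  have hG : ∀ n, PvfTest (Conf.cle K) S (pvfCE μ (W n) g) := fun n => pvfCE_test (hW n) hS hae hg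
  -- finite volume
  have h5 : ∀ n, (∫ η, f η ∂μ) * (∫ η, g η ∂μ) ≤ ∫ η, pvfCE μ (W n) f η * pvfCE μ (W n) g η ∂μ := by
    intro n
    have hn := h.restr (hW n)
    have hd := pvf_fin hK hS hn (by rw [Measure.restrict_apply_univ]; exact hfin n) (pvf_ae_restr h (hW n) hS hae)
    have h1 := hd.ineq _ _ (hF n) (hG n)
    have hr := (Conf.measurable_restr (hW n)).aemeasurable (μ := μ)
    rw [integral_map hr (hF n).meas.aestronglyMeasurable, integral_map hr (hG n).meas.aestronglyMeasurable,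
      integral_map hr ((hF n).mul (hG n)).meas.aestronglyMeasurable] at h1
    simp_rw [pvfCE_restr] at h1
    rw [pvfCE_integral h (hW n) (hf.integrable μ), pvfCE_integral h (hW n) (hg.integrable μ)] at h1
    linarith
  -- the limit
  have t1 := pvfCE_tendsto h W hW hmono hU hf.meas hbf
  have t2 := pvfCE_tendsto h W hW hmono hU hg.meas hbg
  have t3 : Tendsto (fun n => eLpNorm ((fun η => pvfCE μ (W n) f η * pvfCE μ (W n) g η) - fun η => f η * g η) 1 μ) atTop (𝓝 0) := by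
    have t12 := t1.add t2
    rw [add_zero] at t12
    refine tendsto_of_tendsto_of_tendsto_of_le_of_le tendsto_const_nhds t12 (fun n => zero_le) fun n => ?_
    have a1 : AEStronglyMeasurable (fun η => ‖(pvfCE μ (W n) f - f) η‖) μ := (((hF n).meas.sub hf.meas).norm).aestronglyMeasurable
    have a2 : AEStronglyMeasurable (fun η => ‖(pvfCE μ (W n) g - g) η‖) μ := (((hG n).meas.sub hg.meas).norm).aestronglyMeasurable
    calc eLpNorm ((fun η => pvfCE μ (W n) f η * pvfCE μ (W n) g η) - fun η => f η * g η) 1 μ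
        ≤ eLpNorm ((fun η => ‖(pvfCE μ (W n) f - f) η‖) + fun η => ‖(pvfCE μ (W n) g - g) η‖) 1 μ := by
          refine eLpNorm_mono fun η => ?_
          simp only [Pi.sub_apply, Pi.add_apply, Real.norm_eq_abs]
          rw [abs_of_nonneg (add_nonneg (abs_nonneg (pvfCE μ (W n) f η - f η)) (abs_nonneg (pvfCE μ (W n) g η - g η)))]
          have e : pvfCE μ (W n) f η * pvfCE μ (W n) g η - f η * g η
              = (pvfCE μ (W n) f η - f η) * pvfCE μ (W n) g η + f η * (pvfCE μ (W n) g η - g η) := by ring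
          rw [e]
          refine (abs_add_le _ _).trans (add_le_add ?_ ?_)
          · rw [abs_mul, abs_of_nonneg ((hG n).nonneg η)]
            exact mul_le_of_le_one_right (abs_nonneg _) ((hG n).le_one η)
          · rw [abs_mul, abs_of_nonneg (hf.nonneg η)]
            exact mul_le_of_le_one_left (abs_nonneg _) (hf.le_one η)
      _ ≤ eLpNorm (fun η => ‖(pvfCE μ (W n) f - f) η‖) 1 μ + eLpNorm (fun η => ‖(pvfCE μ (W n) g - g) η‖) 1 μ :=
          eLpNorm_add_le a1 a2 le_rfl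
      _ = eLpNorm (pvfCE μ (W n) f - f) 1 μ + eLpNorm (pvfCE μ (W n) g - g) 1 μ := by rw [eLpNorm_norm, eLpNorm_norm]
  have t4 := tendsto_integral_of_L1' (fun η => f η * g η) (hf.mul hg).meas.aestronglyMeasurable
    (Eventually.of_forall fun n => ((hF n).mul (hG n)).integrable μ) t3
  have := ge_of_tendsto' t4 h5
  linarith

/-- **annealed FKG**, sigma-finite intensity -/
theorem pvf_fkg {m : Measure E} [SigmaFinite m] {μ : Measure (Conf E)} (h : IsPpp m μ) {K : Set E} (hK : MeasurableSet K)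
    {S : Set (Conf E)} (hS : PvfDom S) (hae : ∀ᵐ η ∂μ, η ∈ S) : PvfDef μ (Conf.cle K) S 0 :=
  pvf_fkg_of_exhaustion h (spanningSets m) (measurableSet_spanningSets m) (monotone_spanningSets m) (iUnion_spanningSets m)
    (fun n => (measure_spanningSets_lt_top m n).ne) hK hS hae

end inf

/-! ## 6. abstract exports : bounded functions, events, finite families -/

section exports

variable {X : Type*} [MeasurableSpace X] {P : Measure X} {le : X → X → Prop} {S : Set X}

/-- bounded monotone functions -/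
theorem PvfDef.bdd [IsProbabilityMeasure P] (h : PvfDef P le S 0) {f g : X → ℝ} {C : ℝ} (hfm : Measurable f) (hgm : Measurable g)
    (hf : ∀ x, |f x| ≤ C) (hg : ∀ x, |g x| ≤ C) (mf : ∀ x ∈ S, ∀ y ∈ S, le x y → f x ≤ f y) (mg : ∀ x ∈ S, ∀ y ∈ S, le x y → g x ≤ g y) :
    (∫ x, f x ∂P) * (∫ x, g x ∂P) ≤ ∫ x, f x * g x ∂P := by
  obtain ⟨x₀, -⟩ := h.ae.exists
  have hC0 : 0 ≤ C := (abs_nonneg _).trans (hf x₀)
  set c : ℝ := C + 1 with hc
  have hcpos : 0 < c := by linarith
  have tst : ∀ φ : X → ℝ, Measurable φ → (∀ x, |φ x| ≤ C) → (∀ x ∈ S, ∀ y ∈ S, le x y → φ x ≤ φ y) →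
      PvfTest le S fun x => (φ x + c) / (2 * c) := by
    intro φ hm hb hmono
    refine ⟨(hm.add_const c).div_const _, fun x => ?_, fun x => ?_, fun x hx y hy hxy => ?_⟩
    · have := abs_le.1 (hb x); exact div_nonneg (by linarith) (by linarith)
    · have := abs_le.1 (hb x); rw [div_le_one (by linarith)]; linarith
    · have := hmono x hx y hy hxy
      exact div_le_div_of_nonneg_right (by linarith) (by linarith)
  have if' : Integrable f P := Integrable.of_bound hfm.aestronglyMeasurable C (ae_of_all _ hf)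
  have ig : Integrable g P := Integrable.of_bound hgm.aestronglyMeasurable C (ae_of_all _ hg)
  have ifg : Integrable (fun x => f x * g x) P := Integrable.of_bound (hfm.mul hgm).aestronglyMeasurable (C * C) (ae_of_all _ fun x => by
    rw [Real.norm_eq_abs, abs_mul]; exact mul_le_mul (hf x) (hg x) (abs_nonneg _) hC0)
  have h1 := h.ineq _ _ (tst f hfm hf mf) (tst g hgm hg mg)
  have e1 : ∀ φ : X → ℝ, Integrable φ P → ∫ x, (φ x + c) / (2 * c) ∂P = (∫ x, φ x ∂P + c) / (2 * c) := by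
    intro φ hφ
    rw [integral_div, integral_add hφ (integrable_const c)]; simp
  have e2 : ∫ x, (f x + c) / (2 * c) * ((g x + c) / (2 * c)) ∂P
      = (∫ x, f x * g x ∂P + c * ∫ x, f x ∂P + c * ∫ x, g x ∂P + c * c) / (2 * c * (2 * c)) := by
    have e : ∀ x, (f x + c) / (2 * c) * ((g x + c) / (2 * c)) = (f x * g x + c * f x + c * g x + c * c) / (2 * c * (2 * c)) := by
      intro x; rw [div_mul_div_comm]; ring
    simp_rw [e]
    have i2 : Integrable (fun x => c * f x) P := if'.const_mul c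
    have i3 : Integrable (fun x => c * g x) P := ig.const_mul c
    have i12 : Integrable (fun x => f x * g x + c * f x) P := ifg.add i2
    have i123 : Integrable (fun x => f x * g x + c * f x + c * g x) P := i12.add i3
    rw [integral_div, integral_add i123 (integrable_const _), integral_add i12 i3, integral_add ifg i2, integral_const_mul, integral_const_mul]
    simp
  rw [e1 f if', e1 g ig, e2, div_mul_div_comm, sub_zero, div_le_div_iff_of_pos_right (by positivity)] at h1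
  nlinarith

/-- two decreasing functions -/
theorem PvfDef.bdd_anti [IsProbabilityMeasure P] (h : PvfDef P le S 0) {f g : X → ℝ} {C : ℝ} (hfm : Measurable f) (hgm : Measurable g)
    (hf : ∀ x, |f x| ≤ C) (hg : ∀ x, |g x| ≤ C) (mf : ∀ x ∈ S, ∀ y ∈ S, le x y → f y ≤ f x) (mg : ∀ x ∈ S, ∀ y ∈ S, le x y → g y ≤ g x) :
    (∫ x, f x ∂P) * (∫ x, g x ∂P) ≤ ∫ x, f x * g x ∂P := by
  have := h.bdd (f := fun x => -f x) (g := fun x => -g x) (C := C) hfm.neg hgm.neg (fun x => by rw [abs_neg]; exact hf x)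
    (fun x => by rw [abs_neg]; exact hg x) (fun x hx y hy hxy => neg_le_neg (mf x hx y hy hxy)) (fun x hx y hy hxy => neg_le_neg (mg x hx y hy hxy))
  simpa [integral_neg] using this

/-- an increasing and a decreasing function -/
theorem PvfDef.bdd_mixed [IsProbabilityMeasure P] (h : PvfDef P le S 0) {f g : X → ℝ} {C : ℝ} (hfm : Measurable f) (hgm : Measurable g)
    (hf : ∀ x, |f x| ≤ C) (hg : ∀ x, |g x| ≤ C) (mf : ∀ x ∈ S, ∀ y ∈ S, le x y → f x ≤ f y) (mg : ∀ x ∈ S, ∀ y ∈ S, le x y → g y ≤ g x) :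
    ∫ x, f x * g x ∂P ≤ (∫ x, f x ∂P) * (∫ x, g x ∂P) := by
  have := h.bdd (f := f) (g := fun x => -g x) (C := C) hfm hgm.neg hf
    (fun x => by rw [abs_neg]; exact hg x) mf (fun x hx y hy hxy => neg_le_neg (mg x hx y hy hxy))
  simp only [integral_neg, mul_neg] at this
  linarith

/-- increasing on `S` -/
def PvfUp (le : X → X → Prop) (S A : Set X) : Prop := ∀ x ∈ S, ∀ y ∈ S, le x y → x ∈ A → y ∈ A

/-- decreasing on `S` -/
def PvfDown (le : X → X → Prop) (S A : Set X) : Prop := ∀ x ∈ S, ∀ y ∈ S, le x y → y ∈ A → x ∈ A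

/-- measurable on `S` : the trace on `S` is the trace of a measurable set -/
def PvfEv (S A : Set X) : Prop := ∃ A', MeasurableSet A' ∧ A' ∩ S = A ∩ S

theorem PvfEv.of_meas {A : Set X} (h : MeasurableSet A) : PvfEv S A := ⟨A, h, rfl⟩

theorem PvfEv.of_inter {A : Set X} (h : MeasurableSet (A ∩ S)) : PvfEv S A := ⟨A ∩ S, h, by rw [inter_assoc, inter_self]⟩

theorem PvfEv.mem_iff {A A' : Set X} (h : A' ∩ S = A ∩ S) {x : X} (hx : x ∈ S) : x ∈ A' ↔ x ∈ A :=
  ⟨fun h' => (h ▸ (⟨h', hx⟩ : x ∈ A' ∩ S) : x ∈ A ∩ S).1, fun h' => (h.symm ▸ (⟨h', hx⟩ : x ∈ A ∩ S) : x ∈ A' ∩ S).1⟩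

theorem PvfEv.inter {A B : Set X} (hA : PvfEv S A) (hB : PvfEv S B) : PvfEv S (A ∩ B) := by
  obtain ⟨A', mA, eA⟩ := hA
  obtain ⟨B', mB, eB⟩ := hB
  refine ⟨A' ∩ B', mA.inter mB, ?_⟩
  ext x
  simp only [mem_inter_iff]
  constructor
  · rintro ⟨⟨a, b⟩, c⟩; exact ⟨⟨(PvfEv.mem_iff eA c).1 a, (PvfEv.mem_iff eB c).1 b⟩, c⟩
  · rintro ⟨⟨a, b⟩, c⟩; exact ⟨⟨(PvfEv.mem_iff eA c).2 a, (PvfEv.mem_iff eB c).2 b⟩, c⟩

theorem PvfEv.compl {A : Set X} (hA : PvfEv S A) : PvfEv S Aᶜ := by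
  obtain ⟨A', mA, eA⟩ := hA
  refine ⟨A'ᶜ, mA.compl, ?_⟩
  ext x
  simp only [mem_inter_iff, mem_compl_iff]
  constructor
  · rintro ⟨a, c⟩; exact ⟨fun h => a ((PvfEv.mem_iff eA c).2 h), c⟩
  · rintro ⟨a, c⟩; exact ⟨fun h => a ((PvfEv.mem_iff eA c).1 h), c⟩

theorem PvfEv.univ : PvfEv S (Set.univ : Set X) := PvfEv.of_meas MeasurableSet.univ

theorem PvfUp.inter {A B : Set X} (hA : PvfUp le S A) (hB : PvfUp le S B) : PvfUp le S (A ∩ B) :=
  fun x hx y hy hxy h => ⟨hA x hx y hy hxy h.1, hB x hx y hy hxy h.2⟩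

theorem PvfUp.univ : PvfUp le S (Set.univ : Set X) := fun _ _ _ _ _ _ => mem_univ _

theorem PvfUp.compl {A : Set X} (hA : PvfUp le S A) : PvfDown le S Aᶜ := fun x hx y hy hxy h h' => h (hA x hx y hy hxy h')

theorem PvfDown.compl {A : Set X} (hA : PvfDown le S A) : PvfUp le S Aᶜ := fun x hx y hy hxy h h' => h (hA x hx y hy hxy h')

theorem PvfDown.inter {A B : Set X} (hA : PvfDown le S A) (hB : PvfDown le S B) : PvfDown le S (A ∩ B) :=
  fun x hx y hy hxy h => ⟨hA x hx y hy hxy h.1, hB x hx y hy hxy h.2⟩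

/-- the measure only sees the trace on `S` -/
theorem PvfDef.measure_congr {d : ℝ} (h : PvfDef P le S d) {A A' : Set X} (e : A' ∩ S = A ∩ S) : P A' = P A := by
  refine MeasureTheory.measure_congr ?_
  filter_upwards [h.ae] with x hx
  exact propext (PvfEv.mem_iff e hx)

theorem pvf_test_indicator {A : Set X} (mA : MeasurableSet A) (uA : PvfUp le S A) : PvfTest le S (A.indicator 1) := by
  refine ⟨measurable_one.indicator mA, fun x => Set.indicator_nonneg (fun _ _ => zero_le_one) x, fun x => ?_, fun x hx y hy hxy => ?_⟩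
  · by_cases hx : x ∈ A <;> simp [hx]
  · by_cases hxA : x ∈ A
    · simp [hxA, uA x hx y hy hxy hxA]
    · rw [Set.indicator_of_notMem hxA]; exact Set.indicator_nonneg (fun _ _ => zero_le_one) y

/-- **Harris inequality for two increasing events** -/
theorem PvfDef.up_up [IsProbabilityMeasure P] (h : PvfDef P le S 0) {A B : Set X} (hA : PvfEv S A) (hB : PvfEv S B)
    (uA : PvfUp le S A) (uB : PvfUp le S B) : P A * P B ≤ P (A ∩ B) := by
  obtain ⟨A', mA, eA⟩ := hA
  obtain ⟨B', mB, eB⟩ := hB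
  have eAB : (A' ∩ B') ∩ S = (A ∩ B) ∩ S := by
    ext x
    simp only [mem_inter_iff]
    constructor
    · rintro ⟨⟨a, b⟩, c⟩; exact ⟨⟨(PvfEv.mem_iff eA c).1 a, (PvfEv.mem_iff eB c).1 b⟩, c⟩
    · rintro ⟨⟨a, b⟩, c⟩; exact ⟨⟨(PvfEv.mem_iff eA c).2 a, (PvfEv.mem_iff eB c).2 b⟩, c⟩
  rw [← h.measure_congr eA, ← h.measure_congr eB, ← h.measure_congr eAB]
  have uA' : PvfUp le S A' := fun x hx y hy hxy hh => (PvfEv.mem_iff eA hy).2 (uA x hx y hy hxy ((PvfEv.mem_iff eA hx).1 hh))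
  have uB' : PvfUp le S B' := fun x hx y hy hxy hh => (PvfEv.mem_iff eB hy).2 (uB x hx y hy hxy ((PvfEv.mem_iff eB hx).1 hh))
  have h1 := h.ineq _ _ (pvf_test_indicator mA uA') (pvf_test_indicator mB uB')
  have e : ∀ x, A'.indicator (1 : X → ℝ) x * B'.indicator (1 : X → ℝ) x = (A' ∩ B').indicator (1 : X → ℝ) x := by
    intro x
    by_cases ha : x ∈ A' <;> by_cases hb : x ∈ B' <;> simp [ha, hb]
  simp_rw [e] at h1
  rw [integral_indicator_one mA, integral_indicator_one mB, integral_indicator_one (mA.inter mB), sub_zero] at h1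
  rw [← ENNReal.toReal_le_toReal (ENNReal.mul_ne_top (measure_ne_top _ _) (measure_ne_top _ _)) (measure_ne_top _ _), ENNReal.toReal_mul]
  exact h1

/-- two decreasing events -/
theorem PvfDef.down_down [IsProbabilityMeasure P] (h : PvfDef P le S 0) {A B : Set X} (hA : PvfEv S A) (hB : PvfEv S B)
    (dA : PvfDown le S A) (dB : PvfDown le S B) : P A * P B ≤ P (A ∩ B) := by
  obtain ⟨A', mA, eA⟩ := hA
  obtain ⟨B', mB, eB⟩ := hB
  have eAB : (A' ∩ B') ∩ S = (A ∩ B) ∩ S := by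
    ext x
    simp only [mem_inter_iff]
    constructor
    · rintro ⟨⟨a, b⟩, c⟩; exact ⟨⟨(PvfEv.mem_iff eA c).1 a, (PvfEv.mem_iff eB c).1 b⟩, c⟩
    · rintro ⟨⟨a, b⟩, c⟩; exact ⟨⟨(PvfEv.mem_iff eA c).2 a, (PvfEv.mem_iff eB c).2 b⟩, c⟩
  rw [← h.measure_congr eA, ← h.measure_congr eB, ← h.measure_congr eAB]
  have dA' : PvfDown le S A' := fun x hx y hy hxy hh => (PvfEv.mem_iff eA hx).2 (dA x hx y hy hxy ((PvfEv.mem_iff eA hy).1 hh))
  have dB' : PvfDown le S B' := fun x hx y hy hxy hh => (PvfEv.mem_iff eB hx).2 (dB x hx y hy hxy ((PvfEv.mem_iff eB hy).1 hh))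
  have bd : ∀ (D : Set X) (x : X), |D.indicator (1 : X → ℝ) x| ≤ 1 := by
    intro D x; by_cases hx : x ∈ D <;> simp [hx]
  have an : ∀ D : Set X, PvfDown le S D → ∀ x ∈ S, ∀ y ∈ S, le x y → D.indicator (1 : X → ℝ) y ≤ D.indicator (1 : X → ℝ) x := by
    intro D hD x hx y hy hxy
    by_cases hyD : y ∈ D
    · simp [hyD, hD x hx y hy hxy hyD]
    · rw [Set.indicator_of_notMem hyD]; exact Set.indicator_nonneg (fun _ _ => zero_le_one) x
  have h1 := h.bdd_anti (f := A'.indicator 1) (g := B'.indicator 1) (C := 1) (measurable_one.indicator mA) (measurable_one.indicator mB)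
    (bd A') (bd B') (an A' dA') (an B' dB')
  have e : ∀ x, A'.indicator (1 : X → ℝ) x * B'.indicator (1 : X → ℝ) x = (A' ∩ B').indicator (1 : X → ℝ) x := by
    intro x
    by_cases ha : x ∈ A' <;> by_cases hb : x ∈ B' <;> simp [ha, hb]
  simp_rw [e] at h1
  rw [integral_indicator_one mA, integral_indicator_one mB, integral_indicator_one (mA.inter mB)] at h1
  rw [← ENNReal.toReal_le_toReal (ENNReal.mul_ne_top (measure_ne_top _ _) (measure_ne_top _ _)) (measure_ne_top _ _), ENNReal.toReal_mul]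
  exact h1

/-- an increasing and a decreasing event are negatively correlated -/
theorem PvfDef.up_down [IsProbabilityMeasure P] (h : PvfDef P le S 0) {A B : Set X} (hA : PvfEv S A) (hB : PvfEv S B)
    (uA : PvfUp le S A) (dB : PvfDown le S B) : P (A ∩ B) ≤ P A * P B := by
  obtain ⟨A', mA, eA⟩ := hA
  obtain ⟨B', mB, eB⟩ := hB
  have eAB : (A' ∩ B') ∩ S = (A ∩ B) ∩ S := by
    ext x
    simp only [mem_inter_iff]
    constructor
    · rintro ⟨⟨a, b⟩, c⟩; exact ⟨⟨(PvfEv.mem_iff eA c).1 a, (PvfEv.mem_iff eB c).1 b⟩, c⟩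
    · rintro ⟨⟨a, b⟩, c⟩; exact ⟨⟨(PvfEv.mem_iff eA c).2 a, (PvfEv.mem_iff eB c).2 b⟩, c⟩
  rw [← h.measure_congr eA, ← h.measure_congr eB, ← h.measure_congr eAB]
  have uA' : PvfUp le S A' := fun x hx y hy hxy hh => (PvfEv.mem_iff eA hy).2 (uA x hx y hy hxy ((PvfEv.mem_iff eA hx).1 hh))
  have dB' : PvfDown le S B' := fun x hx y hy hxy hh => (PvfEv.mem_iff eB hx).2 (dB x hx y hy hxy ((PvfEv.mem_iff eB hy).1 hh))
  have bd : ∀ (D : Set X) (x : X), |D.indicator (1 : X → ℝ) x| ≤ 1 := by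
    intro D x; by_cases hx : x ∈ D <;> simp [hx]
  have an : ∀ D : Set X, PvfDown le S D → ∀ x ∈ S, ∀ y ∈ S, le x y → D.indicator (1 : X → ℝ) y ≤ D.indicator (1 : X → ℝ) x := by
    intro D hD x hx y hy hxy
    by_cases hyD : y ∈ D
    · simp [hyD, hD x hx y hy hxy hyD]
    · rw [Set.indicator_of_notMem hyD]; exact Set.indicator_nonneg (fun _ _ => zero_le_one) x
  have h1 := h.bdd_mixed (f := A'.indicator 1) (g := B'.indicator 1) (C := 1) (measurable_one.indicator mA) (measurable_one.indicator mB)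
    (bd A') (bd B') (pvf_test_indicator mA uA').mono (an B' dB')
  have e : ∀ x, A'.indicator (1 : X → ℝ) x * B'.indicator (1 : X → ℝ) x = (A' ∩ B').indicator (1 : X → ℝ) x := by
    intro x
    by_cases ha : x ∈ A' <;> by_cases hb : x ∈ B' <;> simp [ha, hb]
  simp_rw [e] at h1
  rw [integral_indicator_one mA, integral_indicator_one mB, integral_indicator_one (mA.inter mB)] at h1
  rw [← ENNReal.toReal_le_toReal (measure_ne_top _ _) (ENNReal.mul_ne_top (measure_ne_top _ _) (measure_ne_top _ _)), ENNReal.toReal_mul]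
  exact h1

/-- finite families of increasing events -/
theorem PvfDef.up_finset [IsProbabilityMeasure P] (h : PvfDef P le S 0) {ι : Type*} (s : Finset ι) (A : ι → Set X)
    (hA : ∀ i ∈ s, PvfEv S (A i)) (uA : ∀ i ∈ s, PvfUp le S (A i)) : ∏ i ∈ s, P (A i) ≤ P (⋂ i ∈ s, A i) := by
  classical
  have key : ∀ t : Finset ι, t ⊆ s → PvfEv S (⋂ i ∈ t, A i) ∧ PvfUp le S (⋂ i ∈ t, A i) ∧ ∏ i ∈ t, P (A i) ≤ P (⋂ i ∈ t, A i) := by
    intro t
    induction t using Finset.induction_on with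
    | empty => intro _; simp [PvfEv.univ, PvfUp.univ]
    | insert i t hi ih =>
      intro hts
      obtain ⟨h1, h2, h3⟩ := ih fun j hj => hts (Finset.mem_insert_of_mem hj)
      have hi' := hts (Finset.mem_insert_self i t)
      rw [Finset.set_biInter_insert, Finset.prod_insert hi]
      exact ⟨(hA i hi').inter h1, (uA i hi').inter h2, (mul_le_mul_right h3 _).trans (h.up_up (hA i hi') h1 (uA i hi') h2)⟩
  exact (key s subset_rfl).2.2

/-- lists of increasing events -/
theorem PvfDef.up_list [IsProbabilityMeasure P] (h : PvfDef P le S 0) {ι : Type*} (l : List ι) (A : ι → Set X)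
    (hA : ∀ i ∈ l, PvfEv S (A i)) (uA : ∀ i ∈ l, PvfUp le S (A i)) : (l.map fun i => P (A i)).prod ≤ P {x | ∀ i ∈ l, x ∈ A i} := by
  have key : PvfEv S {x | ∀ i ∈ l, x ∈ A i} ∧ PvfUp le S {x | ∀ i ∈ l, x ∈ A i} ∧ (l.map fun i => P (A i)).prod ≤ P {x | ∀ i ∈ l, x ∈ A i} := by
    induction l with
    | nil =>
      have : {x : X | ∀ i ∈ ([] : List ι), x ∈ A i} = Set.univ := by ext x; simp
      rw [this]; simp [PvfEv.univ, PvfUp.univ]
    | cons i l ih =>
      obtain ⟨h1, h2, h3⟩ := ih (fun j hj => hA j (List.mem_cons_of_mem _ hj)) fun j hj => uA j (List.mem_cons_of_mem _ hj)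
      have e : {x : X | ∀ j ∈ i :: l, x ∈ A j} = A i ∩ {x | ∀ j ∈ l, x ∈ A j} := by
        ext x; simp
      have hi := List.mem_cons_self (a := i) (l := l)
      rw [e, List.map_cons, List.prod_cons]
      exact ⟨(hA i hi).inter h1, (uA i hi).inter h2, (mul_le_mul_right h3 _).trans (h.up_up (hA i hi) h1 (uA i hi) h2)⟩
  exact key.2.2

end exports

/-! ## 7. the frozen model (vocabulary agreed with 262, RSW-II) -/

section pv

open Claims.C0465

/-- black sites -/
def cfBk (η : Conf PvPt) : Set ℂ := {v | (v, true) ∈ η.pts}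

/-- white sites -/
def cfWh (η : Conf PvPt) : Set ℂ := {v | (v, false) ∈ η.pts}

/-- more black sites, fewer white sites -/
def PvLe (η η' : Conf PvPt) : Prop := cfBk η ⊆ cfBk η' ∧ cfWh η' ⊆ cfWh η

/-- the black points of `ℂ × Bool` -/
def pvBlk : Set PvPt := {p | p.2 = true}

theorem measurableSet_pvBlk : MeasurableSet pvBlk := measurable_snd (measurableSet_singleton true)

theorem pvLe_iff_cle (η η' : Conf PvPt) : PvLe η η' ↔ Conf.cle pvBlk η η' := by
  constructor
  · rintro ⟨h1, h2⟩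
    refine ⟨?_, ?_⟩
    · rintro ⟨v, c⟩ ⟨hp, hc⟩
      have hc' : c = true := hc
      subst hc'
      exact h1 hp
    · rintro ⟨v, c⟩ ⟨hp, hc⟩
      have hc' : c = false := by
        cases c
        · rfl
        · exact (hc rfl).elim
      subst hc'
      exact h2 hp
  · rintro ⟨h1, h2⟩
    exact ⟨fun v hv => h1 ⟨hv, rfl⟩, fun v hv => h2 ⟨hv, fun h => Bool.noConfusion h⟩⟩

theorem PvLe.refl (η : Conf PvPt) : PvLe η η := ⟨subset_rfl, subset_rfl⟩

theorem PvLe.trans {η ξ ζ : Conf PvPt} (h : PvLe η ξ) (h' : PvLe ξ ζ) : PvLe η ζ := ⟨h.1.trans h'.1, h'.2.trans h.2⟩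

/-- increasing events (on the locally finite configurations) -/
def PvInc (A : Set (Conf PvPt)) : Prop := ∀ η η', PvLF η → PvLF η' → PvLe η η' → η ∈ A → η' ∈ A

/-- decreasing events -/
def PvDec (A : Set (Conf PvPt)) : Prop := ∀ η η', PvLF η → PvLF η' → PvLe η η' → η' ∈ A → η ∈ A

theorem pvInc_iff (A : Set (Conf PvPt)) : PvInc A ↔ PvfUp (Conf.cle pvBlk) {η | PvLF η} A :=
  ⟨fun h x hx y hy hxy => h x y hx hy ((pvLe_iff_cle x y).2 hxy), fun h x y hx hy hxy => h x hx y hy ((pvLe_iff_cle x y).1 hxy)⟩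

theorem pvDec_iff (A : Set (Conf PvPt)) : PvDec A ↔ PvfDown (Conf.cle pvBlk) {η | PvLF η} A :=
  ⟨fun h x hx y hy hxy => h x y hx hy ((pvLe_iff_cle x y).2 hxy), fun h x y hx hy hxy => h x hx y hy ((pvLe_iff_cle x y).1 hxy)⟩

theorem PvInc.compl {A : Set (Conf PvPt)} (h : PvInc A) : PvDec Aᶜ := fun η η' a b c d e => d (h η η' a b c e)

theorem PvDec.compl {A : Set (Conf PvPt)} (h : PvDec A) : PvInc Aᶜ := fun η η' a b c d e => d (h η η' a b c e)

theorem PvInc.inter {A B : Set (Conf PvPt)} (hA : PvInc A) (hB : PvInc B) : PvInc (A ∩ B) :=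
  fun η η' a b c d => ⟨hA η η' a b c d.1, hB η η' a b c d.2⟩

theorem PvInc.union {A B : Set (Conf PvPt)} (hA : PvInc A) (hB : PvInc B) : PvInc (A ∪ B) :=
  fun η η' a b c d => d.imp (hA η η' a b c) (hB η η' a b c)

theorem PvDec.inter {A B : Set (Conf PvPt)} (hA : PvDec A) (hB : PvDec B) : PvDec (A ∩ B) :=
  fun η η' a b c d => ⟨hA η η' a b c d.1, hB η η' a b c d.2⟩

theorem PvDec.union {A B : Set (Conf PvPt)} (hA : PvDec A) (hB : PvDec B) : PvDec (A ∪ B) :=
  fun η η' a b c d => d.imp (hA η η' a b c) (hB η η' a b c)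

/-- the locally finite configurations are an admissible domain -/
theorem pvf_dom_LF : PvfDom {η : Conf PvPt | PvLF η} where
  sub η hη ξ hξ k := (hη k).subset (inter_subset_inter_left _ hξ)
  union η hη ξ hξ k := by
    have : (Conf.union η ξ).pts ∩ pvBox k = (η.pts ∩ pvBox k) ∪ (ξ.pts ∩ pvBox k) := by
      simp only [Conf.union]; rw [union_inter_distrib_right]
    rw [this]; exact (hη k).union (hξ k)

instance pvf_sigmaFinite_pvInt (ε : ℝ) : SigmaFinite (pvInt ε) := by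
  have : pvInt ε = (((ε⁻¹) ^ 2).toNNReal : ℝ≥0) • ((volume : Measure ℂ).prod pvCoin) := rfl
  rw [this]; infer_instance

/-- **annealed FKG for Poisson-Voronoi percolation**, functional form, defect `0` -/
theorem pv_fkg_def {ε : ℝ} {μ : Measure (Conf PvPt)} (h : IsPpp (pvInt ε) μ) : PvfDef μ (Conf.cle pvBlk) {η | PvLF η} 0 := by
  have e : μ = pvP ε := h.unique (pv_isPpp ε)
  exact pvf_fkg h measurableSet_pvBlk pvf_dom_LF (by rw [e]; exact pvcn_LF_ae ε)

/-- bounded measurable functions, increasing on the locally finite configurations -/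
theorem pv_fkg {ε : ℝ} {μ : Measure (Conf PvPt)} (h : IsPpp (pvInt ε) μ) {f g : Conf PvPt → ℝ} {C : ℝ} (hfm : Measurable f)
    (hgm : Measurable g) (hf : ∀ η, |f η| ≤ C) (hg : ∀ η, |g η| ≤ C) (mf : ∀ η η', PvLF η → PvLF η' → PvLe η η' → f η ≤ f η')
    (mg : ∀ η η', PvLF η → PvLF η' → PvLe η η' → g η ≤ g η') : (∫ η, f η ∂μ) * (∫ η, g η ∂μ) ≤ ∫ η, f η * g η ∂μ := by
  have := h.prob
  exact (pv_fkg_def h).bdd hfm hgm hf hg (fun x hx y hy hxy => mf x y hx hy ((pvLe_iff_cle x y).2 hxy))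
    fun x hx y hy hxy => mg x y hx hy ((pvLe_iff_cle x y).2 hxy)

/-- the contract of 262 -/
def PvFkgEv (μ : Measure (Conf PvPt)) : Prop :=
  ∀ A B : Set (Conf PvPt), MeasurableSet A → MeasurableSet B → PvInc A → PvInc B → μ A * μ B ≤ μ (A ∩ B)

theorem pv_fkg_ev {ε : ℝ} {μ : Measure (Conf PvPt)} (h : IsPpp (pvInt ε) μ) : PvFkgEv μ := by
  have := h.prob
  intro A B mA mB uA uB
  exact (pv_fkg_def h).up_up (PvfEv.of_meas mA) (PvfEv.of_meas mB) ((pvInc_iff A).1 uA) ((pvInc_iff B).1 uB)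

/-- events which are only measurable on the locally finite configurations -/
theorem pv_fkg_ev' {ε : ℝ} {μ : Measure (Conf PvPt)} (h : IsPpp (pvInt ε) μ) {A B : Set (Conf PvPt)} (mA : MeasurableSet (A ∩ {η | PvLF η}))
    (mB : MeasurableSet (B ∩ {η | PvLF η})) (uA : PvInc A) (uB : PvInc B) : μ A * μ B ≤ μ (A ∩ B) := by
  have := h.prob
  exact (pv_fkg_def h).up_up (PvfEv.of_inter mA) (PvfEv.of_inter mB) ((pvInc_iff A).1 uA) ((pvInc_iff B).1 uB)

theorem pv_fkg_dec {ε : ℝ} {μ : Measure (Conf PvPt)} (h : IsPpp (pvInt ε) μ) {A B : Set (Conf PvPt)} (mA : MeasurableSet (A ∩ {η | PvLF η}))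
    (mB : MeasurableSet (B ∩ {η | PvLF η})) (dA : PvDec A) (dB : PvDec B) : μ A * μ B ≤ μ (A ∩ B) := by
  have := h.prob
  exact (pv_fkg_def h).down_down (PvfEv.of_inter mA) (PvfEv.of_inter mB) ((pvDec_iff A).1 dA) ((pvDec_iff B).1 dB)

theorem pv_fkg_mixed {ε : ℝ} {μ : Measure (Conf PvPt)} (h : IsPpp (pvInt ε) μ) {A B : Set (Conf PvPt)} (mA : MeasurableSet (A ∩ {η | PvLF η}))
    (mB : MeasurableSet (B ∩ {η | PvLF η})) (uA : PvInc A) (dB : PvDec B) : μ (A ∩ B) ≤ μ A * μ B := by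
  have := h.prob
  exact (pv_fkg_def h).up_down (PvfEv.of_inter mA) (PvfEv.of_inter mB) ((pvInc_iff A).1 uA) ((pvDec_iff B).1 dB)

theorem pv_fkg_finset {ε : ℝ} {μ : Measure (Conf PvPt)} (h : IsPpp (pvInt ε) μ) {ι : Type*} (s : Finset ι) (A : ι → Set (Conf PvPt))
    (mA : ∀ i ∈ s, MeasurableSet (A i ∩ {η | PvLF η})) (uA : ∀ i ∈ s, PvInc (A i)) : ∏ i ∈ s, μ (A i) ≤ μ (⋂ i ∈ s, A i) := by
  have := h.prob
  exact (pv_fkg_def h).up_finset s A (fun i hi => PvfEv.of_inter (mA i hi)) fun i hi => (pvInc_iff _).1 (uA i hi)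

theorem pv_fkg_list {ε : ℝ} {μ : Measure (Conf PvPt)} (h : IsPpp (pvInt ε) μ) {ι : Type*} (l : List ι) (A : ι → Set (Conf PvPt))
    (mA : ∀ i ∈ l, MeasurableSet (A i ∩ {η | PvLF η})) (uA : ∀ i ∈ l, PvInc (A i)) :
    (l.map fun i => μ (A i)).prod ≤ μ {η | ∀ i ∈ l, η ∈ A i} := by
  have := h.prob
  exact (pv_fkg_def h).up_list l A (fun i hi => PvfEv.of_inter (mA i hi)) fun i hi => (pvInc_iff _).1 (uA i hi)

/-- the same on the frozen sample space: events `{ω | pvConf ω ∈ A}` with a measurable pull-back -/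
theorem pv_fkg_law (ε : ℝ) {A B : Set (Conf PvPt)} (mA : MeasurableSet (pvConf ⁻¹' A)) (mB : MeasurableSet (pvConf ⁻¹' B))
    (uA : PvInc A) (uB : PvInc B) : pvLaw ε (pvConf ⁻¹' A) * pvLaw ε (pvConf ⁻¹' B) ≤ pvLaw ε (pvConf ⁻¹' (A ∩ B)) := by
  have mAB : MeasurableSet (pvConf ⁻¹' (A ∩ B)) := by rw [preimage_inter]; exact mA.inter mB
  rw [← pvcn_bridge_apply ε mA, ← pvcn_bridge_apply ε mB, ← pvcn_bridge_apply ε mAB]
  exact pv_fkg_ev' (pv_isPpp ε) (pvcn_bridge mA) (pvcn_bridge mB) uA uB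

theorem pv_fkg_law_list (ε : ℝ) {ι : Type*} (l : List ι) (A : ι → Set (Conf PvPt)) (mA : ∀ i ∈ l, MeasurableSet (pvConf ⁻¹' A i))
    (uA : ∀ i ∈ l, PvInc (A i)) : (l.map fun i => pvLaw ε (pvConf ⁻¹' A i)).prod ≤ pvLaw ε {ω | ∀ i ∈ l, pvConf ω ∈ A i} := by
  have mAll : MeasurableSet (pvConf ⁻¹' {η | ∀ i ∈ l, η ∈ A i}) := by
    have : pvConf ⁻¹' {η | ∀ i ∈ l, η ∈ A i} = ⋂ i ∈ {i | i ∈ l}, pvConf ⁻¹' A i := by
      ext ω; simp
    rw [this]
    exact MeasurableSet.biInter (List.finite_toSet l).countable mA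
  have h1 := pv_fkg_list (pv_isPpp ε) l A (fun i hi => pvcn_bridge (mA i hi)) uA
  rw [pvcn_bridge_apply ε mAll] at h1
  refine le_trans (le_of_eq ?_) h1
  congr 1
  refine List.map_congr_left fun i hi => ?_
  rw [pvcn_bridge_apply ε (mA i hi)]

end pv

section pvfm

open Claims.C0465

/-! ## 7. the monotonicity bridge      (helper257, deputy of 159; prefix `pvfm_`)

`cfBlack η` (union of the closed black cells) is NOT monotone in `η` for arbitrary point sets, but on the locally finite configurations it equals the manifestly monotone set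
`{z | ∃ v black, ∀ w white, ‖z - v‖ ≤ ‖z - w‖}` (`pvfm_black_iff`).   Hence every monotone property of the black region is `PvInc`, of the white region `PvDec`, and FKG holds for such events on the frozen sample space. -/

/-- a locally finite configuration has finitely many points in every ball -/
theorem pvfm_lf_ball {η : Conf PvPt} (h : PvLF η) (z : ℂ) (R : ℝ) : (η.pts ∩ {p | ‖z - p.1‖ ≤ R}).Finite := by
  have hfin : (⋃ k ∈ (Finset.Icc ⌊z.re - R⌋ ⌊z.re + R⌋ ×ˢ Finset.Icc ⌊z.im - R⌋ ⌊z.im + R⌋ : Finset (ℤ × ℤ)), η.pts ∩ pvBox k).Finite :=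
    Set.Finite.biUnion (Finset.finite_toSet _) fun k _ => h k
  refine hfin.subset ?_
  rintro p ⟨hp, hpR⟩
  simp only [mem_ofPred_eq] at hpR
  have h1 : |(z - p.1).re| ≤ R := (Complex.abs_re_le_norm _).trans hpR
  have h2 : |(z - p.1).im| ≤ R := (Complex.abs_im_le_norm _).trans hpR
  rw [Complex.sub_re, abs_le] at h1
  rw [Complex.sub_im, abs_le] at h2
  refine mem_biUnion (x := (⌊p.1.re⌋, ⌊p.1.im⌋)) ?_ ⟨hp, ?_⟩
  · simp only [Finset.coe_product, Finset.coe_Icc, mem_prod, mem_Icc]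
    exact ⟨⟨Int.floor_le_floor (by linarith), Int.floor_le_floor (by linarith)⟩, Int.floor_le_floor (by linarith), Int.floor_le_floor (by linarith)⟩
  · exact ⟨⟨Int.floor_le _, Int.lt_floor_add_one _⟩, Int.floor_le _, Int.lt_floor_add_one _⟩

/-- a nonempty colour class of a locally finite configuration has a point nearest to `z` -/
theorem pvfm_nearest {η : Conf PvPt} (h : PvLF η) (c : Bool) (z v : ℂ) (hv : (v, c) ∈ η.pts) :
    ∃ v', (v', c) ∈ η.pts ∧ ‖z - v'‖ ≤ ‖z - v‖ ∧ ∀ u, (u, c) ∈ η.pts → ‖z - v'‖ ≤ ‖z - u‖ := by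
  have hf : (η.pts ∩ {p | ‖z - p.1‖ ≤ ‖z - v‖} ∩ {p | p.2 = c}).Finite := (pvfm_lf_ball h z _).subset inter_subset_left
  obtain ⟨p, hp, hmin⟩ := Set.exists_min_image _ (fun p : PvPt => ‖z - p.1‖) hf ⟨(v, c), ⟨hv, le_refl ‖z - v‖⟩, rfl⟩
  obtain ⟨v', c'⟩ := p
  obtain ⟨⟨hp1, hp2⟩, hp3⟩ := hp
  simp only [mem_ofPred_eq] at hp2 hp3
  subst hp3
  refine ⟨v', hp1, hp2, fun u hu => ?_⟩
  by_cases hu' : ‖z - u‖ ≤ ‖z - v‖
  · exact hmin (u, c') ⟨⟨hu, hu'⟩, rfl⟩
  · exact hp2.trans (not_le.1 hu').le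

/-- one direction needs no local finiteness -/
theorem pvfm_black_imp {η : Conf PvPt} {z : ℂ} (hz : z ∈ cfBlack η) : ∃ v ∈ cfBk η, ∀ w ∈ cfWh η, ‖z - v‖ ≤ ‖z - w‖ := by
  obtain ⟨⟨v, c⟩, hp, hc, hz⟩ := hz
  simp only at hc hz
  subst hc
  exact ⟨v, hp, fun w hw => hz (w, false) hw⟩

/-- **the monotone form of the black region** -/
theorem pvfm_black_iff {η : Conf PvPt} (h : PvLF η) (z : ℂ) : z ∈ cfBlack η ↔ ∃ v ∈ cfBk η, ∀ w ∈ cfWh η, ‖z - v‖ ≤ ‖z - w‖ := by
  refine ⟨pvfm_black_imp, ?_⟩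
  rintro ⟨v, hv, hw⟩
  obtain ⟨v', hv', hle, hmin⟩ := pvfm_nearest h true z v hv
  refine ⟨(v', true), hv', rfl, ?_⟩
  rintro ⟨u, c⟩ hu
  cases c
  · exact hle.trans (hw u hu)
  · exact hmin u hu

/-- the black region increases (only the LARGER configuration has to be locally finite) -/
theorem pvfm_black_mono {η ξ : Conf PvPt} (hξ : PvLF ξ) (h : PvLe η ξ) : cfBlack η ⊆ cfBlack ξ := by
  intro z hz
  obtain ⟨v, hv, hw⟩ := pvfm_black_imp hz
  exact (pvfm_black_iff hξ z).2 ⟨v, h.1 hv, fun w hw' => hw w (h.2 hw')⟩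

/-- the union of the closed white cells, as a set-builder (no new definition) -/
theorem pvfm_white_imp {η : Conf PvPt} {z : ℂ} (hz : ∃ p ∈ η.pts, p.2 = false ∧ z ∈ cfCell η p.1) :
    ∃ w ∈ cfWh η, ∀ v ∈ cfBk η, ‖z - w‖ ≤ ‖z - v‖ := by
  obtain ⟨⟨v, c⟩, hp, hc, hz⟩ := hz
  simp only at hc hz
  subst hc
  exact ⟨v, hp, fun w hw => hz (w, true) hw⟩

theorem pvfm_white_iff {η : Conf PvPt} (h : PvLF η) (z : ℂ) :
    (∃ p ∈ η.pts, p.2 = false ∧ z ∈ cfCell η p.1) ↔ ∃ w ∈ cfWh η, ∀ v ∈ cfBk η, ‖z - w‖ ≤ ‖z - v‖ := by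
  refine ⟨pvfm_white_imp, ?_⟩
  rintro ⟨v, hv, hw⟩
  obtain ⟨v', hv', hle, hmin⟩ := pvfm_nearest h false z v hv
  refine ⟨(v', false), hv', rfl, ?_⟩
  rintro ⟨u, c⟩ hu
  cases c
  · exact hmin u hu
  · exact hle.trans (hw u hu)

/-- the white region decreases (only the SMALLER configuration has to be locally finite) -/
theorem pvfm_white_anti {η ξ : Conf PvPt} (hη : PvLF η) (h : PvLe η ξ) :
    {z | ∃ p ∈ ξ.pts, p.2 = false ∧ z ∈ cfCell ξ p.1} ⊆ {z | ∃ p ∈ η.pts, p.2 = false ∧ z ∈ cfCell η p.1} := by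
  intro z hz
  obtain ⟨w, hw, hv⟩ := pvfm_white_imp hz
  exact (pvfm_white_iff hη z).2 ⟨w, h.2 hw, fun v hv' => hv v (h.1 hv')⟩

/-- the white region is the black region of the flipped configuration -/
theorem pvfm_black_flip (η : Conf PvPt) : cfBlack (cfFlip η) = {z | ∃ p ∈ η.pts, p.2 = false ∧ z ∈ cfCell η p.1} := by
  have hc : ∀ v, cfCell (cfFlip η) v = cfCell η v := by
    intro v
    ext z
    simp only [cfCell, cfFlip, Conf.image, mem_ofPred_eq, mem_image]
    constructor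
    · intro h p hp
      exact h (Prod.map id not p) ⟨p, hp, rfl⟩
    · rintro h _ ⟨p, hp, rfl⟩
      exact h p hp
  ext z
  simp only [cfBlack, mem_ofPred_eq, hc]
  constructor
  · rintro ⟨_, ⟨p, hp, rfl⟩, hcol, hz⟩
    refine ⟨p, hp, ?_, hz⟩
    simpa using hcol
  · rintro ⟨p, hp, hcol, hz⟩
    exact ⟨Prod.map id not p, ⟨p, hp, rfl⟩, by simp [hcol], hz⟩

/-- every monotone property of the black region is an increasing event -/
theorem pvfm_inc_black {Φ : Set ℂ → Prop} (hΦ : ∀ s t, s ⊆ t → Φ s → Φ t) : PvInc {η | Φ (cfBlack η)} :=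
  fun _ _ _ hξ hle h => hΦ _ _ (pvfm_black_mono hξ hle) h

/-- every antitone property of the black region is a decreasing event -/
theorem pvfm_dec_black {Φ : Set ℂ → Prop} (hΦ : ∀ s t, s ⊆ t → Φ t → Φ s) : PvDec {η | Φ (cfBlack η)} :=
  fun _ _ _ hξ hle h => hΦ _ _ (pvfm_black_mono hξ hle) h

/-- every monotone property of the white region is a decreasing event -/
theorem pvfm_dec_white {Φ : Set ℂ → Prop} (hΦ : ∀ s t, s ⊆ t → Φ s → Φ t) :
    PvDec {η | Φ {z | ∃ p ∈ η.pts, p.2 = false ∧ z ∈ cfCell η p.1}} :=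
  fun _ _ hη _ hle h => hΦ _ _ (pvfm_white_anti hη hle) h

/-- every antitone property of the white region is an increasing event -/
theorem pvfm_inc_white {Φ : Set ℂ → Prop} (hΦ : ∀ s t, s ⊆ t → Φ t → Φ s) :
    PvInc {η | Φ {z | ∃ p ∈ η.pts, p.2 = false ∧ z ∈ cfCell η p.1}} :=
  fun _ _ hη _ hle h => hΦ _ _ (pvfm_white_anti hη hle) h

/-- **FKG on the frozen sample space** for two monotone properties of `pvBlack ω` -/
theorem pvfm_fkg_black (ε : ℝ) {Φ Ψ : Set ℂ → Prop} (hΦ : ∀ s t, s ⊆ t → Φ s → Φ t) (hΨ : ∀ s t, s ⊆ t → Ψ s → Ψ t)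
    (mΦ : MeasurableSet {ω | Φ (pvBlack ω)}) (mΨ : MeasurableSet {ω | Ψ (pvBlack ω)}) :
    pvLaw ε {ω | Φ (pvBlack ω)} * pvLaw ε {ω | Ψ (pvBlack ω)} ≤ pvLaw ε {ω | Φ (pvBlack ω) ∧ Ψ (pvBlack ω)} := by
  have e : ∀ X : Set ℂ → Prop, {ω | X (pvBlack ω)} = pvConf ⁻¹' {η | X (cfBlack η)} := by
    intro X; ext ω; simp only [mem_ofPred_eq, mem_preimage, pvBlack_eq]
  have h := pv_fkg_law ε (A := {η | Φ (cfBlack η)}) (B := {η | Ψ (cfBlack η)}) (by rw [← e]; exact mΦ) (by rw [← e]; exact mΨ)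
    (pvfm_inc_black hΦ) (pvfm_inc_black hΨ)
  rw [← e, ← e] at h
  refine h.trans (le_of_eq ?_)
  congr 1
  ext ω
  simp only [mem_preimage, mem_inter_iff, mem_ofPred_eq, pvBlack_eq]

/-- the list version -/
theorem pvfm_fkg_black_list (ε : ℝ) {ι : Type*} (l : List ι) (Φ : ι → Set ℂ → Prop) (hΦ : ∀ i ∈ l, ∀ s t, s ⊆ t → Φ i s → Φ i t)
    (mΦ : ∀ i ∈ l, MeasurableSet {ω | Φ i (pvBlack ω)}) :
    (l.map fun i => pvLaw ε {ω | Φ i (pvBlack ω)}).prod ≤ pvLaw ε {ω | ∀ i ∈ l, Φ i (pvBlack ω)} := by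
  have e : ∀ X : Set ℂ → Prop, {ω | X (pvBlack ω)} = pvConf ⁻¹' {η | X (cfBlack η)} := by
    intro X; ext ω; simp only [mem_ofPred_eq, mem_preimage, pvBlack_eq]
  have h := pv_fkg_law_list ε l (fun i => {η | Φ i (cfBlack η)}) (fun i hi => by rw [← e]; exact mΦ i hi)
    (fun i hi => pvfm_inc_black (hΦ i hi))
  simp only [← e] at h
  refine h.trans (le_of_eq ?_)
  congr 1
  ext ω
  simp only [mem_ofPred_eq, pvBlack_eq]

end pvfm

end Claimed.Agent.R289
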