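import Claimed.Agent.R289.Fkg

/-!
# Row 289 (S0537), box FKG, file FkgQ : QUENCHED HARRIS = POSITIVE ASSOCIATION OF COUNTABLE PRODUCT MEASURES      (owner helper103; head helper159; prefix `pvfq_` / `pvfq` / `Pvfq`)

On the abstract defect calculus of 159 (`PvfTest`, `PvfDef`, `PvfDef.prod`, `PvfDef.map`; R289/Fkg.lean).
* sec. 0  `pvfq_total` : a probability measure is positively associated for every TOTAL relation (one factor; `∫∫ (f x - f y)(g x - g y) ≥ 0`);
          `pvfq_pull` : pull-back of `PvfDef` along a projection with a monotone section;   `pvfq_limit` : passage to the limit in `L¹`.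
* sec. 1  `pvfqMix s (x, y)` = `x` on `s`, `y` off `s`;   `pvfq_split` : `(P ⊗ P).map (pvfqMix s) = P` for `P = Measure.infinitePi μ`, every set `s` of indices.
* sec. 2  `pvfq_finite` : `PvfDef P (pvfqLe le s) univ 0` for a FINITE set `s` (the relation looks at the coordinates of `s` only, so its tests are the monotone functions of these coordinates);
          induction on `s`, NO dependent product: `P = (P ⊗ P).map (pvfqMix s)`, `PvfDef.prod`, `PvfDef.map`.
* sec. 3  `pvfqCE P s f` = resampling off `s` = a version of `E[f | coordinates of s]` (`pvfqCE_condExp`).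
* sec. 4  Levy's upward theorem along an exhaustion of the index set (`pvfqCE_tendsto`);   **`pvfq_pi`** : countable products of positively associated factors.
* sec. 5  ABSTRACT exports, valid for every `PvfDef P le S 0` (annealed `pv_fkg_def` of 159 AND quenched): `pvfq_flip` (reversed relation), `pvfq_down_finset`, `pvfq_down_list`, `pvfq_measure_compl`,
          `pvfq_union_finset` (`∏ (1 - P (A i)) ≤ 1 - P (⋃ A i)`), **`pvfq_sqrt_trick`**, `pvfq_sqrt_trick_eq` (square-root trick).
* sec. 6  exports for products: `pvfq_pi_total` (total relations: order on some coordinates, reversed order on others), `pvfq_pi_le` (linear orders), `pvfq_cond` (conditional Harris given the coordinates of any set, at every point),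
          **`pvfq_harris`** (`ι → Bool`, any probability measures on `Bool`), events (`pvfq_up_up`, `pvfq_down_down`, `pvfq_up_down`, `pvfq_up_finset`, `pvfq_up_list`, `pvfq_sqrt_bool`; `IsUpperSet` / `IsLowerSet`),
          functions (`pvfq_bdd`, `pvfq_bdd_anti`, `pvfq_bdd_mixed`; `Monotone` / `Antitone`), `pvfq_coin` (fair coins `pvCoin` indexed by `(ℤ × ℤ) × ℕ` = the colours of the frozen model).      0 sorry.
-/

set_option autoImplicit false
set_option linter.unusedSectionVars false
set_option linter.unusedVariables false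

namespace Claimed.Agent.R289

open MeasureTheory ProbabilityTheory Set Filter Topology
open scoped ENNReal NNReal

/-! ## 0. additions to the abstract calculus -/

section abs

variable {X Y : Type*} [MeasurableSpace X] [MeasurableSpace Y]

/-- a weaker relation has more tests -/
theorem pvfq_test_rel {le le' : X → X → Prop} {S : Set X} {f : X → ℝ} (hf : PvfTest le S f) (h : ∀ x y, le' x y → le x y) : PvfTest le' S f :=
  ⟨hf.meas, hf.nonneg, hf.le_one, fun x hx y hy hxy => hf.mono x hx y hy (h x y hxy)⟩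

/-- a stronger relation is easier -/
theorem pvfq_def_rel {P : Measure X} {le le' : X → X → Prop} {S : Set X} {d : ℝ} (hP : PvfDef P le S d) (h : ∀ x y, le x y → le' x y) : PvfDef P le' S d :=
  ⟨hP.ae, fun f g hf hg => hP.ineq f g (pvfq_test_rel hf h) (pvfq_test_rel hg h)⟩

/-- **one factor**: every probability measure is positively associated for a TOTAL relation -/
theorem pvfq_total {P : Measure X} [IsProbabilityMeasure P] {le : X → X → Prop} (ht : ∀ x y, le x y ∨ le y x) : PvfDef P le univ 0 := by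
  refine ⟨ae_of_all _ fun _ => mem_univ _, fun f g hf hg => ?_⟩
  have hfi := hf.integrable P
  have hgi := hg.integrable P
  have hfg := (hf.mul hg).integrable P
  have key : 0 ≤ ∫ x, ∫ y, (f x - f y) * (g x - g y) ∂P ∂P := by
    refine integral_nonneg fun x => integral_nonneg fun y => ?_
    rcases ht x y with h | h
    · exact mul_nonneg_of_nonpos_of_nonpos (sub_nonpos.2 (hf.mono x (mem_univ _) y (mem_univ _) h)) (sub_nonpos.2 (hg.mono x (mem_univ _) y (mem_univ _) h))
    · exact mul_nonneg (sub_nonneg.2 (hf.mono y (mem_univ _) x (mem_univ _) h)) (sub_nonneg.2 (hg.mono y (mem_univ _) x (mem_univ _) h))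
  have e : ∀ x, ∫ y, (f x - f y) * (g x - g y) ∂P = f x * g x - f x * (∫ y, g y ∂P) - g x * (∫ y, f y ∂P) + ∫ y, f y * g y ∂P := by
    intro x
    have e1 : (fun y => (f x - f y) * (g x - g y)) = fun y => f x * g x - f x * g y - g x * f y + f y * g y := by funext y; ring
    have i1 : Integrable (fun _ : X => f x * g x) P := integrable_const _
    have i2 : Integrable (fun y => f x * g y) P := hgi.const_mul _
    have i3 : Integrable (fun y => g x * f y) P := hfi.const_mul _
    have i12 : Integrable (fun y => f x * g x - f x * g y) P := i1.sub i2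
    have i123 : Integrable (fun y => f x * g x - f x * g y - g x * f y) P := i12.sub i3
    rw [e1, integral_add i123 hfg, integral_sub i12 i3, integral_sub i1 i2]
    simp [integral_const_mul]
  simp_rw [e] at key
  have j1 : Integrable (fun x => f x * (∫ y, g y ∂P)) P := hfi.mul_const _
  have j2 : Integrable (fun x => g x * (∫ y, f y ∂P)) P := hgi.mul_const _
  have j3 : Integrable (fun _ : X => ∫ y, f y * g y ∂P) P := integrable_const _
  have j01 : Integrable (fun x => f x * g x - f x * (∫ y, g y ∂P)) P := hfg.sub j1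
  have j012 : Integrable (fun x => f x * g x - f x * (∫ y, g y ∂P) - g x * (∫ y, f y ∂P)) P := j01.sub j2
  rw [integral_add j012 j3, integral_sub j01 j2, integral_sub hfg j1, integral_mul_const, integral_mul_const] at key
  simp only [integral_const, probReal_univ, one_smul] at key
  nlinarith

/-- **pull-back** along a projection `φ` with a monotone section `ψ` such that `x` and `ψ (φ x)` are equivalent for the relation -/
theorem pvfq_pull {P : Measure X} {lX : X → X → Prop} {lY : Y → Y → Prop} {d : ℝ} {φ : X → Y} {ψ : Y → X} (hφ : Measurable φ) (hψ : Measurable ψ)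
    (h : PvfDef (P.map φ) lY univ d) (hm : ∀ a b, lY a b → lX (ψ a) (ψ b)) (h1 : ∀ x, lX x (ψ (φ x))) (h2 : ∀ x, lX (ψ (φ x)) x) :
    PvfDef P lX univ d := by
  refine ⟨ae_of_all _ fun _ => mem_univ _, fun f g hf hg => ?_⟩
  have hf' : PvfTest lY univ fun y => f (ψ y) := hf.comp hψ (fun _ _ => mem_univ _) fun a _ b _ hab => hm a b hab
  have hg' : PvfTest lY univ fun y => g (ψ y) := hg.comp hψ (fun _ _ => mem_univ _) fun a _ b _ hab => hm a b hab
  have ef : ∀ x, f (ψ (φ x)) = f x := fun x =>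
    le_antisymm (hf.mono _ (mem_univ _) _ (mem_univ _) (h2 x)) (hf.mono _ (mem_univ _) _ (mem_univ _) (h1 x))
  have eg : ∀ x, g (ψ (φ x)) = g x := fun x =>
    le_antisymm (hg.mono _ (mem_univ _) _ (mem_univ _) (h2 x)) (hg.mono _ (mem_univ _) _ (mem_univ _) (h1 x))
  have key := h.ineq _ _ hf' hg'
  rw [integral_map hφ.aemeasurable hf'.meas.aestronglyMeasurable, integral_map hφ.aemeasurable hg'.meas.aestronglyMeasurable,
    integral_map hφ.aemeasurable (hf'.mul hg').meas.aestronglyMeasurable] at key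
  simp_rw [ef, eg] at key
  exact key

/-- **passage to the limit**: `F n → f`, `G n → g` in `L¹`, all `[0,1]`-valued -/
theorem pvfq_limit {P : Measure X} [IsProbabilityMeasure P] {le : X → X → Prop} {S : Set X} {f g : X → ℝ} {F G : ℕ → X → ℝ} {c : ℝ}
    (hf : PvfTest le S f) (hg : PvfTest le S g) (hF : ∀ n, PvfTest le S (F n)) (hG : ∀ n, PvfTest le S (G n))
    (t1 : Tendsto (fun n => eLpNorm (F n - f) 1 P) atTop (𝓝 0)) (t2 : Tendsto (fun n => eLpNorm (G n - g) 1 P) atTop (𝓝 0))
    (h5 : ∀ n, c ≤ ∫ x, F n x * G n x ∂P) : c ≤ ∫ x, f x * g x ∂P := by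
  have t3 : Tendsto (fun n => eLpNorm ((fun x => F n x * G n x) - fun x => f x * g x) 1 P) atTop (𝓝 0) := by
    have t12 := t1.add t2
    rw [add_zero] at t12
    refine tendsto_of_tendsto_of_tendsto_of_le_of_le tendsto_const_nhds t12 (fun n => zero_le) fun n => ?_
    have a1 : AEStronglyMeasurable (fun x => ‖(F n - f) x‖) P := (((hF n).meas.sub hf.meas).norm).aestronglyMeasurable
    have a2 : AEStronglyMeasurable (fun x => ‖(G n - g) x‖) P := (((hG n).meas.sub hg.meas).norm).aestronglyMeasurable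
    calc eLpNorm ((fun x => F n x * G n x) - fun x => f x * g x) 1 P
        ≤ eLpNorm ((fun x => ‖(F n - f) x‖) + fun x => ‖(G n - g) x‖) 1 P := by
          refine eLpNorm_mono fun x => ?_
          simp only [Pi.sub_apply, Pi.add_apply, Real.norm_eq_abs]
          rw [abs_of_nonneg (add_nonneg (abs_nonneg (F n x - f x)) (abs_nonneg (G n x - g x)))]
          have e : F n x * G n x - f x * g x = (F n x - f x) * G n x + f x * (G n x - g x) := by ring
          rw [e]
          refine (abs_add_le _ _).trans (add_le_add ?_ ?_)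
          · rw [abs_mul, abs_of_nonneg ((hG n).nonneg x)]
            exact mul_le_of_le_one_right (abs_nonneg _) ((hG n).le_one x)
          · rw [abs_mul, abs_of_nonneg (hf.nonneg x)]
            exact mul_le_of_le_one_left (abs_nonneg _) (hf.le_one x)
      _ ≤ eLpNorm (fun x => ‖(F n - f) x‖) 1 P + eLpNorm (fun x => ‖(G n - g) x‖) 1 P := eLpNorm_add_le a1 a2 le_rfl
      _ = eLpNorm (F n - f) 1 P + eLpNorm (G n - g) 1 P := by rw [eLpNorm_norm, eLpNorm_norm]
  have t4 := tendsto_integral_of_L1' (fun x => f x * g x) (hf.mul hg).meas.aestronglyMeasurable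
    (Eventually.of_forall fun n => ((hF n).mul (hG n)).integrable P) t3
  exact ge_of_tendsto' t4 h5

end abs

/-! ## 1. mixing two points of a product; the splitting of a product measure -/

section mix

variable {ι : Type*} {X : ι → Type*}

open Classical in
/-- `x.1` on `s`, `x.2` off `s` -/
noncomputable def pvfqMix (s : Set ι) (x : (∀ i, X i) × (∀ i, X i)) : ∀ i, X i := fun i => if i ∈ s then x.1 i else x.2 i

theorem pvfqMix_of_mem {s : Set ι} {i : ι} (h : i ∈ s) (x : (∀ i, X i) × (∀ i, X i)) : pvfqMix s x i = x.1 i := if_pos h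

theorem pvfqMix_of_notMem {s : Set ι} {i : ι} (h : i ∉ s) (x : (∀ i, X i) × (∀ i, X i)) : pvfqMix s x i = x.2 i := if_neg h

theorem pvfqMix_sub {s s' : Set ι} (h : s ⊆ s') (x z y : ∀ i, X i) : pvfqMix s (pvfqMix s' (x, z), y) = pvfqMix s (x, y) := by
  funext i
  by_cases hi : i ∈ s
  · rw [pvfqMix_of_mem hi, pvfqMix_of_mem hi]
    exact pvfqMix_of_mem (h hi) _
  · rw [pvfqMix_of_notMem hi, pvfqMix_of_notMem hi]

theorem pvfqMix_mix (s : Set ι) (x z y : ∀ i, X i) : pvfqMix s (pvfqMix s (x, z), y) = pvfqMix s (x, y) := pvfqMix_sub subset_rfl x z y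

theorem pvfqMix_self (s : Set ι) (x : ∀ i, X i) : pvfqMix s (x, x) = x := by
  funext i
  by_cases hi : i ∈ s
  · rw [pvfqMix_of_mem hi]
  · rw [pvfqMix_of_notMem hi]

theorem pvfqMix_univ (x : (∀ i, X i) × (∀ i, X i)) : pvfqMix univ x = x.1 := by
  funext i; exact pvfqMix_of_mem (mem_univ i) x

theorem pvfqMix_empty (x : (∀ i, X i) × (∀ i, X i)) : pvfqMix ∅ x = x.2 := by
  funext i; exact pvfqMix_of_notMem (notMem_empty i) x

/-- the relation which compares the coordinates of `s` only -/
def pvfqLe (le : ∀ i, X i → X i → Prop) (s : Set ι) (x y : ∀ i, X i) : Prop := ∀ i ∈ s, le i (x i) (y i)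

theorem pvfqLe_refl {le : ∀ i, X i → X i → Prop} (r : ∀ i x, le i x x) (s : Set ι) (x : ∀ i, X i) : pvfqLe le s x x := fun i _ => r i (x i)

theorem pvfqLe_mix {le : ∀ i, X i → X i → Prop} {s t : Set ι} {a b : (∀ i, X i) × (∀ i, X i)} (h1 : pvfqLe le (t ∩ s) a.1 b.1)
    (h2 : pvfqLe le (t \ s) a.2 b.2) : pvfqLe le t (pvfqMix s a) (pvfqMix s b) := by
  intro i hi
  by_cases his : i ∈ s
  · rw [pvfqMix_of_mem his, pvfqMix_of_mem his]; exact h1 i ⟨hi, his⟩
  · rw [pvfqMix_of_notMem his, pvfqMix_of_notMem his]; exact h2 i ⟨hi, his⟩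

variable [∀ i, MeasurableSpace (X i)]

theorem measurable_pvfqMix (s : Set ι) : Measurable (pvfqMix s : (∀ i, X i) × (∀ i, X i) → ∀ i, X i) := by
  refine measurable_pi_lambda _ fun i => ?_
  by_cases h : i ∈ s
  · have e : (fun x : (∀ i, X i) × (∀ i, X i) => pvfqMix s x i) = fun x => x.1 i := by funext x; exact pvfqMix_of_mem h x
    rw [e]; exact (measurable_pi_apply i).comp measurable_fst
  · have e : (fun x : (∀ i, X i) × (∀ i, X i) => pvfqMix s x i) = fun x => x.2 i := by funext x; exact pvfqMix_of_notMem h x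
    rw [e]; exact (measurable_pi_apply i).comp measurable_snd

/-- **the splitting**: resampling the coordinates off `s` preserves a product measure -/
theorem pvfq_split (μ : ∀ i, Measure (X i)) [∀ i, IsProbabilityMeasure (μ i)] (s : Set ι) :
    ((Measure.infinitePi μ).prod (Measure.infinitePi μ)).map (pvfqMix s) = Measure.infinitePi μ := by
  classical
  refine Measure.eq_infinitePi μ fun t B hB => ?_
  have hpre : pvfqMix s ⁻¹' (Set.pi (t : Set ι) B)
      = (Set.pi ((t.filter (· ∈ s) : Finset ι) : Set ι) B) ×ˢ (Set.pi ((t.filter (· ∉ s) : Finset ι) : Set ι) B) := by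
    ext x
    simp only [mem_preimage, Set.mem_pi, mem_prod, Finset.coe_filter, Set.mem_ofPred_eq, Finset.mem_coe]
    constructor
    · intro h
      refine ⟨fun i hi => ?_, fun i hi => ?_⟩
      · have := h i hi.1; rwa [pvfqMix_of_mem hi.2] at this
      · have := h i hi.1; rwa [pvfqMix_of_notMem hi.2] at this
    · rintro ⟨h1, h2⟩ i hi
      by_cases his : i ∈ s
      · rw [pvfqMix_of_mem his]; exact h1 i ⟨hi, his⟩
      · rw [pvfqMix_of_notMem his]; exact h2 i ⟨hi, his⟩
  rw [Measure.map_apply (measurable_pvfqMix s) (MeasurableSet.pi t.countable_toSet fun i _ => hB i), hpre, Measure.prod_prod,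
    Measure.infinitePi_pi μ fun i _ => hB i, Measure.infinitePi_pi μ fun i _ => hB i, Finset.prod_filter_mul_prod_filter_not]

end mix

/-! ## 2. finitely many coordinates -/

section fin

variable {ι : Type*} {X : ι → Type*} [∀ i, MeasurableSpace (X i)] (μ : ∀ i, Measure (X i)) [∀ i, IsProbabilityMeasure (μ i)]
  {le : ∀ i, X i → X i → Prop}

/-- one coordinate -/
theorem pvfq_eval (r : ∀ i x, le i x x) (i : ι) (h : PvfDef (μ i) (le i) univ 0) :
    PvfDef (Measure.infinitePi μ) (fun x y => le i (x i) (y i)) univ 0 := by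
  classical
  obtain ⟨x0⟩ : Nonempty (∀ i, X i) := nonempty_of_isProbabilityMeasure (Measure.infinitePi μ)
  refine pvfq_pull (φ := fun x => x i) (ψ := fun t => Function.update x0 i t) (lY := le i) (measurable_pi_apply i) (measurable_update x0) ?_ ?_ ?_ ?_
  · rw [Measure.infinitePi_map_eval]; exact h
  · intro a b hab; simpa using hab
  · intro x; simpa using r i (x i)
  · intro x; simpa using r i (x i)

/-- **finitely many coordinates** (finset form) -/
theorem pvfq_finset (r : ∀ i x, le i x x) (s : Finset ι) (h : ∀ i ∈ s, PvfDef (μ i) (le i) univ 0) :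
    PvfDef (Measure.infinitePi μ) (pvfqLe le (s : Set ι)) univ 0 := by
  classical
  induction s using Finset.induction_on with
  | empty => exact pvfq_total fun x y => Or.inl fun i hi => absurd hi (by simp)
  | insert i s hi ih =>
    have h1 := pvfq_eval μ r i (h i (Finset.mem_insert_self i s))
    have h2 := (ih fun j hj => h j (Finset.mem_insert_of_mem hj)).prod h1 (pvfqLe_refl r _) (fun x => r i (x i))
    have h3 := h2.map (measurable_pvfqMix (s : Set ι)) (T := univ) (lY := pvfqLe le ((insert i s : Finset ι) : Set ι)) (fun _ _ => mem_univ _)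
      (by
        rintro a _ b _ ⟨hab1, hab2⟩
        refine pvfqLe_mix (fun j hj => hab1 j hj.2) fun j hj => ?_
        have hj1 : j ∈ insert i s := hj.1
        rcases Finset.mem_insert.1 hj1 with rfl | hjs
        · exact hab2
        · exact absurd hjs hj.2) (ae_of_all _ fun _ => mem_univ _)
    rw [pvfq_split, add_zero] at h3
    exact h3

/-- **finitely many coordinates** -/
theorem pvfq_finite (r : ∀ i x, le i x x) {s : Set ι} (hs : s.Finite) (h : ∀ i ∈ s, PvfDef (μ i) (le i) univ 0) :
    PvfDef (Measure.infinitePi μ) (pvfqLe le s) univ 0 := by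
  have := pvfq_finset μ r hs.toFinset fun i hi => h i (hs.mem_toFinset.1 hi)
  rwa [hs.coe_toFinset] at this

end fin

/-! ## 3. resampling off `s` as an honest conditional expectation -/

section ce

variable {ι : Type*} {X : ι → Type*} [∀ i, MeasurableSpace (X i)]

/-- `E[f | coordinates of s]` as a function of `x` (through the coordinates of `s` only) -/
noncomputable def pvfqCE (P : Measure (∀ i, X i)) (s : Set ι) (f : (∀ i, X i) → ℝ) (x : ∀ i, X i) : ℝ := ∫ y, f (pvfqMix s (x, y)) ∂P

/-- freeze the coordinates off `s` at the base point `x0` -/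
noncomputable def pvfqR (x0 : ∀ i, X i) (s : Set ι) (x : ∀ i, X i) : ∀ i, X i := pvfqMix s (x, x0)

theorem measurable_pvfqR (x0 : ∀ i, X i) (s : Set ι) : Measurable (pvfqR x0 s) :=
  (measurable_pvfqMix s).comp (measurable_id.prodMk measurable_const)

theorem pvfqR_of_mem (x0 : ∀ i, X i) {s : Set ι} {i : ι} (h : i ∈ s) (x : ∀ i, X i) : pvfqR x0 s x i = x i := pvfqMix_of_mem h _

theorem pvfqR_mix (x0 : ∀ i, X i) (s : Set ι) (x y : ∀ i, X i) : pvfqR x0 s (pvfqMix s (x, y)) = pvfqR x0 s x := pvfqMix_mix s x y x0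

theorem pvfqR_R (x0 : ∀ i, X i) {s s' : Set ι} (h : s ⊆ s') (x : ∀ i, X i) : pvfqR x0 s (pvfqR x0 s' x) = pvfqR x0 s x := pvfqMix_sub h x x0 x0

theorem pvfqCE_R (P : Measure (∀ i, X i)) (x0 : ∀ i, X i) (s : Set ι) (f : (∀ i, X i) → ℝ) (x : ∀ i, X i) :
    pvfqCE P s f (pvfqR x0 s x) = pvfqCE P s f x := by
  unfold pvfqCE pvfqR; simp_rw [pvfqMix_mix]

/-- the resampled function looks at the coordinates of `s` only -/
theorem pvfqCE_congr (P : Measure (∀ i, X i)) (s : Set ι) (f : (∀ i, X i) → ℝ) {x x' : ∀ i, X i} (h : ∀ i ∈ s, x i = x' i) :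
    pvfqCE P s f x = pvfqCE P s f x' := by
  unfold pvfqCE
  have e : ∀ y, pvfqMix s (x, y) = pvfqMix s (x', y) := by
    intro y
    funext i
    by_cases hi : i ∈ s
    · rw [pvfqMix_of_mem hi, pvfqMix_of_mem hi]; exact h i hi
    · rw [pvfqMix_of_notMem hi, pvfqMix_of_notMem hi]
  simp_rw [e]

theorem measurable_pvfqCE (P : Measure (∀ i, X i)) [SFinite P] (s : Set ι) {f : (∀ i, X i) → ℝ} (hf : Measurable f) : Measurable (pvfqCE P s f) :=
  ((hf.comp (measurable_pvfqMix s)).stronglyMeasurable.integral_prod_right').measurable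

/-- the resampled test is a test which looks at the coordinates of `s` only -/
theorem pvfqCE_test {P : Measure (∀ i, X i)} [IsProbabilityMeasure P] {le : ∀ i, X i → X i → Prop} (r : ∀ i x, le i x x) (s : Set ι) {t : Set ι}
    {f : (∀ i, X i) → ℝ} (hf : PvfTest (pvfqLe le t) univ f) : PvfTest (pvfqLe le (t ∩ s)) univ (pvfqCE P s f) := by
  have h1 : PvfTest (fun a b : (∀ i, X i) × (∀ i, X i) => pvfqLe le (t ∩ s) a.1 b.1 ∧ pvfqLe le (t \ s) a.2 b.2) (univ ×ˢ univ)
      fun x => f (pvfqMix s x) :=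
    hf.comp (measurable_pvfqMix s) (fun _ _ => mem_univ _) fun a _ b _ hab => pvfqLe_mix hab.1 hab.2
  exact h1.integral_right (pvfqLe_refl r _) P (ae_of_all _ fun _ => mem_univ _)

variable (μ : ∀ i, Measure (X i)) [∀ i, IsProbabilityMeasure (μ i)]

theorem pvfqCE_integral (s : Set ι) {f : (∀ i, X i) → ℝ} (hf : Integrable f (Measure.infinitePi μ)) :
    ∫ x, pvfqCE (Measure.infinitePi μ) s f x ∂(Measure.infinitePi μ) = ∫ x, f x ∂(Measure.infinitePi μ) := by
  have e := pvfq_split μ s
  have hi' : Integrable f (((Measure.infinitePi μ).prod (Measure.infinitePi μ)).map (pvfqMix s)) := by rw [e]; exact hf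
  have hi : Integrable (fun x => f (pvfqMix s x)) ((Measure.infinitePi μ).prod (Measure.infinitePi μ)) := hi'.comp_measurable (measurable_pvfqMix s)
  calc ∫ x, pvfqCE (Measure.infinitePi μ) s f x ∂(Measure.infinitePi μ)
      = ∫ x, f (pvfqMix s x) ∂((Measure.infinitePi μ).prod (Measure.infinitePi μ)) := (integral_prod _ hi).symm
    _ = ∫ x, f x ∂(((Measure.infinitePi μ).prod (Measure.infinitePi μ)).map (pvfqMix s)) :=
        (integral_map (measurable_pvfqMix s).aemeasurable hi'.aestronglyMeasurable).symm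
    _ = ∫ x, f x ∂(Measure.infinitePi μ) := by rw [e]

theorem pvfqCE_indicator (P : Measure (∀ i, X i)) (x0 : ∀ i, X i) (s : Set ι) (f : (∀ i, X i) → ℝ) (t : Set (∀ i, X i)) :
    pvfqCE P s ((pvfqR x0 s ⁻¹' t).indicator f) = (pvfqR x0 s ⁻¹' t).indicator (pvfqCE P s f) := by
  funext x
  unfold pvfqCE
  by_cases hx : x ∈ pvfqR x0 s ⁻¹' t
  · rw [Set.indicator_of_mem hx]
    refine integral_congr_ae (ae_of_all _ fun y => ?_)
    refine Set.indicator_of_mem ?_ _
    rw [mem_preimage, pvfqR_mix]; exact hx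
  · rw [Set.indicator_of_notMem hx]
    have : ∀ y, (pvfqR x0 s ⁻¹' t).indicator f (pvfqMix s (x, y)) = 0 := by
      intro y
      refine Set.indicator_of_notMem ?_ _
      rw [mem_preimage, pvfqR_mix]; exact hx
    simp_rw [this]; simp

/-- `pvfqCE` is a version of the conditional expectation given the coordinates of `s` -/
theorem pvfqCE_condExp (x0 : ∀ i, X i) (s : Set ι) {f : (∀ i, X i) → ℝ} (hfm : Measurable f) (hb : ∀ x, |f x| ≤ 1) :
    pvfqCE (Measure.infinitePi μ) s f =ᵐ[Measure.infinitePi μ] (Measure.infinitePi μ)[f | MeasurableSpace.comap (pvfqR x0 s) inferInstance] := by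
  have hle : MeasurableSpace.comap (pvfqR x0 s) (inferInstance : MeasurableSpace (∀ i, X i)) ≤ (inferInstance : MeasurableSpace (∀ i, X i)) :=
    (measurable_pvfqR x0 s).comap_le
  have hf : Integrable f (Measure.infinitePi μ) := Integrable.of_bound hfm.aestronglyMeasurable 1 (ae_of_all _ hb)
  have hm : Measurable (pvfqCE (Measure.infinitePi μ) s f) := measurable_pvfqCE _ s hfm
  have hbd : ∀ x, |pvfqCE (Measure.infinitePi μ) s f x| ≤ 1 := by
    intro x
    have := norm_integral_le_of_norm_le_const (μ := Measure.infinitePi μ) (f := fun y => f (pvfqMix s (x, y))) (C := 1) (ae_of_all _ fun y => hb _)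
    simpa [pvfqCE] using this
  have hi : Integrable (pvfqCE (Measure.infinitePi μ) s f) (Measure.infinitePi μ) := Integrable.of_bound hm.aestronglyMeasurable 1 (ae_of_all _ hbd)
  refine ae_eq_condExp_of_forall_setIntegral_eq hle hf (fun s _ _ => hi.integrableOn) ?_ ?_
  · rintro _ ⟨t, ht, rfl⟩ _
    have hs : MeasurableSet (pvfqR x0 s ⁻¹' t) := measurable_pvfqR x0 s ht
    rw [← integral_indicator hs, ← integral_indicator hs, ← pvfqCE_indicator, pvfqCE_integral μ s (hf.indicator hs)]
  · have e : pvfqCE (Measure.infinitePi μ) s f = (pvfqCE (Measure.infinitePi μ) s f) ∘ pvfqR x0 s := by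
      funext x; exact (pvfqCE_R _ x0 s f x).symm
    rw [e]
    exact (hm.comp (comap_measurable _)).stronglyMeasurable.aestronglyMeasurable

end ce

/-! ## 4. countably many coordinates -/

section inf

variable {ι : Type*} {X : ι → Type*} [∀ i, MeasurableSpace (X i)]

/-- the filtration of the coordinates of an increasing sequence of sets of indices -/
noncomputable def pvfqFil (x0 : ∀ i, X i) (W : ℕ → Set ι) (hmono : Monotone W) : Filtration ℕ (inferInstance : MeasurableSpace (∀ i, X i)) where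
  seq n := MeasurableSpace.comap (pvfqR x0 (W n)) inferInstance
  mono' := by
    intro n k hnk
    have e : (pvfqR x0 (W n) : (∀ i, X i) → ∀ i, X i) = pvfqR x0 (W n) ∘ pvfqR x0 (W k) := by
      funext x; exact (pvfqR_R x0 (hmono hnk) x).symm
    show MeasurableSpace.comap (pvfqR x0 (W n)) inferInstance ≤ MeasurableSpace.comap (pvfqR x0 (W k)) inferInstance
    rw [e, ← MeasurableSpace.comap_comp]
    exact MeasurableSpace.comap_mono (measurable_pvfqR x0 (W n)).comap_le
  le' n := (measurable_pvfqR x0 (W n)).comap_le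

theorem pvfqFil_iSup (x0 : ∀ i, X i) (W : ℕ → Set ι) (hmono : Monotone W) (hU : ⋃ n, W n = univ) :
    (⨆ n, pvfqFil x0 W hmono n) = (inferInstance : MeasurableSpace (∀ i, X i)) := by
  refine le_antisymm (iSup_le fun n => (pvfqFil x0 W hmono).le n) ?_
  show (⨆ i, MeasurableSpace.comap (fun x : ∀ i, X i => x i) inferInstance) ≤ _
  refine iSup_le fun i => ?_
  obtain ⟨n, hn⟩ := mem_iUnion.1 (hU ▸ mem_univ i : i ∈ ⋃ n, W n)
  refine le_trans ?_ (le_iSup (fun n => pvfqFil x0 W hmono n) n)
  show MeasurableSpace.comap (fun x : ∀ i, X i => x i) inferInstance ≤ MeasurableSpace.comap (pvfqR x0 (W n)) inferInstance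
  have e : (fun x : ∀ i, X i => x i) = (fun x : ∀ i, X i => x i) ∘ pvfqR x0 (W n) := by
    funext x; exact (pvfqR_of_mem x0 hn x).symm
  rw [e, ← MeasurableSpace.comap_comp]
  exact MeasurableSpace.comap_mono (measurable_pi_apply i).comap_le

variable (μ : ∀ i, Measure (X i)) [∀ i, IsProbabilityMeasure (μ i)]

/-- Levy's upward theorem for the resampled functions -/
theorem pvfqCE_tendsto (W : ℕ → Set ι) (hmono : Monotone W) (hU : ⋃ n, W n = univ) {f : (∀ i, X i) → ℝ} (hfm : Measurable f) (hb : ∀ x, |f x| ≤ 1) :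
    Tendsto (fun n => eLpNorm (pvfqCE (Measure.infinitePi μ) (W n) f - f) 1 (Measure.infinitePi μ)) atTop (𝓝 0) := by
  obtain ⟨x0⟩ : Nonempty (∀ i, X i) := nonempty_of_isProbabilityMeasure (Measure.infinitePi μ)
  have hf : Integrable f (Measure.infinitePi μ) := Integrable.of_bound hfm.aestronglyMeasurable 1 (ae_of_all _ hb)
  have hsm : StronglyMeasurable[⨆ n, pvfqFil x0 W hmono n] f := by
    rw [pvfqFil_iSup x0 W hmono hU]; exact hfm.stronglyMeasurable
  have h1 := hf.tendsto_eLpNorm_condExp (ℱ := pvfqFil x0 W hmono) hsm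
  refine h1.congr fun n => ?_
  refine eLpNorm_congr_ae ?_
  filter_upwards [pvfqCE_condExp μ x0 (W n) hfm hb] with x hx
  simp only [Pi.sub_apply]
  rw [hx]; rfl

/-- positive association along an exhaustion of the index set by finite sets -/
theorem pvfq_of_exhaustion {le : ∀ i, X i → X i → Prop} (r : ∀ i x, le i x x) (h : ∀ i, PvfDef (μ i) (le i) univ 0)
    (W : ℕ → Set ι) (hmono : Monotone W) (hU : ⋃ n, W n = univ) (hfin : ∀ n, (W n).Finite) :
    PvfDef (Measure.infinitePi μ) (pvfqLe le univ) univ 0 := by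
  refine ⟨ae_of_all _ fun _ => mem_univ _, fun f g hf hg => ?_⟩
  have hbf : ∀ x, |f x| ≤ 1 := fun x => by rw [abs_of_nonneg (hf.nonneg x)]; exact hf.le_one x
  have hbg : ∀ x, |g x| ≤ 1 := fun x => by rw [abs_of_nonneg (hg.nonneg x)]; exact hg.le_one x
  have hF : ∀ n, PvfTest (pvfqLe le (W n)) univ (pvfqCE (Measure.infinitePi μ) (W n) f) := fun n => by
    have := pvfqCE_test (P := Measure.infinitePi μ) r (W n) hf
    rwa [univ_inter] at this
  have hG : ∀ n, PvfTest (pvfqLe le (W n)) univ (pvfqCE (Measure.infinitePi μ) (W n) g) := fun n => by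
    have := pvfqCE_test (P := Measure.infinitePi μ) r (W n) hg
    rwa [univ_inter] at this
  have hrel : ∀ n, ∀ x y : ∀ i, X i, pvfqLe le univ x y → pvfqLe le (W n) x y := fun n x y hxy i _ => hxy i (mem_univ i)
  have h5 : ∀ n, (∫ x, f x ∂(Measure.infinitePi μ)) * (∫ x, g x ∂(Measure.infinitePi μ))
      ≤ ∫ x, pvfqCE (Measure.infinitePi μ) (W n) f x * pvfqCE (Measure.infinitePi μ) (W n) g x ∂(Measure.infinitePi μ) := by
    intro n
    have h1 := (pvfq_finite μ r (hfin n) fun i _ => h i).ineq _ _ (hF n) (hG n)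
    rw [pvfqCE_integral μ (W n) (hf.integrable _), pvfqCE_integral μ (W n) (hg.integrable _)] at h1
    linarith
  have := pvfq_limit hf hg (fun n => pvfq_test_rel (hF n) (hrel n)) (fun n => pvfq_test_rel (hG n) (hrel n))
    (pvfqCE_tendsto μ W hmono hU hf.meas hbf) (pvfqCE_tendsto μ W hmono hU hg.meas hbg) h5
  linarith

/-- **QUENCHED HARRIS, general form**: a countable product of probability measures, each positively associated for a reflexive relation, is positively associated for the product relation -/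
theorem pvfq_pi [Countable ι] {le : ∀ i, X i → X i → Prop} (r : ∀ i x, le i x x) (h : ∀ i, PvfDef (μ i) (le i) univ 0) :
    PvfDef (Measure.infinitePi μ) (fun x y => ∀ i, le i (x i) (y i)) univ 0 := by
  obtain ⟨enc, henc⟩ := exists_injective_nat ι
  have key := pvfq_of_exhaustion μ r h (fun n => {i | enc i < n}) (fun n k hnk i (hi : enc i < n) => lt_of_lt_of_le hi hnk)
    (by
      ext i
      simp only [mem_iUnion, mem_univ, iff_true]
      exact ⟨enc i + 1, Nat.lt_succ_self _⟩)
    (fun n => (Set.finite_lt_nat n).preimage henc.injOn)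
  exact pvfq_def_rel key fun x y hxy i => hxy i (mem_univ i)

end inf

/-! ## 5. more abstract exports (valid for the annealed AND the quenched measures): reversed relation, decreasing families, unions, square-root trick -/

section more

variable {X : Type*} [MeasurableSpace X] {P : Measure X} {le : X → X → Prop} {S : Set X}

/-- the reversed relation -/
theorem pvfq_flip [IsProbabilityMeasure P] {d : ℝ} (h : PvfDef P le S d) : PvfDef P (fun x y => le y x) S d := by
  refine ⟨h.ae, fun f g hf hg => ?_⟩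
  have tst : ∀ φ : X → ℝ, PvfTest (fun x y => le y x) S φ → PvfTest le S fun x => 1 - φ x := fun φ hφ =>
    ⟨measurable_const.sub hφ.meas, fun x => sub_nonneg.2 (hφ.le_one x), fun x => by linarith [hφ.nonneg x],
      fun x hx y hy hxy => by linarith [hφ.mono y hy x hx hxy]⟩
  have key := h.ineq _ _ (tst f hf) (tst g hg)
  have hfi := hf.integrable P
  have hgi := hg.integrable P
  have hfg := (hf.mul hg).integrable P
  have i1 : Integrable (fun _ : X => (1 : ℝ)) P := integrable_const _
  have e1 : ∫ x, (1 - f x) ∂P = 1 - ∫ x, f x ∂P := by rw [integral_sub i1 hfi]; simp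
  have e2 : ∫ x, (1 - g x) ∂P = 1 - ∫ x, g x ∂P := by rw [integral_sub i1 hgi]; simp
  have e3 : ∫ x, (1 - f x) * (1 - g x) ∂P = 1 - ∫ x, f x ∂P - ∫ x, g x ∂P + ∫ x, f x * g x ∂P := by
    have e : (fun x => (1 - f x) * (1 - g x)) = fun x => 1 - f x - g x + f x * g x := by funext x; ring
    have i12 : Integrable (fun x => 1 - f x) P := i1.sub hfi
    have i123 : Integrable (fun x => 1 - f x - g x) P := i12.sub hgi
    rw [e, integral_add i123 hfg, integral_sub i12 hgi, integral_sub i1 hfi]; simp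
  rw [e1, e2, e3] at key
  nlinarith

theorem pvfq_ev_biInter {κ : Type*} (s : Finset κ) (A : κ → Set X) (hA : ∀ i ∈ s, PvfEv S (A i)) : PvfEv S (⋂ i ∈ s, A i) := by
  classical
  induction s using Finset.induction_on with
  | empty => simpa using (PvfEv.univ : PvfEv S (Set.univ : Set X))
  | insert i t hi ih =>
    rw [Finset.set_biInter_insert]
    exact (hA i (Finset.mem_insert_self i t)).inter (ih fun j hj => hA j (Finset.mem_insert_of_mem hj))

theorem pvfq_ev_biUnion {κ : Type*} (s : Finset κ) (A : κ → Set X) (hA : ∀ i ∈ s, PvfEv S (A i)) : PvfEv S (⋃ i ∈ s, A i) := by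
  have h1 := (pvfq_ev_biInter s (fun i => (A i)ᶜ) fun i hi => (hA i hi).compl).compl
  have e : (⋂ i ∈ s, (A i)ᶜ)ᶜ = ⋃ i ∈ s, A i := by simp [compl_iInter]
  rwa [e] at h1

/-- the measure of the complement of an event which is measurable on `S` -/
theorem pvfq_measure_compl [IsProbabilityMeasure P] {d : ℝ} (h : PvfDef P le S d) {A : Set X} (hA : PvfEv S A) : P Aᶜ = 1 - P A := by
  obtain ⟨A', mA, eA⟩ := hA
  have e' : A'ᶜ ∩ S = Aᶜ ∩ S := by
    ext x
    simp only [mem_inter_iff, mem_compl_iff]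
    constructor
    · rintro ⟨h1, h2⟩; exact ⟨fun hx => h1 ((PvfEv.mem_iff eA h2).2 hx), h2⟩
    · rintro ⟨h1, h2⟩; exact ⟨fun hx => h1 ((PvfEv.mem_iff eA h2).1 hx), h2⟩
  rw [← h.measure_congr e', ← h.measure_congr eA, prob_compl_eq_one_sub mA]

/-- finite families of decreasing events -/
theorem pvfq_down_finset [IsProbabilityMeasure P] (h : PvfDef P le S 0) {κ : Type*} (s : Finset κ) (A : κ → Set X)
    (hA : ∀ i ∈ s, PvfEv S (A i)) (dA : ∀ i ∈ s, PvfDown le S (A i)) : ∏ i ∈ s, P (A i) ≤ P (⋂ i ∈ s, A i) :=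
  (pvfq_flip h).up_finset s A hA fun i hi x hx y hy hxy hxA => dA i hi y hy x hx hxy hxA

/-- lists of decreasing events -/
theorem pvfq_down_list [IsProbabilityMeasure P] (h : PvfDef P le S 0) {κ : Type*} (l : List κ) (A : κ → Set X)
    (hA : ∀ i ∈ l, PvfEv S (A i)) (dA : ∀ i ∈ l, PvfDown le S (A i)) : (l.map fun i => P (A i)).prod ≤ P {x | ∀ i ∈ l, x ∈ A i} :=
  (pvfq_flip h).up_list l A hA fun i hi x hx y hy hxy hxA => dA i hi y hy x hx hxy hxA

/-- **unions of increasing events**: `∏ (1 - P (A i)) ≤ 1 - P (⋃ A i)` -/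
theorem pvfq_union_finset [IsProbabilityMeasure P] (h : PvfDef P le S 0) {κ : Type*} (s : Finset κ) (A : κ → Set X)
    (hA : ∀ i ∈ s, PvfEv S (A i)) (uA : ∀ i ∈ s, PvfUp le S (A i)) : ∏ i ∈ s, (1 - P (A i)) ≤ 1 - P (⋃ i ∈ s, A i) := by
  have h1 := pvfq_down_finset h s (fun i => (A i)ᶜ) (fun i hi => (hA i hi).compl) fun i hi => (uA i hi).compl
  have e : (⋂ i ∈ s, (A i)ᶜ) = (⋃ i ∈ s, A i)ᶜ := by simp [compl_iUnion]
  rw [e, pvfq_measure_compl h (pvfq_ev_biUnion s A hA)] at h1
  refine le_trans (le_of_eq ?_) h1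
  exact Finset.prod_congr rfl fun i hi => (pvfq_measure_compl h (hA i hi)).symm

/-- the same in real numbers -/
theorem pvfq_union_finset_real [IsProbabilityMeasure P] (h : PvfDef P le S 0) {κ : Type*} (s : Finset κ) (A : κ → Set X)
    (hA : ∀ i ∈ s, PvfEv S (A i)) (uA : ∀ i ∈ s, PvfUp le S (A i)) : ∏ i ∈ s, (1 - P.real (A i)) ≤ 1 - P.real (⋃ i ∈ s, A i) := by
  have h1 := ENNReal.toReal_mono (by simp) (pvfq_union_finset h s A hA uA)
  rw [ENNReal.toReal_prod, ENNReal.toReal_sub_of_le prob_le_one ENNReal.one_ne_top] at h1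
  refine le_trans (le_of_eq ?_) h1
  exact Finset.prod_congr rfl fun i _ => (ENNReal.toReal_sub_of_le prob_le_one ENNReal.one_ne_top).symm

/-- **the square-root trick**: one of `n` increasing events has probability `≥ 1 - (1 - P (⋃ A i)) ^ (1 / n)` -/
theorem pvfq_sqrt_trick [IsProbabilityMeasure P] (h : PvfDef P le S 0) {κ : Type*} (s : Finset κ) (hs : s.Nonempty) (A : κ → Set X)
    (hA : ∀ i ∈ s, PvfEv S (A i)) (uA : ∀ i ∈ s, PvfUp le S (A i)) :
    ∃ i ∈ s, 1 - (1 - P.real (⋃ i ∈ s, A i)) ^ ((s.card : ℝ)⁻¹) ≤ P.real (A i) := by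
  obtain ⟨i0, hi0, hmax⟩ := s.exists_max_image (fun i => P.real (A i)) hs
  refine ⟨i0, hi0, ?_⟩
  have hq1 : 0 ≤ 1 - P.real (A i0) := sub_nonneg.2 measureReal_le_one
  have h1 := pvfq_union_finset_real h s A hA uA
  have h2 : (1 - P.real (A i0)) ^ s.card ≤ ∏ i ∈ s, (1 - P.real (A i)) := by
    rw [← Finset.prod_const]
    exact Finset.prod_le_prod (fun _ _ => hq1) fun i hi => by linarith [hmax i hi]
  have hn : s.card ≠ 0 := Finset.card_ne_zero.2 hs
  have h3 := Real.rpow_le_rpow (pow_nonneg hq1 _) (h2.trans h1) (inv_nonneg.2 (Nat.cast_nonneg s.card))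
  rw [Real.pow_rpow_inv_natCast hq1 hn] at h3
  linarith

/-- the square-root trick for events of equal probability -/
theorem pvfq_sqrt_trick_eq [IsProbabilityMeasure P] (h : PvfDef P le S 0) {κ : Type*} (s : Finset κ) (A : κ → Set X)
    (hA : ∀ i ∈ s, PvfEv S (A i)) (uA : ∀ i ∈ s, PvfUp le S (A i)) {p : ℝ} (hp : ∀ i ∈ s, P.real (A i) = p) (hs : s.Nonempty) :
    1 - (1 - P.real (⋃ i ∈ s, A i)) ^ ((s.card : ℝ)⁻¹) ≤ p := by
  obtain ⟨i, hi, h1⟩ := pvfq_sqrt_trick h s hs A hA uA
  rwa [hp i hi] at h1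

end more

/-! ## 6. exports for product measures -/

section exports

variable {ι : Type*}

/-- one linearly ordered factor -/
theorem pvfq_linear {α : Type*} [MeasurableSpace α] [LinearOrder α] (ν : Measure α) [IsProbabilityMeasure ν] :
    PvfDef ν (fun a b => a ≤ b) univ 0 := pvfq_total le_total

/-- total relations on the factors (e.g. the order on some coordinates, the reversed order on the others) -/
theorem pvfq_pi_total [Countable ι] {X : ι → Type*} [∀ i, MeasurableSpace (X i)] (μ : ∀ i, Measure (X i)) [∀ i, IsProbabilityMeasure (μ i)]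
    {le : ∀ i, X i → X i → Prop} (ht : ∀ i x y, le i x y ∨ le i y x) : PvfDef (Measure.infinitePi μ) (fun x y => ∀ i, le i (x i) (y i)) univ 0 :=
  pvfq_pi μ (fun i x => (ht i x x).elim id id) fun i => pvfq_total (ht i)

/-- linearly ordered factors, the product order -/
theorem pvfq_pi_le [Countable ι] {X : ι → Type*} [∀ i, MeasurableSpace (X i)] [∀ i, LinearOrder (X i)] (μ : ∀ i, Measure (X i))
    [∀ i, IsProbabilityMeasure (μ i)] : PvfDef (Measure.infinitePi μ) (fun x y => x ≤ y) univ 0 :=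
  pvfq_pi_total μ fun _ x y => le_total x y

/-- **conditional Harris**: given the coordinates of `s` (any set of indices), at EVERY point -/
theorem pvfq_cond [Countable ι] {X : ι → Type*} [∀ i, MeasurableSpace (X i)] (μ : ∀ i, Measure (X i)) [∀ i, IsProbabilityMeasure (μ i)]
    {le : ∀ i, X i → X i → Prop} (r : ∀ i x, le i x x) (h : ∀ i, PvfDef (μ i) (le i) univ 0) (s : Set ι) {f g : (∀ i, X i) → ℝ}
    (hf : PvfTest (fun x y => ∀ i, le i (x i) (y i)) univ f) (hg : PvfTest (fun x y => ∀ i, le i (x i) (y i)) univ g) (x : ∀ i, X i) :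
    pvfqCE (Measure.infinitePi μ) s f x * pvfqCE (Measure.infinitePi μ) s g x ≤ pvfqCE (Measure.infinitePi μ) s (fun z => f z * g z) x := by
  have hm : Measurable fun y : ∀ i, X i => pvfqMix s (x, y) := (measurable_pvfqMix s).comp (measurable_const.prodMk measurable_id)
  have hmono : ∀ y ∈ (univ : Set (∀ i, X i)), ∀ y' ∈ (univ : Set (∀ i, X i)), (∀ i, le i (y i) (y' i)) →
      ∀ i, le i (pvfqMix s (x, y) i) (pvfqMix s (x, y') i) := by
    intro y _ y' _ hyy i
    by_cases hi : i ∈ s
    · rw [pvfqMix_of_mem hi, pvfqMix_of_mem hi]; exact r i _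
    · rw [pvfqMix_of_notMem hi, pvfqMix_of_notMem hi]; exact hyy i
  have := (pvfq_pi μ r h).ineq _ _ (hf.comp hm (fun _ _ => mem_univ _) hmono) (hg.comp hm (fun _ _ => mem_univ _) hmono)
  unfold pvfqCE
  linarith

variable [Countable ι] (ν : ι → Measure Bool) [∀ i, IsProbabilityMeasure (ν i)]

/-- **QUENCHED HARRIS** for colourings `ι → Bool` (`false < true`), independent colours with arbitrary laws -/
theorem pvfq_harris : PvfDef (Measure.infinitePi ν) (fun x y : ι → Bool => ∀ i, x i ≤ y i) univ 0 :=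
  pvfq_pi_total ν fun _ x y => le_total x y

theorem pvfq_up_of {A : Set (ι → Bool)} (h : IsUpperSet A) : PvfUp (fun x y : ι → Bool => ∀ i, x i ≤ y i) univ A :=
  fun _ _ _ _ hxy hx => h hxy hx

theorem pvfq_down_of {A : Set (ι → Bool)} (h : IsLowerSet A) : PvfDown (fun x y : ι → Bool => ∀ i, x i ≤ y i) univ A :=
  fun _ _ _ _ hxy hy => h hxy hy

/-- two increasing events -/
theorem pvfq_up_up {A B : Set (ι → Bool)} (mA : MeasurableSet A) (mB : MeasurableSet B) (uA : IsUpperSet A) (uB : IsUpperSet B) :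
    Measure.infinitePi ν A * Measure.infinitePi ν B ≤ Measure.infinitePi ν (A ∩ B) :=
  (pvfq_harris ν).up_up (PvfEv.of_meas mA) (PvfEv.of_meas mB) (pvfq_up_of uA) (pvfq_up_of uB)

/-- two decreasing events -/
theorem pvfq_down_down {A B : Set (ι → Bool)} (mA : MeasurableSet A) (mB : MeasurableSet B) (dA : IsLowerSet A) (dB : IsLowerSet B) :
    Measure.infinitePi ν A * Measure.infinitePi ν B ≤ Measure.infinitePi ν (A ∩ B) :=
  (pvfq_harris ν).down_down (PvfEv.of_meas mA) (PvfEv.of_meas mB) (pvfq_down_of dA) (pvfq_down_of dB)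

/-- an increasing and a decreasing event -/
theorem pvfq_up_down {A B : Set (ι → Bool)} (mA : MeasurableSet A) (mB : MeasurableSet B) (uA : IsUpperSet A) (dB : IsLowerSet B) :
    Measure.infinitePi ν (A ∩ B) ≤ Measure.infinitePi ν A * Measure.infinitePi ν B :=
  (pvfq_harris ν).up_down (PvfEv.of_meas mA) (PvfEv.of_meas mB) (pvfq_up_of uA) (pvfq_down_of dB)

/-- finite families of increasing events -/
theorem pvfq_up_finset {κ : Type*} (s : Finset κ) (A : κ → Set (ι → Bool)) (mA : ∀ i ∈ s, MeasurableSet (A i)) (uA : ∀ i ∈ s, IsUpperSet (A i)) :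
    ∏ i ∈ s, Measure.infinitePi ν (A i) ≤ Measure.infinitePi ν (⋂ i ∈ s, A i) :=
  (pvfq_harris ν).up_finset s A (fun i hi => PvfEv.of_meas (mA i hi)) fun i hi => pvfq_up_of (uA i hi)

/-- lists of increasing events -/
theorem pvfq_up_list {κ : Type*} (l : List κ) (A : κ → Set (ι → Bool)) (mA : ∀ i ∈ l, MeasurableSet (A i)) (uA : ∀ i ∈ l, IsUpperSet (A i)) :
    (l.map fun i => Measure.infinitePi ν (A i)).prod ≤ Measure.infinitePi ν {x | ∀ i ∈ l, x ∈ A i} :=
  (pvfq_harris ν).up_list l A (fun i hi => PvfEv.of_meas (mA i hi)) fun i hi => pvfq_up_of (uA i hi)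

/-- bounded increasing functions -/
theorem pvfq_bdd {f g : (ι → Bool) → ℝ} {C : ℝ} (hfm : Measurable f) (hgm : Measurable g) (hf : ∀ x, |f x| ≤ C) (hg : ∀ x, |g x| ≤ C)
    (mf : Monotone f) (mg : Monotone g) :
    (∫ x, f x ∂(Measure.infinitePi ν)) * (∫ x, g x ∂(Measure.infinitePi ν)) ≤ ∫ x, f x * g x ∂(Measure.infinitePi ν) :=
  (pvfq_harris ν).bdd hfm hgm hf hg (fun _ _ _ _ hxy => mf hxy) fun _ _ _ _ hxy => mg hxy

/-- bounded decreasing functions -/
theorem pvfq_bdd_anti {f g : (ι → Bool) → ℝ} {C : ℝ} (hfm : Measurable f) (hgm : Measurable g) (hf : ∀ x, |f x| ≤ C) (hg : ∀ x, |g x| ≤ C)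
    (mf : Antitone f) (mg : Antitone g) :
    (∫ x, f x ∂(Measure.infinitePi ν)) * (∫ x, g x ∂(Measure.infinitePi ν)) ≤ ∫ x, f x * g x ∂(Measure.infinitePi ν) :=
  (pvfq_harris ν).bdd_anti hfm hgm hf hg (fun _ _ _ _ hxy => mf hxy) fun _ _ _ _ hxy => mg hxy

/-- an increasing and a decreasing bounded function -/
theorem pvfq_bdd_mixed {f g : (ι → Bool) → ℝ} {C : ℝ} (hfm : Measurable f) (hgm : Measurable g) (hf : ∀ x, |f x| ≤ C) (hg : ∀ x, |g x| ≤ C)
    (mf : Monotone f) (mg : Antitone g) :
    ∫ x, f x * g x ∂(Measure.infinitePi ν) ≤ (∫ x, f x ∂(Measure.infinitePi ν)) * (∫ x, g x ∂(Measure.infinitePi ν)) :=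
  (pvfq_harris ν).bdd_mixed hfm hgm hf hg (fun _ _ _ _ hxy => mf hxy) fun _ _ _ _ hxy => mg hxy

/-- the square-root trick for colourings -/
theorem pvfq_sqrt_bool {κ : Type*} (s : Finset κ) (hs : s.Nonempty) (A : κ → Set (ι → Bool)) (mA : ∀ i ∈ s, MeasurableSet (A i))
    (uA : ∀ i ∈ s, IsUpperSet (A i)) :
    ∃ i ∈ s, 1 - (1 - (Measure.infinitePi ν).real (⋃ i ∈ s, A i)) ^ ((s.card : ℝ)⁻¹) ≤ (Measure.infinitePi ν).real (A i) :=
  pvfq_sqrt_trick (pvfq_harris ν) s hs A (fun i hi => PvfEv.of_meas (mA i hi)) fun i hi => pvfq_up_of (uA i hi)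

/-- **the colours of the frozen model**: fair coins indexed by `(ℤ × ℤ) × ℕ` -/
theorem pvfq_coin : PvfDef (Measure.infinitePi fun _ : (ℤ × ℤ) × ℕ => pvCoin) (fun x y : (ℤ × ℤ) × ℕ → Bool => ∀ i, x i ≤ y i) univ 0 :=
  pvfq_harris _

end exports

theorem pvfq_eqns_cite : True := by
  have := @pvfqMix.eq_1.{0, 0}; have := @pvfqLe.eq_1.{0, 0}; have := @pvfqCE.eq_1.{0, 0}; have := @pvfqR.eq_1.{0, 0}; have := @pvfqFil.eq_1.{0, 0}
  trivial

end Claimed.Agent.R289
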