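import Mathlib
import Claimed.Agent.R289.Defs.Frozen

/-!
# Row 289 (S0537, Cardy for Poisson-Voronoi), box CX1: the complex analysis of the three-line problem      (helper174; prefix `pvcx_`, defs `pvcx*`)

SORRY-FREE, Mathlib + `Def_0465` only.     Replaces Lemma 8.5 + Schwarz-Christoffel of Sec. 8 (144's B2, 211's RH(s)): no Riemann map, no Caratheodory, no Hopf lemma, no argument principle.

EXPORTS
* `pvcx_holo_off_real`   continuous on an open set + holomorphic off the real line => holomorphic (Morera on rectangles).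
* `pvcx_refl_diff`       Schwarz reflection with a closed symmetric exceptional set (`pvcxRefl`).
* `pvcx_rigid`           holomorphic in the upper half plane, continuous up to `R \ {0,1}`, real there, `o(1/|z-c|)` at `c = 0, 1`, `o(1)` at infinity => `0`.
* `pvcxH s`              `(z(1-z))^(-s)`, branch positive on `(0,1)`; `pvcx_H_mid/right/left` boundary values, `pvcx_H_le` majorant `2^s (Im z)^(-s)`.
* `pvcxG s`              `int_0^z (u(1-u))^(-s) du` on the CLOSED upper half plane: `pvcx_G_deriv`, `pvcx_G_cont`, `pvcx_G_holder` (Hoelder `1-s`), `pvcx_G_mid` (`= pvcxBf s x` on `[0,1]`), `pvcx_G_right`, `pvcx_G_left` (directions), `pvcx_G_unbdd` (`s < 1/2`).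
* `pvcx_RH`              Lemma RH(s): the homogeneous three-line problem has only the zero solution.
* `pvcx_uniq`, `pvcx_uniq'`   uniqueness of the three-line problem, any `0 < s < 1`.
* `pvcx_cardy_tri`       **positively oriented equilateral triangle: `G x = w0 + (w1 - w0) cardyF x` on `(0,1)`**.
* `pvcx_mirror_tri`      **negatively oriented equilateral triangle: no bounded solution** (mirror trick of 211: `a = 1` is impossible).
* `pvcx_cardyF_eq/zero/one/cont/strictMono/symm/mem`   facts on the frozen `cardyF`.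
-/

set_option autoImplicit false

namespace Claimed.Agent.R289

open Complex MeasureTheory Set Filter Topology
open scoped ComplexConjugate Interval

/-! ## A. holomorphy across the real line, reflection, rigidity -/

/-- boundary integral of a rectangle -/
noncomputable def pvcxB (f : ℂ → ℂ) (z w : ℂ) : ℂ :=
  (∫ x : ℝ in z.re..w.re, f (x + z.im * I)) - (∫ x : ℝ in z.re..w.re, f (x + w.im * I)) +
      I • (∫ y : ℝ in z.im..w.im, f (re w + y * I)) - I • (∫ y : ℝ in z.im..w.im, f (re z + y * I))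

theorem pvcx_rect_one {f : ℂ → ℂ} {U : Set ℂ} (hc : ContinuousOn f U) (hd : ∀ z ∈ U, z.im ≠ 0 → DifferentiableAt ℂ f z) (z w : ℂ)
    (hzw : Rectangle z w ⊆ U) (h0 : 0 ∉ Ioo (min z.im w.im) (max z.im w.im)) : pvcxB f z w = 0 := by
  unfold pvcxB
  refine integral_boundary_rect_eq_zero_of_continuousOn_of_differentiableOn f z w (hc.mono hzw) ?_
  intro u hu
  have hu' : u ∈ Rectangle z w := by
    refine ⟨?_, ?_⟩
    · exact Ioo_subset_Icc_self hu.1
    · exact Ioo_subset_Icc_self hu.2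
  refine (hd u (hzw hu') ?_).differentiableWithinAt
  intro h
  apply h0
  have := hu.2
  simp only [mem_preimage] at this
  rwa [h] at this

theorem pvcx_rect_vert {f : ℂ → ℂ} {U : Set ℂ} (hc : ContinuousOn f U) (z w : ℂ) (hzw : Rectangle z w ⊆ U) (a : ℝ) (ha : a ∈ [[z.re, w.re]]) :
    ContinuousOn (fun y : ℝ => f (a + y * I)) [[z.im, w.im]] := by
  refine hc.comp (by fun_prop) ?_
  intro y hy
  apply hzw
  refine ⟨?_, ?_⟩
  · simpa using ha
  · simpa using hy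

theorem pvcx_rect_zero {f : ℂ → ℂ} {U : Set ℂ} (hc : ContinuousOn f U) (hd : ∀ z ∈ U, z.im ≠ 0 → DifferentiableAt ℂ f z) (z w : ℂ)
    (hzw : Rectangle z w ⊆ U) : pvcxB f z w = 0 := by
  by_cases h0 : 0 ∈ Ioo (min z.im w.im) (max z.im w.im)
  · have h0' : (0:ℝ) ∈ [[z.im, w.im]] := Ioo_subset_Icc_self h0
    set m1 : ℂ := ⟨w.re, 0⟩ with hm1
    set m2 : ℂ := ⟨z.re, 0⟩ with hm2
    have s1 : Rectangle z m1 ⊆ U := by
      refine subset_trans ?_ hzw
      intro u hu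
      refine ⟨hu.1, ?_⟩
      exact uIcc_subset_uIcc left_mem_uIcc h0' hu.2
    have s2 : Rectangle m2 w ⊆ U := by
      refine subset_trans ?_ hzw
      intro u hu
      refine ⟨hu.1, ?_⟩
      exact uIcc_subset_uIcc h0' right_mem_uIcc hu.2
    have e1 := pvcx_rect_one hc hd z m1 s1 (by
      simp only [hm1]
      intro h
      rcases le_total z.im 0 with h' | h'
      · rw [max_eq_right h'] at h; exact lt_irrefl _ h.2
      · rw [min_eq_right h'] at h; exact lt_irrefl _ h.1)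
    have e2 := pvcx_rect_one hc hd m2 w s2 (by
      simp only [hm2]
      intro h
      rcases le_total w.im 0 with h' | h'
      · rw [max_eq_left h'] at h; exact lt_irrefl _ h.2
      · rw [min_eq_left h'] at h; exact lt_irrefl _ h.1)
    have cw := pvcx_rect_vert hc z w hzw w.re right_mem_uIcc
    have cz := pvcx_rect_vert hc z w hzw z.re left_mem_uIcc
    have iw1 : IntervalIntegrable (fun y : ℝ => f (w.re + y * I)) volume z.im 0 :=
      (cw.mono (uIcc_subset_uIcc left_mem_uIcc h0')).intervalIntegrable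
    have iw2 : IntervalIntegrable (fun y : ℝ => f (w.re + y * I)) volume 0 w.im :=
      (cw.mono (uIcc_subset_uIcc h0' right_mem_uIcc)).intervalIntegrable
    have iz1 : IntervalIntegrable (fun y : ℝ => f (z.re + y * I)) volume z.im 0 :=
      (cz.mono (uIcc_subset_uIcc left_mem_uIcc h0')).intervalIntegrable
    have iz2 : IntervalIntegrable (fun y : ℝ => f (z.re + y * I)) volume 0 w.im :=
      (cz.mono (uIcc_subset_uIcc h0' right_mem_uIcc)).intervalIntegrable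
    have aw := intervalIntegral.integral_add_adjacent_intervals iw1 iw2
    have az := intervalIntegral.integral_add_adjacent_intervals iz1 iz2
    unfold pvcxB at e1 e2 ⊢
    simp only [hm1, hm2] at e1 e2
    rw [← aw, ← az]
    simp only [smul_add]
    linear_combination e1 + e2
  · exact pvcx_rect_one hc hd z w hzw h0

/-- a continuous function which is holomorphic off the real line is holomorphic -/
theorem pvcx_holo_off_real {f : ℂ → ℂ} {U : Set ℂ} (hU : IsOpen U) (hc : ContinuousOn f U) (hd : ∀ z ∈ U, z.im ≠ 0 → DifferentiableAt ℂ f z) :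
    DifferentiableOn ℂ f U := by
  refine (isConservativeOn_and_continuousOn_iff_isDifferentiableOn hU).1 ⟨?_, hc⟩
  intro z w hzw
  rw [← add_eq_zero_iff_eq_neg, wedgeIntegral_add_wedgeIntegral_eq]
  exact pvcx_rect_zero hc hd z w hzw

/-- the Schwarz reflection of a function on the closed upper half plane -/
noncomputable def pvcxRefl (q : ℂ → ℂ) (z : ℂ) : ℂ := if 0 ≤ z.im then q z else conj (q (conj z))

theorem pvcx_refl_up (q : ℂ → ℂ) {z : ℂ} (hz : 0 ≤ z.im) : pvcxRefl q z = q z := by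
  unfold pvcxRefl; rw [if_pos hz]

theorem pvcx_refl_low (q : ℂ → ℂ) {z : ℂ} (hz : z.im < 0) : pvcxRefl q z = conj (q (conj z)) := by
  unfold pvcxRefl; rw [if_neg (not_le.2 hz)]

theorem pvcx_refl_norm (q : ℂ → ℂ) (z : ℂ) : ‖pvcxRefl q z‖ = ‖q z‖ ∧ 0 ≤ z.im ∨ ‖pvcxRefl q z‖ = ‖q (conj z)‖ ∧ 0 ≤ (conj z).im := by
  by_cases hz : 0 ≤ z.im
  · left; exact ⟨by rw [pvcx_refl_up q hz], hz⟩
  · right
    rw [pvcx_refl_low q (not_le.1 hz)]
    refine ⟨by simp, ?_⟩
    simp only [conj_im]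
    linarith [not_le.1 hz]

/-- **Schwarz reflection** with a closed symmetric exceptional set -/
theorem pvcx_refl_diff {q : ℂ → ℂ} {E : Set ℂ} (hE : IsClosed E) (hEs : ∀ z, conj z ∈ E → z ∈ E)
    (hc : ContinuousOn q ({z | 0 ≤ z.im} \ E)) (hd : ∀ z, 0 < z.im → z ∉ E → DifferentiableAt ℂ q z)
    (hr : ∀ x : ℝ, (x : ℂ) ∉ E → (q x).im = 0) : DifferentiableOn ℂ (pvcxRefl q) Eᶜ := by
  have hlow : ∀ z, z.im ≤ 0 → z ∉ E → pvcxRefl q z = conj (q (conj z)) := by
    intro z hz hzE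
    rcases lt_or_eq_of_le hz with h | h
    · exact pvcx_refl_low q h
    · rw [pvcx_refl_up q h.ge]
      have e : z = ((z.re : ℝ) : ℂ) := by apply Complex.ext <;> simp [h]
      have e2 : conj z = z := by rw [e]; exact conj_ofReal _
      rw [e2]
      have := hr z.re (by rw [← e]; exact hzE)
      rw [← e] at this
      exact (conj_eq_iff_im.2 this).symm
  have cA : ContinuousOn (pvcxRefl q) ({z | 0 ≤ z.im} \ E) := hc.congr fun z hz => pvcx_refl_up q hz.1
  have cB : ContinuousOn (pvcxRefl q) ({z | z.im ≤ 0} \ E) := by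
    have : ContinuousOn (fun z => conj (q (conj z))) ({z | z.im ≤ 0} \ E) := by
      refine continuous_conj.comp_continuousOn (hc.comp continuous_conj.continuousOn ?_)
      intro z hz
      refine ⟨?_, fun h => hz.2 (hEs z h)⟩
      have : z.im ≤ 0 := hz.1
      simp only [mem_ofPred_eq, conj_im]
      linarith
    exact this.congr fun z hz => hlow z hz.1 hz.2
  have hcont : ContinuousOn (pvcxRefl q) Eᶜ := by
    intro z0 hz0
    have hnE : Eᶜ ∈ 𝓝 z0 := hE.isOpen_compl.mem_nhds hz0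
    refine ContinuousAt.continuousWithinAt ?_
    rw [← continuousWithinAt_univ]
    have hun : (univ : Set ℂ) = {z | 0 ≤ z.im} ∪ {z | z.im ≤ 0} := by
      ext z; simp [le_total]
    rw [hun]
    refine ContinuousWithinAt.union ?_ ?_
    · by_cases h : 0 ≤ z0.im
      · have := cA z0 ⟨h, hz0⟩
        rwa [sdiff_eq, continuousWithinAt_inter hnE] at this
      · refine continuousWithinAt_of_notMem_closure ?_
        rw [(isClosed_le continuous_const continuous_im).closure_eq]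
        exact h
    · by_cases h : z0.im ≤ 0
      · have := cB z0 ⟨h, hz0⟩
        rwa [sdiff_eq, continuousWithinAt_inter hnE] at this
      · refine continuousWithinAt_of_notMem_closure ?_
        rw [(isClosed_le continuous_im continuous_const).closure_eq]
        exact h
  refine pvcx_holo_off_real hE.isOpen_compl hcont ?_
  intro z hz him
  rcases lt_or_gt_of_ne him with h | h
  · have h1 : DifferentiableAt ℂ q (conj z) := hd (conj z) (by simp only [conj_im]; linarith) (fun hh => hz (hEs z hh))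
    have h2 : DifferentiableAt ℂ (conj ∘ q ∘ conj) z := differentiableAt_conj_conj_iff.2 h1
    refine h2.congr_of_eventuallyEq ?_
    have : {w : ℂ | w.im < 0} ∈ 𝓝 z := (isOpen_lt continuous_im continuous_const).mem_nhds h
    filter_upwards [this] with w hw
    exact pvcx_refl_low q hw
  · refine (hd z h hz).congr_of_eventuallyEq ?_
    have : {w : ℂ | 0 < w.im} ∈ 𝓝 z := (isOpen_lt continuous_const continuous_im).mem_nhds h
    filter_upwards [this] with w hw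
    exact pvcx_refl_up q (le_of_lt hw)

theorem pvcx_rigid_o {f : ℂ → ℂ} {M : ℂ → ℝ} {c : ℂ} (hb : ∀ᶠ z in 𝓝[≠] c, ‖f z‖ ≤ M z)
    (h0 : Tendsto (fun z => ‖z - c‖ * M z) (𝓝[≠] c) (𝓝 0)) : (fun z => f z - f c) =o[𝓝[≠] c] fun z => (z - c)⁻¹ := by
  rw [Asymptotics.isLittleO_iff_tendsto']
  · rw [tendsto_zero_iff_norm_tendsto_zero]
    have h2 : Tendsto (fun z : ℂ => ‖z - c‖ * M z + ‖z - c‖ * ‖f c‖) (𝓝[≠] c) (𝓝 0) := by
      have h3 : Tendsto (fun z : ℂ => ‖z - c‖) (𝓝[≠] c) (𝓝 0) := by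
        have : Tendsto (fun z : ℂ => ‖z - c‖) (𝓝 c) (𝓝 ‖c - c‖) := (continuous_id.sub continuous_const).norm.tendsto c
        rw [sub_self, norm_zero] at this
        exact this.mono_left nhdsWithin_le_nhds
      simpa using h0.add (h3.mul_const ‖f c‖)
    refine squeeze_zero' (Eventually.of_forall fun z => norm_nonneg _) ?_ h2
    filter_upwards [hb] with z hz
    rw [div_inv_eq_mul, norm_mul]
    calc ‖f z - f c‖ * ‖z - c‖ ≤ (M z + ‖f c‖) * ‖z - c‖ :=
          mul_le_mul_of_nonneg_right ((norm_sub_le _ _).trans (by linarith)) (norm_nonneg _)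
      _ = _ := by ring
  · filter_upwards [self_mem_nhdsWithin] with z hz h
    exact absurd (inv_eq_zero.1 h) (sub_ne_zero.2 hz)

/-- **rigidity**: holomorphic in the upper half plane, real on `ℝ \ {0,1}`, `o(1/|z-c|)` at `c = 0, 1`, `o(1)` at infinity: zero -/
theorem pvcx_rigid {q : ℂ → ℂ} {M : ℂ → ℝ}
    (hc : ContinuousOn q ({z | 0 ≤ z.im} \ {0, 1})) (hd : DifferentiableOn ℂ q {z | 0 < z.im})
    (hr : ∀ x : ℝ, x ≠ 0 → x ≠ 1 → (q x).im = 0)
    (hM : ∀ z, 0 ≤ z.im → z ≠ 0 → z ≠ 1 → ‖q z‖ ≤ M z) (hMs : ∀ z, M (conj z) = M z)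
    (h0 : Tendsto (fun z => ‖z - 0‖ * M z) (𝓝[≠] 0) (𝓝 0)) (h1 : Tendsto (fun z => ‖z - 1‖ * M z) (𝓝[≠] 1) (𝓝 0))
    (hinf : Tendsto M (cocompact ℂ) (𝓝 0)) :
    ∀ z, 0 ≤ z.im → z ≠ 0 → z ≠ 1 → q z = 0 := by
  have hE : IsClosed ({0, 1} : Set ℂ) := (Set.toFinite _).isClosed
  have hf : DifferentiableOn ℂ (pvcxRefl q) ({0, 1} : Set ℂ)ᶜ := by
    refine pvcx_refl_diff hE ?_ hc ?_ ?_
    · intro z hz
      rcases hz with h | h
      · left; simpa using congrArg conj h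
      · right
        have := congrArg conj h
        simpa using this
    · intro z hz _
      exact hd.differentiableAt ((isOpen_lt continuous_const continuous_im).mem_nhds hz)
    · intro x hx
      refine hr x ?_ ?_
      · intro h; apply hx; left; simp [h]
      · intro h; apply hx; right; simp [h]
  set f := pvcxRefl q with hfdef
  have hb : ∀ z, z ≠ 0 → z ≠ 1 → ‖f z‖ ≤ M z := by
    intro z hz0 hz1
    rcases pvcx_refl_norm q z with ⟨h, h'⟩ | ⟨h, h'⟩
    · rw [hfdef, h]; exact hM z h' hz0 hz1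
    · rw [hfdef, h, ← hMs z]
      refine hM _ h' ?_ ?_
      · intro hh; apply hz0; simpa using congrArg conj hh
      · intro hh; apply hz1; simpa using congrArg conj hh
  have n01 : ∀ᶠ z in 𝓝[≠] (0:ℂ), z ≠ 1 := by
    have : ({1}ᶜ : Set ℂ) ∈ 𝓝 (0:ℂ) := isOpen_compl_singleton.mem_nhds (by simp)
    exact mem_nhdsWithin_of_mem_nhds this
  have n10 : ∀ᶠ z in 𝓝[≠] (1:ℂ), z ≠ 0 := by
    have : ({0}ᶜ : Set ℂ) ∈ 𝓝 (1:ℂ) := isOpen_compl_singleton.mem_nhds (by simp)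
    exact mem_nhdsWithin_of_mem_nhds this
  -- remove 0
  set f1 := Function.update f 0 (limUnder (𝓝[≠] 0) f) with hf1
  have d1 : DifferentiableOn ℂ f1 ({1}ᶜ : Set ℂ) := by
    refine differentiableOn_update_limUnder_of_isLittleO (isOpen_compl_singleton.mem_nhds (by simp)) ?_ ?_
    · refine hf.mono ?_
      intro z hz
      simp only [Set.mem_sdiff, mem_compl_iff, mem_singleton_iff, mem_insert_iff, not_or] at hz ⊢
      exact ⟨hz.2, hz.1⟩
    · refine pvcx_rigid_o ?_ h0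
      filter_upwards [self_mem_nhdsWithin, n01] with z hz hz1
      exact hb z hz hz1
  have e1 : ∀ z, z ≠ 0 → f1 z = f z := fun z hz => Function.update_of_ne hz _ _
  set f2 := Function.update f1 1 (limUnder (𝓝[≠] 1) f1) with hf2
  have d2 : DifferentiableOn ℂ f2 (univ : Set ℂ) := by
    refine differentiableOn_update_limUnder_of_isLittleO univ_mem ?_ ?_
    · refine d1.mono ?_
      intro z hz
      simpa using hz
    · refine pvcx_rigid_o ?_ h1
      filter_upwards [self_mem_nhdsWithin, n10] with z hz hz0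
      rw [e1 z hz0]
      exact hb z hz0 hz
  have e2 : ∀ z, z ≠ 0 → z ≠ 1 → f2 z = f z := fun z hz0 hz1 => by
    rw [hf2, Function.update_of_ne hz1, e1 z hz0]
  have hlim : Tendsto f2 (cocompact ℂ) (𝓝 0) := by
    rw [tendsto_zero_iff_norm_tendsto_zero]
    refine squeeze_zero' (Eventually.of_forall fun z => norm_nonneg _) ?_ hinf
    have : ({0, 1} : Set ℂ)ᶜ ∈ cocompact ℂ := (Set.toFinite _).isCompact.compl_mem_cocompact
    filter_upwards [this] with z hz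
    simp only [mem_compl_iff, mem_insert_iff, mem_singleton_iff, not_or] at hz
    rw [e2 z hz.1 hz.2]
    exact hb z hz.1 hz.2
  have hz := (differentiableOn_univ.1 d2).eq_const_of_tendsto_cocompact hlim
  intro z hz' hz0 hz1
  have := congrFun hz z
  rw [e2 z hz0 hz1, hfdef, pvcx_refl_up q hz'] at this
  simpa using this

/-! ## B. the Schwarz-Christoffel density -/

theorem pvcx_log_cont : ContinuousOn Complex.log ({z : ℂ | 0 ≤ z.im} \ {0}) := by
  intro z hz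
  by_cases h : z ∈ slitPlane
  · exact (continuousAt_clog h).continuousWithinAt
  · rw [mem_slitPlane_iff, not_or, not_lt, not_not] at h
    have hre : z.re < 0 := by
      refine lt_of_le_of_ne h.1 ?_
      intro h0
      exact hz.2 (Complex.ext h0 h.2)
    exact (continuousWithinAt_log_of_re_neg_of_im_zero hre h.2).mono fun w hw => hw.1

theorem pvcx_cpow_cont (a : ℂ) : ContinuousOn (fun z : ℂ => z ^ a) ({z : ℂ | 0 ≤ z.im} \ {0}) := by
  have : ContinuousOn (fun z : ℂ => cexp (Complex.log z * a)) ({z : ℂ | 0 ≤ z.im} \ {0}) :=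
    continuous_exp.comp_continuousOn (pvcx_log_cont.mul continuousOn_const)
  refine this.congr fun z hz => ?_
  exact cpow_def_of_ne_zero hz.2 a

/-- `(z (1 - z))^(-s)` on the closed upper half plane, branch positive on `(0,1)` -/
noncomputable def pvcxH (s : ℝ) (z : ℂ) : ℂ := cexp (Real.pi * s * I) * (z ^ ((-s : ℝ) : ℂ) * (z - 1) ^ ((-s : ℝ) : ℂ))

theorem pvcx_H_cont (s : ℝ) : ContinuousOn (pvcxH s) ({z : ℂ | 0 ≤ z.im} \ {0, 1}) := by
  unfold pvcxH
  refine continuousOn_const.mul (ContinuousOn.mul ?_ ?_)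
  · refine (pvcx_cpow_cont _).mono ?_
    intro z hz
    exact ⟨hz.1, fun h => hz.2 (Or.inl h)⟩
  · refine (pvcx_cpow_cont ((-s : ℝ) : ℂ)).comp (continuous_id.sub continuous_const).continuousOn ?_
    intro z hz
    refine ⟨?_, ?_⟩
    · have : 0 ≤ z.im := hz.1
      simpa using this
    · intro h
      apply hz.2
      right
      have : z - 1 = 0 := h
      exact sub_eq_zero.1 this

theorem pvcx_H_diff (s : ℝ) {z : ℂ} (hz : 0 < z.im) : DifferentiableAt ℂ (pvcxH s) z := by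
  unfold pvcxH
  refine (differentiableAt_const _).mul (DifferentiableAt.mul ?_ ?_)
  · exact differentiableAt_id.cpow_const (mem_slitPlane_iff.2 (Or.inr hz.ne'))
  · exact (differentiableAt_id.sub_const 1).cpow_const (mem_slitPlane_iff.2 (Or.inr (by simpa using hz.ne')))

theorem pvcx_H_norm (s : ℝ) (z : ℂ) : ‖pvcxH s z‖ = ‖z‖ ^ (-s) * ‖z - 1‖ ^ (-s) := by
  unfold pvcxH
  rw [norm_mul, norm_mul, norm_cpow_real, norm_cpow_real]
  have : ‖cexp (Real.pi * s * I)‖ = 1 := by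
    have := Complex.norm_exp_ofReal_mul_I (Real.pi * s)
    simpa using this
  rw [this, one_mul]

/-- the majorant with a fixed singularity -/
theorem pvcx_H_le {s : ℝ} (hs : 0 ≤ s) {z : ℂ} (hz : 0 < z.im) : ‖pvcxH s z‖ ≤ 2 ^ s * z.im ^ (-s) := by
  rw [pvcx_H_norm]
  have h1 : z.im ≤ ‖z‖ := (le_abs_self _).trans (abs_im_le_norm z)
  have h2 : z.im ≤ ‖z - 1‖ := by
    have := (le_abs_self _).trans (abs_im_le_norm (z - 1))
    simpa using this
  have h3 : (1:ℝ) ≤ ‖z‖ + ‖z - 1‖ := by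
    have := norm_sub_le z (z - 1)
    simpa using this
  have hmono : ∀ a b : ℝ, 0 < a → a ≤ b → b ^ (-s) ≤ a ^ (-s) := fun a b ha hab =>
    Real.rpow_le_rpow_of_nonpos ha hab (by linarith)
  have h2s : (1 / 2 : ℝ) ^ (-s) = 2 ^ s := by
    rw [one_div, Real.inv_rpow (by norm_num), Real.rpow_neg (by norm_num), inv_inv]
  rcases le_total (1 / 2 : ℝ) ‖z‖ with h | h
  · calc ‖z‖ ^ (-s) * ‖z - 1‖ ^ (-s) ≤ (1 / 2 : ℝ) ^ (-s) * z.im ^ (-s) :=
          mul_le_mul (hmono _ _ (by norm_num) h) (hmono _ _ hz h2) (by positivity) (by positivity)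
      _ = _ := by rw [h2s]
  · have h' : (1 / 2 : ℝ) ≤ ‖z - 1‖ := by linarith
    calc ‖z‖ ^ (-s) * ‖z - 1‖ ^ (-s) ≤ z.im ^ (-s) * (1 / 2 : ℝ) ^ (-s) :=
          mul_le_mul (hmono _ _ hz h1) (hmono _ _ (by norm_num) h') (by positivity) (by positivity)
      _ = _ := by rw [h2s]; ring

/-- boundary values of the density -/
theorem pvcx_H_mid (s : ℝ) {x : ℝ} (h0 : 0 < x) (h1 : x < 1) : pvcxH s x = ((x * (1 - x)) ^ (-s) : ℝ) := by
  unfold pvcxH
  have e1 : (x : ℂ) ^ ((-s : ℝ) : ℂ) = ((x ^ (-s) : ℝ) : ℂ) := (ofReal_cpow h0.le _).symm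
  have e2 : ((x : ℂ) - 1) ^ ((-s : ℝ) : ℂ) = (((1 - x) ^ (-s) : ℝ) : ℂ) * cexp (Real.pi * I * ((-s : ℝ) : ℂ)) := by
    have : ((x : ℂ) - 1) = ((x - 1 : ℝ) : ℂ) := by push_cast; ring
    rw [this, ofReal_cpow_of_nonpos (by linarith)]
    congr 1
    rw [ofReal_cpow (by linarith)]
    congr 1
    push_cast; ring
  rw [e1, e2, Real.mul_rpow h0.le (by linarith)]
  have e3 : cexp (Real.pi * s * I) * cexp (Real.pi * I * ((-s : ℝ) : ℂ)) = 1 := by
    rw [← Complex.exp_add]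
    have : (Real.pi * s * I + Real.pi * I * ((-s : ℝ) : ℂ) : ℂ) = 0 := by push_cast; ring
    rw [this, Complex.exp_zero]
  rw [ofReal_mul]
  linear_combination (((x ^ (-s) : ℝ) : ℂ) * (((1 - x) ^ (-s) : ℝ) : ℂ)) * e3

theorem pvcx_H_right (s : ℝ) {x : ℝ} (h1 : 1 < x) : pvcxH s x = cexp (Real.pi * s * I) * ((x * (x - 1)) ^ (-s) : ℝ) := by
  unfold pvcxH
  have e1 : (x : ℂ) ^ ((-s : ℝ) : ℂ) = ((x ^ (-s) : ℝ) : ℂ) := (ofReal_cpow (by linarith) _).symm
  have e2 : ((x : ℂ) - 1) ^ ((-s : ℝ) : ℂ) = (((x - 1) ^ (-s) : ℝ) : ℂ) := by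
    have : ((x : ℂ) - 1) = ((x - 1 : ℝ) : ℂ) := by push_cast; ring
    rw [this, ofReal_cpow (by linarith)]
  rw [e1, e2, Real.mul_rpow (by linarith) (by linarith), ofReal_mul]

theorem pvcx_H_left (s : ℝ) {x : ℝ} (h0 : x < 0) : pvcxH s x = cexp (-(Real.pi * s * I)) * ((x * (x - 1)) ^ (-s) : ℝ) := by
  unfold pvcxH
  have e1 : (x : ℂ) ^ ((-s : ℝ) : ℂ) = (((-x) ^ (-s) : ℝ) : ℂ) * cexp (Real.pi * I * ((-s : ℝ) : ℂ)) := by
    rw [ofReal_cpow_of_nonpos h0.le]
    congr 1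
    rw [ofReal_cpow (by linarith)]
    congr 1
    push_cast; ring
  have e2 : ((x : ℂ) - 1) ^ ((-s : ℝ) : ℂ) = (((1 - x) ^ (-s) : ℝ) : ℂ) * cexp (Real.pi * I * ((-s : ℝ) : ℂ)) := by
    have : ((x : ℂ) - 1) = ((x - 1 : ℝ) : ℂ) := by push_cast; ring
    rw [this, ofReal_cpow_of_nonpos (by linarith)]
    congr 1
    rw [ofReal_cpow (by linarith)]
    congr 1
    push_cast; ring
  have e4 : x * (x - 1) = (-x) * (1 - x) := by ring
  rw [e1, e2, e4, Real.mul_rpow (by linarith) (by linarith), ofReal_mul]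
  have e3 : cexp (Real.pi * s * I) * (cexp (Real.pi * I * ((-s : ℝ) : ℂ)) * cexp (Real.pi * I * ((-s : ℝ) : ℂ))) = cexp (-(Real.pi * s * I)) := by
    rw [← Complex.exp_add, ← Complex.exp_add]
    congr 1
    push_cast; ring
  linear_combination ((((-x) ^ (-s) : ℝ) : ℂ) * (((1 - x) ^ (-s) : ℝ) : ℂ)) * e3

/-! ## C. the Schwarz-Christoffel primitive -/

theorem pvcx_prim_ex (s : ℝ) : ∃ g : ℂ → ℂ, ∀ z : ℂ, 0 < z.im → HasDerivAt g (pvcxH s z) z := by
  have hd : DifferentiableOn ℂ (pvcxH s) {z : ℂ | 0 < z.im} := fun z hz => (pvcx_H_diff s hz).differentiableWithinAt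
  obtain ⟨g, hg⟩ := (convex_halfSpace_im_gt 0).exists_forall_hasDerivWithinAt hd
  exact ⟨g, fun z hz => (hg z hz).hasDerivAt ((isOpen_lt continuous_const continuous_im).mem_nhds hz)⟩

/-- a primitive in the open half plane -/
noncomputable def pvcxG0 (s : ℝ) : ℂ → ℂ := Classical.choose (pvcx_prim_ex s)

theorem pvcx_G0_deriv (s : ℝ) {z : ℂ} (hz : 0 < z.im) : HasDerivAt (pvcxG0 s) (pvcxH s z) z := Classical.choose_spec (pvcx_prim_ex s) z hz

/-- derivative along a line -/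
theorem pvcx_G0_line (s : ℝ) (z v : ℂ) {t : ℝ} (ht : 0 < (z + t * v).im) : HasDerivAt (fun t : ℝ => pvcxG0 s (z + t * v)) (v * pvcxH s (z + t * v)) t := by
  have h1 : HasDerivAt (fun t : ℝ => z + (t : ℂ) * v) v t := by
    have h0 : HasDerivAt (fun t : ℝ => (t : ℂ)) 1 t := Complex.ofRealCLM.hasDerivAt
    simpa using (h0.mul_const v).const_add z
  have := HasDerivAt.scomp t (pvcx_G0_deriv s ht) h1
  simpa [Function.comp_def] using this

theorem pvcx_H_line_cont (s : ℝ) (z v : ℂ) {S : Set ℝ} (hS : ∀ t ∈ S, 0 < (z + t * v).im) : ContinuousOn (fun t : ℝ => pvcxH s (z + t * v)) S := by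
  intro t ht
  have h1 : ContinuousAt (pvcxH s) (z + t * v) := (pvcx_H_diff s (hS t ht)).continuousAt
  have h2 : ContinuousAt (fun t : ℝ => z + (t : ℂ) * v) t := by fun_prop
  exact (ContinuousAt.comp (f := fun t : ℝ => z + (t : ℂ) * v) h1 h2).continuousWithinAt

/-- fundamental theorem along a segment in the open half plane -/
theorem pvcx_G0_ftc (s : ℝ) (z v : ℂ) {a b : ℝ} (h : ∀ t ∈ [[a, b]], 0 < (z + t * v).im) :
    v * ∫ t in a..b, pvcxH s (z + t * v) = pvcxG0 s (z + b * v) - pvcxG0 s (z + a * v) := by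
  rw [← intervalIntegral.integral_const_mul]
  refine intervalIntegral.integral_eq_sub_of_hasDerivAt (fun t ht => pvcx_G0_line s z v (h t ht)) ?_
  exact (continuousOn_const.mul (pvcx_H_line_cont s z v h)).intervalIntegrable

/-- the primitive on the closed half plane -/
noncomputable def pvcxG1 (s : ℝ) (z : ℂ) : ℂ := pvcxG0 s (z + I) - I * ∫ t in (0:ℝ)..1, pvcxH s (z + t * I)

theorem pvcx_G1_eq (s : ℝ) {z : ℂ} (hz : 0 < z.im) : pvcxG1 s z = pvcxG0 s z := by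
  unfold pvcxG1
  have := pvcx_G0_ftc s z I (a := 0) (b := 1) (fun t ht => by
    rw [uIcc_of_le zero_le_one] at ht
    simp only [add_im, mul_im, ofReal_re, I_im, mul_one, ofReal_im, I_re, mul_zero, add_zero]
    linarith [ht.1])
  rw [this]
  simp

theorem pvcx_G1_cont {s : ℝ} (hs0 : 0 ≤ s) (hs1 : s < 1) : ContinuousOn (pvcxG1 s) {z : ℂ | 0 ≤ z.im} := by
  intro z0 hz0
  have hz0' : 0 ≤ z0.im := hz0
  unfold pvcxG1
  refine ContinuousWithinAt.sub ?_ (continuousWithinAt_const.mul ?_)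
  · have h1 : ContinuousAt (pvcxG0 s) (z0 + I) := (pvcx_G0_deriv s (by simp; linarith)).continuousAt
    have h2 : ContinuousAt (fun z : ℂ => z + I) z0 := by fun_prop
    exact (ContinuousAt.comp (f := fun z : ℂ => z + I) h1 h2).continuousWithinAt
  · have him : ∀ (z : ℂ) (t : ℝ), (z + t * I).im = z.im + t := fun z t => by simp
    refine intervalIntegral.continuousWithinAt_of_dominated_interval (bound := fun t => 2 ^ s * t ^ (-s)) ?_ ?_ ?_ ?_
    · filter_upwards [self_mem_nhdsWithin] with z hz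
      have hz' : 0 ≤ z.im := hz
      refine (pvcx_H_line_cont s z I (S := Ι (0:ℝ) 1) ?_).aestronglyMeasurable measurableSet_uIoc
      intro t ht
      rw [uIoc_of_le zero_le_one] at ht
      rw [him]; linarith [ht.1]
    · filter_upwards [self_mem_nhdsWithin] with z hz
      have hz' : 0 ≤ z.im := hz
      refine Eventually.of_forall fun t ht => ?_
      rw [uIoc_of_le zero_le_one] at ht
      have hpos : 0 < (z + t * I).im := by rw [him]; linarith [ht.1]
      refine (pvcx_H_le hs0 hpos).trans ?_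
      refine mul_le_mul_of_nonneg_left ?_ (by positivity)
      rw [him]
      exact Real.rpow_le_rpow_of_nonpos ht.1 (by linarith) (by linarith)
    · exact (intervalIntegral.intervalIntegrable_rpow' (by linarith)).const_mul _
    · refine Eventually.of_forall fun t ht => ?_
      rw [uIoc_of_le zero_le_one] at ht
      have hpos : 0 < (z0 + t * I).im := by rw [him]; linarith [ht.1]
      have h1 : ContinuousAt (pvcxH s) (z0 + t * I) := (pvcx_H_diff s hpos).continuousAt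
      have h2 : ContinuousAt (fun z : ℂ => z + t * I) z0 := by fun_prop
      exact (ContinuousAt.comp (f := fun z : ℂ => z + t * I) h1 h2).continuousWithinAt

theorem pvcx_G0_vert {s : ℝ} (hs0 : 0 ≤ s) (hs1 : s < 1) {z : ℂ} (hz : 0 < z.im) {δ : ℝ} (hδ : 0 ≤ δ) :
    ‖pvcxG0 s (z + δ * I) - pvcxG0 s z‖ ≤ 2 ^ s * δ ^ (1 - s) / (1 - s) := by
  have him : ∀ (t : ℝ), (z + t * I).im = z.im + t := fun t => by simp
  have h1 := pvcx_G0_ftc s z I (a := 0) (b := δ) (fun t ht => by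
    rw [uIcc_of_le hδ] at ht
    rw [him]; linarith [ht.1])
  have e0 : z + ((0:ℝ) : ℂ) * I = z := by simp
  rw [e0] at h1
  rw [← h1, norm_mul, norm_I, one_mul]
  have h2 : ‖∫ t in (0:ℝ)..δ, pvcxH s (z + t * I)‖ ≤ ∫ t in (0:ℝ)..δ, 2 ^ s * t ^ (-s) := by
    refine intervalIntegral.norm_integral_le_of_norm_le hδ ?_ ((intervalIntegral.intervalIntegrable_rpow' (by linarith)).const_mul _)
    refine Eventually.of_forall fun t ht => ?_
    have hpos : 0 < (z + t * I).im := by rw [him]; linarith [ht.1]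
    refine (pvcx_H_le hs0 hpos).trans ?_
    refine mul_le_mul_of_nonneg_left ?_ (by positivity)
    rw [him]
    exact Real.rpow_le_rpow_of_nonpos ht.1 (by linarith) (by linarith)
  refine h2.trans (le_of_eq ?_)
  rw [intervalIntegral.integral_const_mul, integral_rpow (Or.inl (by linarith))]
  have e1 : -s + 1 = 1 - s := by ring
  rw [e1, Real.zero_rpow (by linarith), sub_zero, mul_div_assoc]

theorem pvcx_G0_horiz {s : ℝ} (hs0 : 0 ≤ s) {z w : ℂ} {δ : ℝ} (hδ : 0 < δ) (hz : δ ≤ z.im) (hw : δ ≤ w.im) :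
    ‖pvcxG0 s w - pvcxG0 s z‖ ≤ 2 ^ s * δ ^ (-s) * ‖w - z‖ := by
  refine Convex.norm_image_sub_le_of_norm_hasDerivWithin_le (𝕜 := ℂ) (f' := pvcxH s) (s := {u : ℂ | δ ≤ u.im}) ?_ ?_ (convex_halfSpace_im_ge δ) hz hw
  · intro u hu
    exact (pvcx_G0_deriv s (lt_of_lt_of_le hδ hu)).hasDerivWithinAt
  · intro u hu
    have hu' : δ ≤ u.im := hu
    refine (pvcx_H_le hs0 (lt_of_lt_of_le hδ hu)).trans ?_
    exact mul_le_mul_of_nonneg_left (Real.rpow_le_rpow_of_nonpos hδ hu' (by linarith)) (by positivity)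

/-- the Hoelder constant -/
noncomputable def pvcxK (s : ℝ) : ℝ := 2 ^ s * (1 + 2 / (1 - s))

theorem pvcx_K_nonneg {s : ℝ} (hs1 : s < 1) : 0 ≤ pvcxK s := by
  unfold pvcxK
  have : 0 < 1 - s := by linarith
  positivity

theorem pvcx_G0_holder {s : ℝ} (hs0 : 0 ≤ s) (hs1 : s < 1) {z w : ℂ} (hz : 0 < z.im) (hw : 0 < w.im) :
    ‖pvcxG0 s w - pvcxG0 s z‖ ≤ pvcxK s * ‖w - z‖ ^ (1 - s) := by
  rcases eq_or_lt_of_le (norm_nonneg (w - z)) with h0 | hδ
  · have : w = z := by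
      have := norm_eq_zero.1 h0.symm
      exact sub_eq_zero.1 this
    subst this
    simp only [sub_self, norm_zero]
    exact mul_nonneg (pvcx_K_nonneg hs1) (by positivity)
  · set δ := ‖w - z‖ with hδd
    have v1 := pvcx_G0_vert hs0 hs1 hz hδ.le
    have v2 := pvcx_G0_vert hs0 hs1 hw hδ.le
    have h3 := pvcx_G0_horiz hs0 (z := z + δ * I) (w := w + δ * I) hδ (by simp; linarith) (by simp; linarith)
    have e1 : w + δ * I - (z + δ * I) = w - z := by ring
    rw [e1, ← hδd] at h3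
    have e2 : δ ^ (-s) * δ = δ ^ (1 - s) := by
      have := Real.rpow_add hδ (-s) 1
      rw [Real.rpow_one] at this
      rw [← this]; congr 1; ring
    have e3 : pvcxG0 s w - pvcxG0 s z = -(pvcxG0 s (w + δ * I) - pvcxG0 s w) + (pvcxG0 s (w + δ * I) - pvcxG0 s (z + δ * I)) + (pvcxG0 s (z + δ * I) - pvcxG0 s z) := by ring
    rw [e3]
    refine (norm_add₃_le).trans ?_
    rw [norm_neg]
    unfold pvcxK
    have : 2 ^ s * (1 + 2 / (1 - s)) * δ ^ (1 - s) = 2 ^ s * δ ^ (1 - s) / (1 - s) + 2 ^ s * (δ ^ (-s) * δ) + 2 ^ s * δ ^ (1 - s) / (1 - s) := by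
      rw [e2]; ring
    rw [this]
    linarith

theorem pvcx_up_lim (z : ℂ) (hz : 0 ≤ z.im) : Tendsto (fun ε : ℝ => z + ε * I) (𝓝[>] 0) (𝓝[{z : ℂ | 0 ≤ z.im}] z) := by
  rw [tendsto_nhdsWithin_iff]
  constructor
  · have : Tendsto (fun ε : ℝ => z + ε * I) (𝓝 0) (𝓝 (z + ((0:ℝ):ℂ) * I)) := by
      have : Continuous (fun ε : ℝ => z + ε * I) := by fun_prop
      exact this.tendsto 0
    simp only [ofReal_zero, zero_mul, add_zero] at this
    exact this.mono_left nhdsWithin_le_nhds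
  · filter_upwards [self_mem_nhdsWithin] with ε hε
    have : (0:ℝ) < ε := hε
    show 0 ≤ (z + ε * I).im
    simp only [add_im, mul_im, ofReal_re, I_im, mul_one, ofReal_im, I_re, mul_zero, add_zero]
    linarith

theorem pvcx_G1_lim {s : ℝ} (hs0 : 0 ≤ s) (hs1 : s < 1) (z : ℂ) (hz : 0 ≤ z.im) : Tendsto (fun ε : ℝ => pvcxG0 s (z + ε * I)) (𝓝[>] 0) (𝓝 (pvcxG1 s z)) := by
  have h1 : Tendsto (fun ε : ℝ => pvcxG1 s (z + ε * I)) (𝓝[>] 0) (𝓝 (pvcxG1 s z)) := (pvcx_G1_cont hs0 hs1 z hz).tendsto.comp (pvcx_up_lim z hz)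
  refine h1.congr' ?_
  filter_upwards [self_mem_nhdsWithin] with ε hε
  have : (0:ℝ) < ε := hε
  exact pvcx_G1_eq s (by simp; linarith)

theorem pvcx_G1_holder {s : ℝ} (hs0 : 0 ≤ s) (hs1 : s < 1) {z w : ℂ} (hz : 0 ≤ z.im) (hw : 0 ≤ w.im) :
    ‖pvcxG1 s w - pvcxG1 s z‖ ≤ pvcxK s * ‖w - z‖ ^ (1 - s) := by
  have h1 := ((pvcx_G1_lim hs0 hs1 w hw).sub (pvcx_G1_lim hs0 hs1 z hz)).norm
  refine le_of_tendsto h1 ?_
  filter_upwards [self_mem_nhdsWithin] with ε hε
  have hε' : (0:ℝ) < ε := hε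
  have := pvcx_G0_holder hs0 hs1 (z := z + ε * I) (w := w + ε * I) (by simp; linarith) (by simp; linarith)
  have e1 : w + ε * I - (z + ε * I) = w - z := by ring
  rwa [e1] at this

theorem pvcx_up_lim' (z : ℂ) (hz : 0 ≤ z.im) : Tendsto (fun ε : ℝ => z + ε * I) (𝓝[>] 0) (𝓝[{z : ℂ | 0 ≤ z.im} \ {0, 1}] z) := by
  have h := pvcx_up_lim z hz
  rw [tendsto_nhdsWithin_iff] at h ⊢
  refine ⟨h.1, ?_⟩
  filter_upwards [self_mem_nhdsWithin] with ε hε
  have hε' : (0:ℝ) < ε := hε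
  have him : (z + ε * I).im = z.im + ε := by simp
  refine ⟨by show 0 ≤ (z + ε * I).im; rw [him]; linarith, ?_⟩
  rintro (h | h)
  · rw [h] at him; simp at him; linarith
  · rw [h] at him; simp at him; linarith

theorem pvcx_H_real_mem {x : ℝ} (h0 : x ≠ 0) (h1 : x ≠ 1) : (x : ℂ) ∈ {z : ℂ | 0 ≤ z.im} \ {0, 1} := by
  refine ⟨by simp, ?_⟩
  rintro (h | h)
  · exact h0 (by exact_mod_cast h)
  · have h' : (x : ℂ) = 1 := h
    exact h1 (by exact_mod_cast h')

theorem pvcx_H_up_le {s : ℝ} (hs0 : 0 ≤ s) {x : ℝ} (h0 : x ≠ 0) (h1 : x ≠ 1) (ε : ℝ) : ‖pvcxH s (x + ε * I)‖ ≤ ‖pvcxH s x‖ := by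
  rw [pvcx_H_norm, pvcx_H_norm]
  have a1 : ‖(x : ℂ)‖ ≤ ‖(x : ℂ) + ε * I‖ := by
    have := abs_re_le_norm ((x : ℂ) + ε * I)
    simpa using this
  have a2 : ‖(x : ℂ) - 1‖ ≤ ‖(x : ℂ) + ε * I - 1‖ := by
    have := abs_re_le_norm ((x : ℂ) + ε * I - 1)
    have e : ‖(x : ℂ) - 1‖ = |x - 1| := by
      have : (x : ℂ) - 1 = ((x - 1 : ℝ) : ℂ) := by push_cast; ring
      rw [this, norm_real, Real.norm_eq_abs]
    rw [e]
    simpa using this
  have p1 : 0 < ‖(x : ℂ)‖ := norm_pos_iff.2 (by exact_mod_cast h0)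
  have p2 : 0 < ‖(x : ℂ) - 1‖ := norm_pos_iff.2 (sub_ne_zero.2 (by exact_mod_cast h1))
  exact mul_le_mul (Real.rpow_le_rpow_of_nonpos p1 a1 (by linarith)) (Real.rpow_le_rpow_of_nonpos p2 a2 (by linarith)) (by positivity) (by positivity)

/-- increments of the primitive along the real line, away from the two singularities -/
theorem pvcx_G1_incr {s : ℝ} (hs0 : 0 ≤ s) (hs1 : s < 1) {a b : ℝ} (hab : a ≤ b) (h0 : (0:ℝ) ∉ Icc a b) (h1 : (1:ℝ) ∉ Icc a b) :
    pvcxG1 s b - pvcxG1 s a = ∫ x in a..b, pvcxH s x := by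
  have hne : ∀ x ∈ Icc a b, x ≠ 0 ∧ x ≠ 1 := fun x hx => ⟨fun h => h0 (h ▸ hx), fun h => h1 (h ▸ hx)⟩
  have l1 := (pvcx_G1_lim hs0 hs1 b (by simp)).sub (pvcx_G1_lim hs0 hs1 a (by simp))
  have l2 : Tendsto (fun ε : ℝ => ∫ x in a..b, pvcxH s (x + ε * I)) (𝓝[>] 0) (𝓝 (∫ x in a..b, pvcxH s x)) := by
    refine intervalIntegral.tendsto_integral_filter_of_dominated_convergence (fun x => ‖pvcxH s x‖) ?_ ?_ ?_ ?_
    · filter_upwards [self_mem_nhdsWithin] with ε hε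
      have hε' : (0:ℝ) < ε := hε
      have : Continuous (fun x : ℝ => pvcxH s (x + ε * I)) := by
        rw [continuous_iff_continuousAt]
        intro x
        have c1 : ContinuousAt (pvcxH s) (x + ε * I) := (pvcx_H_diff s (by simp; linarith)).continuousAt
        have c2 : ContinuousAt (fun x : ℝ => (x : ℂ) + ε * I) x := by fun_prop
        exact ContinuousAt.comp (f := fun x : ℝ => (x : ℂ) + ε * I) c1 c2
      exact this.aestronglyMeasurable
    · refine Eventually.of_forall fun ε => Eventually.of_forall fun x hx => ?_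
      rw [uIoc_of_le hab] at hx
      obtain ⟨n0, n1⟩ := hne x (Ioc_subset_Icc_self hx)
      exact pvcx_H_up_le hs0 n0 n1 ε
    · refine ContinuousOn.intervalIntegrable ?_
      rw [uIcc_of_le hab]
      refine ContinuousOn.norm ((pvcx_H_cont s).comp continuous_ofReal.continuousOn ?_)
      intro x hx
      exact pvcx_H_real_mem (hne x hx).1 (hne x hx).2
    · refine Eventually.of_forall fun x hx => ?_
      rw [uIoc_of_le hab] at hx
      obtain ⟨n0, n1⟩ := hne x (Ioc_subset_Icc_self hx)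
      exact ((pvcx_H_cont s) x (pvcx_H_real_mem n0 n1)).tendsto.comp (pvcx_up_lim' x (by simp))
  refine tendsto_nhds_unique l1 (l2.congr' ?_)
  filter_upwards [self_mem_nhdsWithin] with ε hε
  have hε' : (0:ℝ) < ε := hε
  have := pvcx_G0_ftc s (ε * I) 1 (a := a) (b := b) (fun t _ => by simp; linarith)
  have e : ∀ t : ℝ, (ε * I + t * 1 : ℂ) = t + ε * I := fun t => by ring
  simp only [e, one_mul] at this
  exact this


/-! ## D. boundary values -/

/-- the incomplete Beta integral -/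
noncomputable def pvcxBf (s : ℝ) (x : ℝ) : ℝ := ∫ u in (0:ℝ)..x, (u * (1 - u)) ^ (-s)

theorem pvcx_Bf_int {s : ℝ} (hs0 : 0 ≤ s) (hs1 : s < 1) : IntervalIntegrable (fun u : ℝ => (u * (1 - u)) ^ (-s)) volume 0 1 := by
  rw [intervalIntegrable_iff_integrableOn_Ioo_of_le zero_le_one]
  have g1 : IntervalIntegrable (fun u : ℝ => u ^ (-s)) volume 0 1 := intervalIntegral.intervalIntegrable_rpow' (by linarith)
  have g2 : IntervalIntegrable (fun u : ℝ => (1 - u) ^ (-s)) volume 0 1 := by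
    have := (intervalIntegral.intervalIntegrable_rpow' (a := 1) (b := 0) (r := -s) (by linarith)).comp_sub_left 1
    simpa using this
  have g3 := ((g1.add g2).const_mul (2 ^ s))
  rw [intervalIntegrable_iff_integrableOn_Ioo_of_le zero_le_one] at g3
  refine Integrable.mono' g3 ?_ ?_
  · exact ((measurable_id.mul (measurable_const.sub measurable_id)).pow_const _).aestronglyMeasurable
  · refine (ae_restrict_iff' measurableSet_Ioo).2 (Eventually.of_forall fun u hu => ?_)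
    have h0 : 0 < u := hu.1
    have h1 : 0 < 1 - u := by linarith [hu.2]
    rw [Real.norm_eq_abs, abs_of_nonneg (by positivity), Real.mul_rpow h0.le h1.le]
    have h2s : (1 / 2 : ℝ) ^ (-s) = 2 ^ s := by
      rw [one_div, Real.inv_rpow (by norm_num), Real.rpow_neg (by norm_num), inv_inv]
    have p1 : 0 ≤ u ^ (-s) := by positivity
    have p2 : 0 ≤ (1 - u) ^ (-s) := by positivity
    have p3 : (0:ℝ) ≤ 2 ^ s := by positivity
    show u ^ (-s) * (1 - u) ^ (-s) ≤ 2 ^ s * (u ^ (-s) + (1 - u) ^ (-s))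
    rcases le_total (1 / 2 : ℝ) u with h | h
    · have : u ^ (-s) ≤ 2 ^ s := by
        rw [← h2s]; exact Real.rpow_le_rpow_of_nonpos (by norm_num) h (by linarith)
      nlinarith [mul_le_mul_of_nonneg_right this p2]
    · have : (1 - u) ^ (-s) ≤ 2 ^ s := by
        rw [← h2s]; exact Real.rpow_le_rpow_of_nonpos (by norm_num) (by linarith) (by linarith)
      nlinarith [mul_le_mul_of_nonneg_left this p1]

theorem pvcx_Bf_int' {s : ℝ} (hs0 : 0 ≤ s) (hs1 : s < 1) {a b : ℝ} (ha : a ∈ Icc (0:ℝ) 1) (hb : b ∈ Icc (0:ℝ) 1) :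
    IntervalIntegrable (fun u : ℝ => (u * (1 - u)) ^ (-s)) volume a b := by
  refine (pvcx_Bf_int hs0 hs1).mono_set ?_
  rw [uIcc_of_le zero_le_one]
  exact uIcc_subset_Icc ha hb

theorem pvcx_Bf_cont {s : ℝ} (hs0 : 0 ≤ s) (hs1 : s < 1) : ContinuousOn (pvcxBf s) (Icc 0 1) := by
  have := intervalIntegral.continuousOn_primitive_interval (a := 0) (b := 1) (μ := volume) (f := fun u : ℝ => (u * (1 - u)) ^ (-s)) (by
    have := (pvcx_Bf_int hs0 hs1)
    rw [intervalIntegrable_iff_integrableOn_Icc_of_le zero_le_one] at this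
    rwa [uIcc_of_le zero_le_one])
  rwa [uIcc_of_le zero_le_one] at this

theorem pvcx_Bf_sub {s : ℝ} (hs0 : 0 ≤ s) (hs1 : s < 1) {a b : ℝ} (ha : a ∈ Icc (0:ℝ) 1) (hb : b ∈ Icc (0:ℝ) 1) :
    pvcxBf s b - pvcxBf s a = ∫ u in a..b, (u * (1 - u)) ^ (-s) := by
  unfold pvcxBf
  exact intervalIntegral.integral_interval_sub_left (pvcx_Bf_int' hs0 hs1 (by simp) hb) (pvcx_Bf_int' hs0 hs1 (by simp) ha)

theorem pvcx_G1_mid_incr {s : ℝ} (hs0 : 0 ≤ s) (hs1 : s < 1) {a b : ℝ} (ha : 0 < a) (hab : a ≤ b) (hb : b < 1) :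
    pvcxG1 s b - pvcxG1 s a = ((pvcxBf s b - pvcxBf s a : ℝ) : ℂ) := by
  rw [pvcx_G1_incr hs0 hs1 hab (fun h => by linarith [h.1]) (fun h => by linarith [h.2]),
    pvcx_Bf_sub hs0 hs1 ⟨ha.le, by linarith⟩ ⟨by linarith, hb.le⟩, ← intervalIntegral.integral_ofReal]
  refine intervalIntegral.integral_congr fun x hx => ?_
  rw [uIcc_of_le hab] at hx
  exact pvcx_H_mid s (by linarith [hx.1]) (by linarith [hx.2])

theorem pvcx_G1_real_cont {s : ℝ} (hs0 : 0 ≤ s) (hs1 : s < 1) : Continuous (fun x : ℝ => pvcxG1 s x) := by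
  have := (pvcx_G1_cont hs0 hs1).comp_continuous continuous_ofReal (fun x => by simp)
  exact this

/-- boundary values on `[0,1]` -/
theorem pvcx_G1_mid {s : ℝ} (hs0 : 0 ≤ s) (hs1 : s < 1) {x : ℝ} (hx : x ∈ Icc (0:ℝ) 1) : pvcxG1 s x - pvcxG1 s 0 = (pvcxBf s x : ℂ) := by
  have hE : EqOn (fun x : ℝ => pvcxG1 s x - (pvcxBf s x : ℂ)) (fun _ => pvcxG1 s ((1 / 2 : ℝ) : ℂ) - (pvcxBf s (1 / 2) : ℂ)) (Icc 0 1) := by
    refine Set.EqOn.of_subset_closure (s := Ioo (0:ℝ) 1) ?_ ?_ continuousOn_const Ioo_subset_Icc_self (by rw [closure_Ioo (by norm_num)])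
    · intro y hy
      simp only
      rcases le_total y (1 / 2) with h | h
      · have := pvcx_G1_mid_incr hs0 hs1 hy.1 h (by norm_num)
        push_cast at this ⊢
        linear_combination -this
      · have := pvcx_G1_mid_incr hs0 hs1 (by norm_num : (0:ℝ) < 1 / 2) h hy.2
        push_cast at this ⊢
        linear_combination this
    · exact (pvcx_G1_real_cont hs0 hs1).continuousOn.sub (continuous_ofReal.comp_continuousOn (pvcx_Bf_cont hs0 hs1))
  have e1 := hE hx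
  have e0 := hE (show (0:ℝ) ∈ Icc (0:ℝ) 1 by simp)
  simp only at e1 e0
  have z0 : pvcxBf s 0 = 0 := by unfold pvcxBf; simp
  rw [z0] at e0
  simp only [ofReal_zero, sub_zero] at e0
  linear_combination e1 - e0

theorem pvcx_G1_right_incr {s : ℝ} (hs0 : 0 ≤ s) (hs1 : s < 1) {a b : ℝ} (ha : 1 < a) (hab : a ≤ b) :
    pvcxG1 s b - pvcxG1 s a = cexp (Real.pi * s * I) * ((∫ u in a..b, (u * (u - 1)) ^ (-s) : ℝ) : ℂ) := by
  rw [pvcx_G1_incr hs0 hs1 hab (fun h => by linarith [h.1]) (fun h => by linarith [h.1]), ← intervalIntegral.integral_ofReal,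
    ← intervalIntegral.integral_const_mul]
  refine intervalIntegral.integral_congr fun x hx => ?_
  rw [uIcc_of_le hab] at hx
  exact pvcx_H_right s (by linarith [hx.1])

theorem pvcx_G1_left_incr {s : ℝ} (hs0 : 0 ≤ s) (hs1 : s < 1) {a b : ℝ} (hab : a ≤ b) (hb : b < 0) :
    pvcxG1 s b - pvcxG1 s a = cexp (-(Real.pi * s * I)) * ((∫ u in a..b, (u * (u - 1)) ^ (-s) : ℝ) : ℂ) := by
  rw [pvcx_G1_incr hs0 hs1 hab (fun h => by linarith [h.2]) (fun h => by linarith [h.2]), ← intervalIntegral.integral_ofReal,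
    ← intervalIntegral.integral_const_mul]
  refine intervalIntegral.integral_congr fun x hx => ?_
  rw [uIcc_of_le hab] at hx
  exact pvcx_H_left s (by linarith [hx.2])

/-- direction on `[1,∞)` -/
theorem pvcx_G1_right {s : ℝ} (hs0 : 0 ≤ s) (hs1 : s < 1) {x : ℝ} (hx : 1 ≤ x) : ((pvcxG1 s x - pvcxG1 s 1) * cexp (-(Real.pi * s * I))).im = 0 := by
  have hc : Continuous (fun a : ℝ => ((pvcxG1 s x - pvcxG1 s a) * cexp (-(Real.pi * s * I))).im) :=
    continuous_im.comp ((continuous_const.sub (pvcx_G1_real_cont hs0 hs1)).mul continuous_const)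
  rcases eq_or_lt_of_le hx with h | h
  · rw [← h]; simp
  · have l1 : Tendsto (fun a : ℝ => ((pvcxG1 s x - pvcxG1 s a) * cexp (-(Real.pi * s * I))).im) (𝓝[>] 1) (𝓝 (((pvcxG1 s x - pvcxG1 s ((1:ℝ):ℂ)) * cexp (-(Real.pi * s * I))).im)) :=
      (hc.tendsto 1).mono_left nhdsWithin_le_nhds
    have l2 : Tendsto (fun a : ℝ => ((pvcxG1 s x - pvcxG1 s a) * cexp (-(Real.pi * s * I))).im) (𝓝[>] 1) (𝓝 0) := by
      refine tendsto_const_nhds.congr' ?_
      filter_upwards [Ioc_mem_nhdsGT h] with a ha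
      rw [pvcx_G1_right_incr hs0 hs1 ha.1 ha.2]
      have : cexp (Real.pi * s * I) * ((∫ u in a..x, (u * (u - 1)) ^ (-s) : ℝ) : ℂ) * cexp (-(Real.pi * s * I)) = ((∫ u in a..x, (u * (u - 1)) ^ (-s) : ℝ) : ℂ) := by
        have e : cexp (Real.pi * s * I) * cexp (-(Real.pi * s * I)) = 1 := by rw [← Complex.exp_add]; simp
        linear_combination ((∫ u in a..x, (u * (u - 1)) ^ (-s) : ℝ) : ℂ) * e
      rw [this, ofReal_im]
    have := tendsto_nhds_unique l1 l2
    simpa using this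

/-- direction on `(-∞,0]` -/
theorem pvcx_G1_left {s : ℝ} (hs0 : 0 ≤ s) (hs1 : s < 1) {x : ℝ} (hx : x ≤ 0) : ((pvcxG1 s x - pvcxG1 s 0) * cexp (Real.pi * s * I)).im = 0 := by
  have hc : Continuous (fun b : ℝ => ((pvcxG1 s x - pvcxG1 s b) * cexp (Real.pi * s * I)).im) :=
    continuous_im.comp ((continuous_const.sub (pvcx_G1_real_cont hs0 hs1)).mul continuous_const)
  rcases eq_or_lt_of_le hx with h | h
  · rw [h]; simp
  · have l1 : Tendsto (fun b : ℝ => ((pvcxG1 s x - pvcxG1 s b) * cexp (Real.pi * s * I)).im) (𝓝[<] 0) (𝓝 (((pvcxG1 s x - pvcxG1 s ((0:ℝ):ℂ)) * cexp (Real.pi * s * I)).im)) :=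
      (hc.tendsto 0).mono_left nhdsWithin_le_nhds
    have l2 : Tendsto (fun b : ℝ => ((pvcxG1 s x - pvcxG1 s b) * cexp (Real.pi * s * I)).im) (𝓝[<] 0) (𝓝 0) := by
      refine tendsto_const_nhds.congr' ?_
      filter_upwards [Ico_mem_nhdsLT h] with b hb
      have e0 := pvcx_G1_left_incr hs0 hs1 hb.1 hb.2
      have : (pvcxG1 s x - pvcxG1 s b) * cexp (Real.pi * s * I) = ((-(∫ u in x..b, (u * (u - 1)) ^ (-s)) : ℝ) : ℂ) := by
        have e : cexp (-(Real.pi * s * I)) * cexp (Real.pi * s * I) = 1 := by rw [← Complex.exp_add]; simp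
        push_cast
        linear_combination (-cexp (Real.pi * s * I)) * e0 - ((∫ u in x..b, (u * (u - 1)) ^ (-s) : ℝ) : ℂ) * e
      rw [this, ofReal_im]
    have := tendsto_nhds_unique l1 l2
    simpa using this


/-! ## E. the three-line problem -/

theorem pvcx_H_ne (s : ℝ) {z : ℂ} (h0 : z ≠ 0) (h1 : z ≠ 1) : pvcxH s z ≠ 0 := by
  rw [← norm_pos_iff, pvcx_H_norm]
  have p1 : 0 < ‖z‖ := norm_pos_iff.2 h0
  have p2 : 0 < ‖z - 1‖ := norm_pos_iff.2 (sub_ne_zero.2 h1)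
  positivity

/-- the majorant of the rigidity lemma -/
noncomputable def pvcxM (C a : ℝ) (z : ℂ) : ℝ := C * (1 + ‖z‖ ^ a) * (‖z‖ ^ (-a) * ‖z - 1‖ ^ (-a))

theorem pvcx_M_conj (C a : ℝ) (z : ℂ) : pvcxM C a (conj z) = pvcxM C a z := by
  unfold pvcxM
  have e : ‖conj z - 1‖ = ‖z - 1‖ := by
    have : conj z - 1 = conj (z - 1) := by simp
    rw [this, Complex.norm_conj]
  rw [Complex.norm_conj, e]

theorem pvcx_M_zero (C : ℝ) {a : ℝ} (ha0 : 0 < a) (ha1 : a < 1) : Tendsto (fun z => ‖z - 0‖ * pvcxM C a z) (𝓝[≠] 0) (𝓝 0) := by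
  have hN : ContinuousAt (fun z : ℂ => C * (1 + ‖z‖ ^ a) * (‖z‖ ^ (1 - a) * ‖z - 1‖ ^ (-a))) 0 := by
    refine ContinuousAt.mul (continuousAt_const.mul (continuousAt_const.add ?_)) (ContinuousAt.mul ?_ ?_)
    · exact continuous_norm.continuousAt.rpow_const (Or.inr ha0.le)
    · exact continuous_norm.continuousAt.rpow_const (Or.inr (by linarith))
    · exact (continuous_id.sub continuous_const).norm.continuousAt.rpow_const (Or.inl (by simp))
  have h1 := hN.tendsto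
  simp only [norm_zero] at h1
  rw [Real.zero_rpow (by linarith : 1 - a ≠ 0)] at h1
  simp only [zero_mul, mul_zero] at h1
  refine (h1.mono_left nhdsWithin_le_nhds).congr' ?_
  filter_upwards [self_mem_nhdsWithin] with z hz
  have hp : 0 < ‖z‖ := norm_pos_iff.2 hz
  unfold pvcxM
  have e : ‖z‖ ^ (1 - a) = ‖z‖ * ‖z‖ ^ (-a) := by
    rw [sub_eq_add_neg, Real.rpow_add hp, Real.rpow_one]
  rw [e, sub_zero]; ring

theorem pvcx_M_one (C : ℝ) {a : ℝ} (ha0 : 0 < a) (ha1 : a < 1) : Tendsto (fun z => ‖z - 1‖ * pvcxM C a z) (𝓝[≠] 1) (𝓝 0) := by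
  have hN : ContinuousAt (fun z : ℂ => C * (1 + ‖z‖ ^ a) * (‖z‖ ^ (-a) * ‖z - 1‖ ^ (1 - a))) 1 := by
    refine ContinuousAt.mul (continuousAt_const.mul (continuousAt_const.add ?_)) (ContinuousAt.mul ?_ ?_)
    · exact continuous_norm.continuousAt.rpow_const (Or.inr ha0.le)
    · exact continuous_norm.continuousAt.rpow_const (Or.inl (by simp))
    · exact (continuous_id.sub continuous_const).norm.continuousAt.rpow_const (Or.inr (by linarith))
  have h1 := hN.tendsto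
  simp only [sub_self, norm_zero] at h1
  rw [Real.zero_rpow (by linarith : 1 - a ≠ 0)] at h1
  simp only [mul_zero] at h1
  refine (h1.mono_left nhdsWithin_le_nhds).congr' ?_
  filter_upwards [self_mem_nhdsWithin] with z hz
  have hp : 0 < ‖z - 1‖ := norm_pos_iff.2 (sub_ne_zero.2 hz)
  unfold pvcxM
  have e : ‖z - 1‖ ^ (1 - a) = ‖z - 1‖ * ‖z - 1‖ ^ (-a) := by
    rw [show (1 - a) = 1 + -a by ring, Real.rpow_add hp, Real.rpow_one]
  rw [e]; ring

theorem pvcx_M_inf (C : ℝ) {a : ℝ} (ha0 : 0 < a) : Tendsto (pvcxM C a) (cocompact ℂ) (𝓝 0) := by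
  have t1 : Tendsto (fun z : ℂ => ‖z‖ ^ (-a)) (cocompact ℂ) (𝓝 0) := (tendsto_rpow_neg_atTop ha0).comp (tendsto_norm_cocompact_atTop)
  have t2 : Tendsto (fun z : ℂ => ‖z - 1‖) (cocompact ℂ) atTop := by
    refine tendsto_atTop_mono (f := fun z : ℂ => ‖z‖ - 1) ?_ ?_
    · intro z
      have := norm_sub_norm_le z 1
      simpa using this
    · exact tendsto_atTop_add_const_right _ (-1) tendsto_norm_cocompact_atTop
  have t3 : Tendsto (fun z : ℂ => ‖z - 1‖ ^ (-a)) (cocompact ℂ) (𝓝 0) := (tendsto_rpow_neg_atTop ha0).comp t2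
  have t4 : Tendsto (fun z : ℂ => C * (‖z‖ ^ (-a) + 1) * ‖z - 1‖ ^ (-a)) (cocompact ℂ) (𝓝 (C * (0 + 1) * 0)) :=
    ((t1.add_const 1).const_mul C).mul t3
  rw [mul_zero] at t4
  refine t4.congr' ?_
  have : ({0} : Set ℂ)ᶜ ∈ cocompact ℂ := isCompact_singleton.compl_mem_cocompact
  filter_upwards [this] with z hz
  have hp : 0 < ‖z‖ := norm_pos_iff.2 hz
  unfold pvcxM
  have e : ‖z‖ ^ a * ‖z‖ ^ (-a) = 1 := by rw [← Real.rpow_add hp]; simp
  linear_combination (-C * ‖z - 1‖ ^ (-a)) * e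

/-- **Lemma RH(s)**: the homogeneous three-line problem has only the zero solution -/
theorem pvcx_RH {s : ℝ} (hs0 : 0 < s) (hs1 : s < 1) {W : ℂ → ℂ} {C : ℝ}
    (hc : ContinuousOn W ({z : ℂ | 0 ≤ z.im} \ {0, 1})) (hd : DifferentiableOn ℂ W {z : ℂ | 0 < z.im})
    (b1 : ∀ x : ℝ, 0 < x → x < 1 → (W x).im = 0)
    (b2 : ∀ x : ℝ, 1 < x → (W x * cexp (-(Real.pi * s * I))).im = 0)
    (b3 : ∀ x : ℝ, x < 0 → (W x * cexp (Real.pi * s * I)).im = 0)
    (hW : ∀ z : ℂ, 0 ≤ z.im → z ≠ 0 → z ≠ 1 → ‖W z‖ ≤ C * (1 + ‖z‖ ^ (1 - s))) :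
    ∀ z : ℂ, 0 ≤ z.im → z ≠ 0 → z ≠ 1 → W z = 0 := by
  have key := pvcx_rigid (q := fun z => W z * pvcxH (1 - s) z) (M := pvcxM C (1 - s)) (hc.mul (pvcx_H_cont _))
    (hd.mul fun z hz => (pvcx_H_diff _ hz).differentiableWithinAt) ?_ ?_ (pvcx_M_conj _ _) (pvcx_M_zero _ (by linarith) (by linarith))
    (pvcx_M_one _ (by linarith) (by linarith)) (pvcx_M_inf _ (by linarith))
  · intro z hz h0 h1
    have := key z hz h0 h1
    exact (mul_eq_zero.1 this).resolve_right (pvcx_H_ne _ h0 h1)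
  · intro x h0 h1
    have em : cexp (Real.pi * ((1 - s : ℝ) : ℂ) * I) = -cexp (-(Real.pi * s * I)) := by
      have : (Real.pi * ((1 - s : ℝ) : ℂ) * I : ℂ) = -(Real.pi * s * I) + Real.pi * I := by push_cast; ring
      rw [this, Complex.exp_add, Complex.exp_pi_mul_I]; ring
    have em' : cexp (-(Real.pi * ((1 - s : ℝ) : ℂ) * I)) = -cexp (Real.pi * s * I) := by
      have : (-(Real.pi * ((1 - s : ℝ) : ℂ) * I) : ℂ) = (Real.pi * s * I) + -(Real.pi * I) := by push_cast; ring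
      rw [this, Complex.exp_add, Complex.exp_neg, Complex.exp_pi_mul_I]; ring
    rcases lt_trichotomy x 0 with h | h | h
    · rw [pvcx_H_left _ h, em']
      have := b3 x h
      have e : W x * (-cexp (Real.pi * s * I) * (((x * (x - 1)) ^ (-(1 - s)) : ℝ) : ℂ)) = (W x * cexp (Real.pi * s * I)) * ((-((x * (x - 1)) ^ (-(1 - s))) : ℝ) : ℂ) := by
        push_cast; ring
      rw [e, im_mul_ofReal, this, zero_mul]
    · exact absurd h h0
    · rcases lt_trichotomy x 1 with h' | h' | h'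
      · rw [pvcx_H_mid _ h h', im_mul_ofReal, b1 x h h', zero_mul]
      · exact absurd h' h1
      · rw [pvcx_H_right _ h', em]
        have := b2 x h'
        have e : W x * (-cexp (-(Real.pi * s * I)) * (((x * (x - 1)) ^ (-(1 - s)) : ℝ) : ℂ)) = (W x * cexp (-(Real.pi * s * I))) * ((-((x * (x - 1)) ^ (-(1 - s))) : ℝ) : ℂ) := by
          push_cast; ring
        rw [e, im_mul_ofReal, this, zero_mul]
  · intro z hz h0 h1
    rw [norm_mul, pvcx_H_norm]
    unfold pvcxM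
    exact mul_le_mul_of_nonneg_right (hW z hz h0 h1) (by positivity)

/-- the Schwarz-Christoffel map `∫_0^z (u (1-u))^(-s) du` on the closed upper half plane -/
noncomputable def pvcxG (s : ℝ) (z : ℂ) : ℂ := pvcxG1 s z - pvcxG1 s 0

theorem pvcx_G_cont {s : ℝ} (hs0 : 0 ≤ s) (hs1 : s < 1) : ContinuousOn (pvcxG s) {z : ℂ | 0 ≤ z.im} :=
  (pvcx_G1_cont hs0 hs1).sub continuousOn_const

theorem pvcx_G_deriv (s : ℝ) {z : ℂ} (hz : 0 < z.im) : HasDerivAt (pvcxG s) (pvcxH s z) z := by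
  have h1 : HasDerivAt (pvcxG1 s) (pvcxH s z) z := by
    refine (pvcx_G0_deriv s hz).congr_of_eventuallyEq ?_
    have : {w : ℂ | 0 < w.im} ∈ 𝓝 z := (isOpen_lt continuous_const continuous_im).mem_nhds hz
    filter_upwards [this] with w hw
    exact pvcx_G1_eq s hw
  exact h1.sub_const _

theorem pvcx_G_le {s : ℝ} (hs0 : 0 ≤ s) (hs1 : s < 1) {z : ℂ} (hz : 0 ≤ z.im) : ‖pvcxG s z‖ ≤ pvcxK s * ‖z‖ ^ (1 - s) := by
  have := pvcx_G1_holder hs0 hs1 (z := 0) (w := z) (by simp) hz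
  simpa [pvcxG] using this

theorem pvcx_G_holder {s : ℝ} (hs0 : 0 ≤ s) (hs1 : s < 1) {z w : ℂ} (hz : 0 ≤ z.im) (hw : 0 ≤ w.im) : ‖pvcxG s w - pvcxG s z‖ ≤ pvcxK s * ‖w - z‖ ^ (1 - s) := by
  have := pvcx_G1_holder hs0 hs1 hz hw
  simpa [pvcxG] using this

theorem pvcx_G_mid {s : ℝ} (hs0 : 0 ≤ s) (hs1 : s < 1) {x : ℝ} (hx : x ∈ Icc (0:ℝ) 1) : pvcxG s x = (pvcxBf s x : ℂ) := pvcx_G1_mid hs0 hs1 hx

theorem pvcx_G_right {s : ℝ} (hs0 : 0 ≤ s) (hs1 : s < 1) {x : ℝ} (hx : 1 ≤ x) : ((pvcxG s x - (pvcxBf s 1 : ℂ)) * cexp (-(Real.pi * s * I))).im = 0 := by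
  have h1 := pvcx_G1_right hs0 hs1 hx
  have h2 := pvcx_G_mid hs0 hs1 (x := 1) (by simp)
  rw [← h2]
  unfold pvcxG
  have e : pvcxG1 s x - pvcxG1 s 0 - (pvcxG1 s ((1:ℝ):ℂ) - pvcxG1 s 0) = pvcxG1 s x - pvcxG1 s 1 := by push_cast; ring
  rw [e]; exact h1

theorem pvcx_G_left {s : ℝ} (hs0 : 0 ≤ s) (hs1 : s < 1) {x : ℝ} (hx : x ≤ 0) : (pvcxG s x * cexp (Real.pi * s * I)).im = 0 := pvcx_G1_left hs0 hs1 hx

/-- **uniqueness for the three-line problem** with the turning angle `π s` at `0` and at `1`: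
`G` of growth `O(1 + |z|^(1-s))`, values on `w0 + ℝ d` over `(0,1)`, on `w0 + d B(s) + ℝ e^{iπs} d` over `(1,∞)`, on `w0 + ℝ e^{-iπs} d` over `(-∞,0)` -/
theorem pvcx_uniq {s : ℝ} (hs0 : 0 < s) (hs1 : s < 1) {G : ℂ → ℂ} {C : ℝ} {w0 d : ℂ} (hd0 : d ≠ 0)
    (hc : ContinuousOn G ({z : ℂ | 0 ≤ z.im} \ {0, 1})) (hd : DifferentiableOn ℂ G {z : ℂ | 0 < z.im})
    (hb : ∀ z : ℂ, 0 ≤ z.im → z ≠ 0 → z ≠ 1 → ‖G z‖ ≤ C * (1 + ‖z‖ ^ (1 - s)))
    (c1 : ∀ x : ℝ, 0 < x → x < 1 → ((G x - w0) / d).im = 0)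
    (c2 : ∀ x : ℝ, 1 < x → ((G x - (w0 + d * pvcxBf s 1)) / d * cexp (-(Real.pi * s * I))).im = 0)
    (c3 : ∀ x : ℝ, x < 0 → ((G x - w0) / d * cexp (Real.pi * s * I)).im = 0) :
    ∀ z : ℂ, 0 ≤ z.im → z ≠ 0 → z ≠ 1 → G z = w0 + d * pvcxG s z := by
  have hC : 0 ≤ C := by
    have := (norm_nonneg _).trans (hb I (by simp) (by simp) (by
      intro h; have := congrArg Complex.im h; simp at this))
    have h2 : (0:ℝ) < 1 + ‖I‖ ^ (1 - s) := by positivity
    exact nonneg_of_mul_nonneg_left this h2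
  have hdn : 0 < ‖d‖ := norm_pos_iff.2 hd0
  have key := pvcx_RH hs0 hs1 (W := fun z => (G z - w0) / d - pvcxG s z) (C := (C + ‖w0‖) / ‖d‖ + pvcxK s) ?_ ?_ ?_ ?_ ?_ ?_
  · intro z hz h0 h1
    have := key z hz h0 h1
    field_simp at this
    linear_combination this
  · exact ((hc.sub continuousOn_const).div_const _).sub ((pvcx_G_cont hs0.le hs1).mono fun z hz => hz.1)
  · exact ((hd.sub_const _).div_const _).sub fun z hz => (pvcx_G_deriv s hz).differentiableAt.differentiableWithinAt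
  · intro x h0 h1
    rw [sub_im, c1 x h0 h1, pvcx_G_mid hs0.le hs1 ⟨h0.le, h1.le⟩, ofReal_im, sub_zero]
  · intro x h1
    have e : ((G x - w0) / d - pvcxG s x) * cexp (-(Real.pi * s * I)) = (G x - (w0 + d * pvcxBf s 1)) / d * cexp (-(Real.pi * s * I))
        - (pvcxG s x - (pvcxBf s 1 : ℂ)) * cexp (-(Real.pi * s * I)) := by
      field_simp
      ring
    rw [e, sub_im, c2 x h1, pvcx_G_right hs0.le hs1 h1.le, sub_zero]
  · intro x h0
    rw [sub_mul, sub_im, c3 x h0, pvcx_G_left hs0.le hs1 h0.le, sub_zero]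
  · intro z hz h0 h1
    have p : 0 ≤ ‖z‖ ^ (1 - s) := by positivity
    have a1 : ‖(G z - w0) / d‖ ≤ (C + ‖w0‖) / ‖d‖ * (1 + ‖z‖ ^ (1 - s)) := by
      rw [norm_div, div_mul_eq_mul_div]
      refine div_le_div_of_nonneg_right ?_ hdn.le
      have := hb z hz h0 h1
      calc ‖G z - w0‖ ≤ ‖G z‖ + ‖w0‖ := norm_sub_le _ _
        _ ≤ C * (1 + ‖z‖ ^ (1 - s)) + ‖w0‖ * (1 + ‖z‖ ^ (1 - s)) := by
            have : ‖w0‖ ≤ ‖w0‖ * (1 + ‖z‖ ^ (1 - s)) := le_mul_of_one_le_right (norm_nonneg _) (by linarith)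
            linarith
        _ = _ := by ring
    have a2 : ‖pvcxG s z‖ ≤ pvcxK s * (1 + ‖z‖ ^ (1 - s)) :=
      (pvcx_G_le hs0.le hs1 hz).trans (mul_le_mul_of_nonneg_left (by linarith) (pvcx_K_nonneg hs1))
    calc ‖(G z - w0) / d - pvcxG s z‖ ≤ ‖(G z - w0) / d‖ + ‖pvcxG s z‖ := norm_sub_le _ _
      _ ≤ _ := by rw [add_mul]; linarith

theorem pvcx_Bf_pos {s : ℝ} (hs0 : 0 ≤ s) (hs1 : s < 1) {a b : ℝ} (ha : 0 ≤ a) (hab : a < b) (hb : b ≤ 1) : pvcxBf s a < pvcxBf s b := by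
  rw [← sub_pos, pvcx_Bf_sub hs0 hs1 ⟨ha, by linarith⟩ ⟨by linarith, hb⟩]
  refine intervalIntegral.intervalIntegral_pos_of_pos_on (pvcx_Bf_int' hs0 hs1 ⟨ha, by linarith⟩ ⟨by linarith, hb⟩) ?_ hab
  intro x hx
  have h0 : 0 < x := by linarith [hx.1]
  have h1 : 0 < 1 - x := by linarith [hx.2]
  positivity

theorem pvcx_Bf_zero (s : ℝ) : pvcxBf s 0 = 0 := by unfold pvcxBf; simp

theorem pvcx_Bf_one_pos {s : ℝ} (hs0 : 0 ≤ s) (hs1 : s < 1) : 0 < pvcxBf s 1 := by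
  have := pvcx_Bf_pos hs0 hs1 (a := 0) (b := 1) le_rfl one_pos le_rfl
  rwa [pvcx_Bf_zero] at this

theorem pvcx_Bf_symm {s : ℝ} (hs0 : 0 ≤ s) (hs1 : s < 1) {x : ℝ} (hx : x ∈ Icc (0:ℝ) 1) : pvcxBf s x + pvcxBf s (1 - x) = pvcxBf s 1 := by
  have h1 : pvcxBf s (1 - x) = ∫ u in x..1, (u * (1 - u)) ^ (-s) := by
    unfold pvcxBf
    have := intervalIntegral.integral_comp_sub_left (a := x) (b := 1) (fun u : ℝ => (u * (1 - u)) ^ (-s)) 1
    simp only [sub_self] at this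
    rw [← this]
    refine intervalIntegral.integral_congr fun u _ => ?_
    show ((1 - u) * (1 - (1 - u))) ^ (-s) = (u * (1 - u)) ^ (-s)
    congr 1; ring
  rw [h1]
  unfold pvcxBf
  exact intervalIntegral.integral_add_adjacent_intervals (pvcx_Bf_int' hs0 hs1 (by simp) hx) (pvcx_Bf_int' hs0 hs1 hx (by simp))

/-! ## F. Cardy's function, the two orientations -/

open Claims.C0465 in
theorem pvcx_cardyF_eq (x : ℝ) : cardyF x = pvcxBf (2 / 3) x / pvcxBf (2 / 3) 1 := by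
  unfold cardyF pvcxBf
  have : (-(2:ℝ) / 3) = -(2 / 3) := by ring
  rw [this]

open Claims.C0465 in
theorem pvcx_cardyF_zero : cardyF 0 = 0 := by rw [pvcx_cardyF_eq, pvcx_Bf_zero, zero_div]

open Claims.C0465 in
theorem pvcx_cardyF_one : cardyF 1 = 1 := by
  rw [pvcx_cardyF_eq]; exact div_self (pvcx_Bf_one_pos (by norm_num) (by norm_num)).ne'

open Claims.C0465 in
theorem pvcx_cardyF_cont : ContinuousOn cardyF (Icc 0 1) := by
  have : cardyF = fun x => pvcxBf (2 / 3) x / pvcxBf (2 / 3) 1 := funext pvcx_cardyF_eq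
  rw [this]
  exact (pvcx_Bf_cont (by norm_num) (by norm_num)).div_const _

open Claims.C0465 in
theorem pvcx_cardyF_strictMono : StrictMonoOn cardyF (Icc 0 1) := by
  intro a ha b hb hab
  rw [pvcx_cardyF_eq, pvcx_cardyF_eq]
  exact div_lt_div_of_pos_right (pvcx_Bf_pos (by norm_num) (by norm_num) ha.1 hab hb.2) (pvcx_Bf_one_pos (by norm_num) (by norm_num))

open Claims.C0465 in
theorem pvcx_cardyF_symm {x : ℝ} (hx : x ∈ Icc (0:ℝ) 1) : cardyF x + cardyF (1 - x) = 1 := by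
  rw [pvcx_cardyF_eq, pvcx_cardyF_eq, ← add_div, pvcx_Bf_symm (by norm_num) (by norm_num) hx]
  exact div_self (pvcx_Bf_one_pos (by norm_num) (by norm_num)).ne'

open Claims.C0465 in
theorem pvcx_cardyF_mem {x : ℝ} (hx : x ∈ Icc (0:ℝ) 1) : cardyF x ∈ Icc (0:ℝ) 1 := by
  have h0 := pvcx_cardyF_strictMono.monotoneOn (show (0:ℝ) ∈ Icc (0:ℝ) 1 by simp) hx hx.1
  have h1 := pvcx_cardyF_strictMono.monotoneOn hx (show (1:ℝ) ∈ Icc (0:ℝ) 1 by simp) hx.2
  rw [pvcx_cardyF_zero] at h0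
  rw [pvcx_cardyF_one] at h1
  exact ⟨h0, h1⟩

/-- the three-line problem normalised by the two vertices `w0` (at `0`) and `w1` (at `1`) -/
theorem pvcx_uniq' {s : ℝ} (hs0 : 0 < s) (hs1 : s < 1) {G : ℂ → ℂ} {C : ℝ} {w0 w1 : ℂ} (h01 : w1 ≠ w0)
    (hc : ContinuousOn G ({z : ℂ | 0 ≤ z.im} \ {0, 1})) (hd : DifferentiableOn ℂ G {z : ℂ | 0 < z.im})
    (hb : ∀ z : ℂ, 0 ≤ z.im → z ≠ 0 → z ≠ 1 → ‖G z‖ ≤ C)
    (c1 : ∀ x : ℝ, 0 < x → x < 1 → ((G x - w0) / (w1 - w0)).im = 0)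
    (c2 : ∀ x : ℝ, 1 < x → ((G x - w1) / (w1 - w0) * cexp (-(Real.pi * s * I))).im = 0)
    (c3 : ∀ x : ℝ, x < 0 → ((G x - w0) / (w1 - w0) * cexp (Real.pi * s * I)).im = 0) :
    ∀ z : ℂ, 0 ≤ z.im → z ≠ 0 → z ≠ 1 → G z = w0 + (w1 - w0) * (pvcxG s z / pvcxBf s 1) := by
  have hB := pvcx_Bf_one_pos hs0.le hs1
  have hB' : (pvcxBf s 1 : ℂ) ≠ 0 := by exact_mod_cast hB.ne'
  have hw : w1 - w0 ≠ 0 := sub_ne_zero.2 h01
  have hC : 0 ≤ C := (norm_nonneg _).trans (hb I (by simp) (by simp) (by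
      intro h; have := congrArg Complex.im h; simp at this))
  have key := pvcx_uniq hs0 hs1 (G := G) (C := C) (w0 := w0) (d := (w1 - w0) / pvcxBf s 1) (div_ne_zero hw hB') hc hd ?_ ?_ ?_ ?_
  · intro z hz h0 h1
    rw [key z hz h0 h1]
    field_simp
  · intro z hz h0 h1
    refine (hb z hz h0 h1).trans ?_
    have : 0 ≤ ‖z‖ ^ (1 - s) := by positivity
    exact le_mul_of_one_le_right hC (by linarith)
  · intro x h0 h1
    have e : (G x - w0) / ((w1 - w0) / pvcxBf s 1) = (G x - w0) / (w1 - w0) * (pvcxBf s 1 : ℂ) := by field_simp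
    rw [e, im_mul_ofReal, c1 x h0 h1, zero_mul]
  · intro x h1
    have e : (G x - (w0 + (w1 - w0) / pvcxBf s 1 * pvcxBf s 1)) / ((w1 - w0) / pvcxBf s 1) * cexp (-(Real.pi * s * I))
        = (G x - w1) / (w1 - w0) * cexp (-(Real.pi * s * I)) * (pvcxBf s 1 : ℂ) := by
      field_simp
      ring
    rw [e, im_mul_ofReal, c2 x h1, zero_mul]
  · intro x h0
    have e : (G x - w0) / ((w1 - w0) / pvcxBf s 1) * cexp (Real.pi * s * I) = (G x - w0) / (w1 - w0) * cexp (Real.pi * s * I) * (pvcxBf s 1 : ℂ) := by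
      field_simp
    rw [e, im_mul_ofReal, c3 x h0, zero_mul]

theorem pvcx_exp_third : cexp (Real.pi / 3 * I) = 1 / 2 + Real.sqrt 3 / 2 * I := by
  have : (Real.pi / 3 * I : ℂ) = ((Real.pi / 3 : ℝ) : ℂ) * I := by push_cast; ring
  rw [this, Complex.exp_mul_I, ← ofReal_cos, ← ofReal_sin, Real.cos_pi_div_three, Real.sin_pi_div_three]
  push_cast; ring

theorem pvcx_sqrt3 : ((Real.sqrt 3 : ℝ) : ℂ) * ((Real.sqrt 3 : ℝ) : ℂ) = 3 := by
  rw [← ofReal_mul, Real.mul_self_sqrt (by norm_num)]; norm_num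

/-- `ζ = e^{iπ/3}`: `ζ² = ζ - 1` -/
theorem pvcx_zeta_sq : cexp (Real.pi / 3 * I) * cexp (Real.pi / 3 * I) = cexp (Real.pi / 3 * I) - 1 := by
  rw [pvcx_exp_third]
  have h := pvcx_sqrt3
  have hI := Complex.I_mul_I
  linear_combination (1 / 4 : ℂ) * (I * I) * h + (3 / 4 : ℂ) * hI

theorem pvcx_zeta_inv : cexp (Real.pi / 3 * I) * cexp (-(Real.pi / 3 * I)) = 1 := by
  rw [← Complex.exp_add]; simp

open Claims.C0465 in
/-- **Cardy's formula from the three side conditions**: `G` bounded, holomorphic in the upper half plane, continuous up to `ℝ \ {0,1}`, with values on the lines carrying the sides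
`[w0,w1]` over `(0,1)`, `[w1,w2]` over `(1,∞)`, `[w2,w0]` over `(-∞,0)` of a POSITIVELY oriented equilateral triangle. -/
theorem pvcx_cardy_tri {G : ℂ → ℂ} {C : ℝ} {w0 w1 w2 : ℂ} (h01 : w1 ≠ w0) (hw2 : w2 - w0 = cexp (Real.pi / 3 * I) * (w1 - w0))
    (hc : ContinuousOn G ({z : ℂ | 0 ≤ z.im} \ {0, 1})) (hd : DifferentiableOn ℂ G {z : ℂ | 0 < z.im})
    (hb : ∀ z : ℂ, 0 ≤ z.im → z ≠ 0 → z ≠ 1 → ‖G z‖ ≤ C)
    (c1 : ∀ x : ℝ, 0 < x → x < 1 → ∃ t : ℝ, G x = w0 + t * (w1 - w0))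
    (c2 : ∀ x : ℝ, 1 < x → ∃ t : ℝ, G x = w1 + t * (w2 - w1))
    (c3 : ∀ x : ℝ, x < 0 → ∃ t : ℝ, G x = w0 + t * (w2 - w0)) :
    ∀ x : ℝ, 0 < x → x < 1 → G x = w0 + (w1 - w0) * (cardyF x : ℂ) := by
  have hw : w1 - w0 ≠ 0 := sub_ne_zero.2 h01
  have hq : ∀ (p t A : ℂ), (p + t * (A * (w1 - w0)) - p) / (w1 - w0) = t * A := by
    intro p t A; field_simp; ring
  set ζ := cexp (Real.pi / 3 * I) with hζ
  set η := cexp (-(Real.pi / 3 * I)) with hη
  have z2 : ζ * ζ = ζ - 1 := pvcx_zeta_sq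
  have zi : ζ * η = 1 := pvcx_zeta_inv
  have e1 : cexp (Real.pi * ((2 / 3 : ℝ) : ℂ) * I) = ζ * ζ := by
    rw [hζ, ← Complex.exp_add]; congr 1; push_cast; ring
  have e2 : cexp (-(Real.pi * ((2 / 3 : ℝ) : ℂ) * I)) = η * η := by
    rw [hη, ← Complex.exp_add]; congr 1; push_cast; ring
  have key := pvcx_uniq' (s := 2 / 3) (by norm_num) (by norm_num) h01 hc hd hb ?_ ?_ ?_
  · intro x h0 h1
    have hx0 : (x : ℂ) ≠ 0 := by exact_mod_cast h0.ne'
    have hx1 : (x : ℂ) ≠ 1 := by exact_mod_cast h1.ne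
    rw [key x (by simp) hx0 hx1, pvcx_G_mid (by norm_num) (by norm_num) ⟨h0.le, h1.le⟩, pvcx_cardyF_eq]
    push_cast; ring
  · intro x h0 h1
    obtain ⟨t, ht⟩ := c1 x h0 h1
    have : (G x - w0) / (w1 - w0) = (t : ℂ) := by rw [ht]; field_simp; ring
    rw [this, ofReal_im]
  · intro x h1
    obtain ⟨t, ht⟩ := c2 x h1
    have e3 : w2 - w1 = ζ * ζ * (w1 - w0) := by rw [z2]; linear_combination hw2
    have : (G x - w1) / (w1 - w0) * cexp (-(Real.pi * ((2 / 3 : ℝ) : ℂ) * I)) = (t : ℂ) := by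
      rw [ht, e2, e3, hq]
      linear_combination (t : ℂ) * (ζ * η + 1) * zi
    rw [this, ofReal_im]
  · intro x h0
    obtain ⟨t, ht⟩ := c3 x h0
    have : (G x - w0) / (w1 - w0) * cexp (Real.pi * ((2 / 3 : ℝ) : ℂ) * I) = ((-t : ℝ) : ℂ) := by
      rw [ht, e1, hw2, hq]
      push_cast
      linear_combination (t : ℂ) * (ζ + 1) * z2
    rw [this, ofReal_im]

/-- for `s < 1/2` the Schwarz-Christoffel map is unbounded -/
theorem pvcx_G_unbdd {s : ℝ} (hs0 : 0 ≤ s) (hs : s < 1 / 2) (R : ℝ) : ∃ x : ℝ, 2 < x ∧ R < ‖pvcxG s x‖ := by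
  have hs1 : s < 1 := by linarith
  have hp : 0 < 1 - 2 * s := by linarith
  have ht : Tendsto (fun x : ℝ => (x ^ (1 - 2 * s) - 2 ^ (1 - 2 * s)) / (1 - 2 * s) - ‖pvcxG s 2‖) atTop atTop :=
    tendsto_atTop_add_const_right _ _ ((tendsto_atTop_add_const_right _ _ (tendsto_rpow_atTop hp)).atTop_div_const hp)
  obtain ⟨x, hx2, hxR⟩ := ((eventually_gt_atTop (2:ℝ)).and (ht.eventually_gt_atTop R)).exists
  refine ⟨x, hx2, lt_of_lt_of_le hxR ?_⟩
  have h1 := pvcx_G1_right_incr hs0 hs1 (a := 2) (b := x) (by norm_num) hx2.le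
  have h2 : pvcxG s x - pvcxG s 2 = cexp (Real.pi * s * I) * ((∫ u in (2:ℝ)..x, (u * (u - 1)) ^ (-s) : ℝ) : ℂ) := by
    rw [← h1]; unfold pvcxG; push_cast; ring
  have h3 : ‖pvcxG s x - pvcxG s 2‖ = |∫ u in (2:ℝ)..x, (u * (u - 1)) ^ (-s)| := by
    rw [h2, norm_mul, norm_real, Real.norm_eq_abs]
    have : ‖cexp (Real.pi * s * I)‖ = 1 := by
      have := Complex.norm_exp_ofReal_mul_I (Real.pi * s)
      simpa using this
    rw [this, one_mul]
  have h4 : ∫ u in (2:ℝ)..x, u ^ (-(2 * s)) ≤ ∫ u in (2:ℝ)..x, (u * (u - 1)) ^ (-s) := by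
    refine intervalIntegral.integral_mono_on hx2.le ?_ ?_ ?_
    · refine intervalIntegral.intervalIntegrable_rpow (Or.inr ?_)
      rw [uIcc_of_le hx2.le]; intro h; linarith [h.1]
    · refine ContinuousOn.intervalIntegrable ?_
      rw [uIcc_of_le hx2.le]
      refine ContinuousOn.rpow_const (by fun_prop) ?_
      intro u hu
      left
      have : 2 ≤ u := hu.1
      nlinarith
    · intro u hu
      have hu2 : 2 ≤ u := hu.1
      have e : u ^ (-(2 * s)) = (u * u) ^ (-s) := by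
        rw [Real.mul_rpow (by linarith) (by linarith), ← Real.rpow_add (by linarith)]; congr 1; ring
      rw [e]
      exact Real.rpow_le_rpow_of_nonpos (by nlinarith) (by nlinarith) (by linarith)
  have h5 : ∫ u in (2:ℝ)..x, u ^ (-(2 * s)) = (x ^ (1 - 2 * s) - 2 ^ (1 - 2 * s)) / (1 - 2 * s) := by
    rw [integral_rpow (Or.inl (by linarith))]
    have : -(2 * s) + 1 = 1 - 2 * s := by ring
    rw [this]
  have h6 : ‖pvcxG s x - pvcxG s 2‖ ≤ ‖pvcxG s x‖ + ‖pvcxG s 2‖ := norm_sub_le _ _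
  have h7 := le_abs_self (∫ u in (2:ℝ)..x, (u * (u - 1)) ^ (-s))
  linarith

/-- **the mirrored problem has no bounded solution**: same as `pvcx_cardy_tri` for a NEGATIVELY oriented equilateral triangle -/
theorem pvcx_mirror_tri {G : ℂ → ℂ} {C : ℝ} {w0 w1 w2 : ℂ} (h01 : w1 ≠ w0) (hw2 : w2 - w0 = cexp (-(Real.pi / 3 * I)) * (w1 - w0))
    (hc : ContinuousOn G ({z : ℂ | 0 ≤ z.im} \ {0, 1})) (hd : DifferentiableOn ℂ G {z : ℂ | 0 < z.im})
    (hb : ∀ z : ℂ, 0 ≤ z.im → z ≠ 0 → z ≠ 1 → ‖G z‖ ≤ C)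
    (c1 : ∀ x : ℝ, 0 < x → x < 1 → ∃ t : ℝ, G x = w0 + t * (w1 - w0))
    (c2 : ∀ x : ℝ, 1 < x → ∃ t : ℝ, G x = w1 + t * (w2 - w1))
    (c3 : ∀ x : ℝ, x < 0 → ∃ t : ℝ, G x = w0 + t * (w2 - w0)) : False := by
  have hw : w1 - w0 ≠ 0 := sub_ne_zero.2 h01
  have hq : ∀ (p t A : ℂ), (p + t * (A * (w1 - w0)) - p) / (w1 - w0) = t * A := by
    intro p t A; field_simp; ring
  set ζ := cexp (Real.pi / 3 * I) with hζ
  set η := cexp (-(Real.pi / 3 * I)) with hη
  have z2 : ζ * ζ = ζ - 1 := pvcx_zeta_sq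
  have zi : ζ * η = 1 := pvcx_zeta_inv
  have n2 : η * η = η - 1 := by linear_combination (η * η) * z2 - (ζ * η + 1) * zi + η * zi
  have e1 : cexp (Real.pi * ((1 / 3 : ℝ) : ℂ) * I) = ζ := by
    rw [hζ]; congr 1; push_cast; ring
  have e2 : cexp (-(Real.pi * ((1 / 3 : ℝ) : ℂ) * I)) = η := by
    rw [hη]; congr 1; push_cast; ring
  have key := pvcx_uniq' (s := 1 / 3) (by norm_num) (by norm_num) h01 hc hd hb ?_ ?_ ?_
  · have hB := pvcx_Bf_one_pos (s := 1 / 3) (by norm_num) (by norm_num)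
    obtain ⟨x, hx2, hxR⟩ := pvcx_G_unbdd (s := 1 / 3) (by norm_num) (by norm_num) ((C + ‖w0‖) / ‖w1 - w0‖ * pvcxBf (1 / 3) 1)
    have hx0 : (x : ℂ) ≠ 0 := by exact_mod_cast (by linarith : x ≠ 0)
    have hx1 : (x : ℂ) ≠ 1 := by exact_mod_cast (by linarith : x ≠ 1)
    have k1 := key x (by simp) hx0 hx1
    have k2 := hb x (by simp) hx0 hx1
    have hwn : 0 < ‖w1 - w0‖ := norm_pos_iff.2 hw
    have k3 : ‖(w1 - w0) * (pvcxG (1 / 3) x / pvcxBf (1 / 3) 1)‖ ≤ C + ‖w0‖ := by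
      have : (w1 - w0) * (pvcxG (1 / 3) x / pvcxBf (1 / 3) 1) = G x - w0 := by rw [k1]; ring
      rw [this]
      exact (norm_sub_le _ _).trans (by linarith)
    rw [norm_mul, norm_div, norm_real, Real.norm_eq_abs, abs_of_pos hB] at k3
    have k4 : ‖pvcxG (1 / 3) x‖ ≤ (C + ‖w0‖) / ‖w1 - w0‖ * pvcxBf (1 / 3) 1 := by
      rw [div_mul_eq_mul_div, le_div_iff₀ hwn]
      have := mul_le_mul_of_nonneg_right k3 hB.le
      calc ‖pvcxG (1 / 3) x‖ * ‖w1 - w0‖ = ‖w1 - w0‖ * (‖pvcxG (1 / 3) x‖ / pvcxBf (1 / 3) 1) * pvcxBf (1 / 3) 1 := by field_simp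
        _ ≤ _ := this
    linarith
  · intro x h0 h1
    obtain ⟨t, ht⟩ := c1 x h0 h1
    have : (G x - w0) / (w1 - w0) = (t : ℂ) := by rw [ht]; field_simp; ring
    rw [this, ofReal_im]
  · intro x h1
    obtain ⟨t, ht⟩ := c2 x h1
    have e3 : w2 - w1 = η * η * (w1 - w0) := by rw [n2]; linear_combination hw2
    have : (G x - w1) / (w1 - w0) * cexp (-(Real.pi * ((1 / 3 : ℝ) : ℂ) * I)) = ((-t : ℝ) : ℂ) := by
      rw [ht, e2, e3, hq]
      push_cast
      linear_combination (t : ℂ) * (η + 1) * n2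
    rw [this, ofReal_im]
  · intro x h0
    obtain ⟨t, ht⟩ := c3 x h0
    have : (G x - w0) / (w1 - w0) * cexp (Real.pi * ((1 / 3 : ℝ) : ℂ) * I) = (t : ℂ) := by
      rw [ht, e1, hw2, hq]
      linear_combination (t : ℂ) * zi
    rw [this, ofReal_im]


end Claimed.Agent.R289
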