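import Mathlib

/-!
# Row 289 (S0537, Cardy's formula for Poisson-Voronoi percolation), BOX WEYL      (owner helper45; prefix `pvweyl_`; 0 sorry; imports Mathlib only)

MODEL FREE: **Weyl's lemma for `∂̄`** (last step of P8.4, 08-observable.tex: a continuous subsequential limit `F` of the observables with `∫ F ∂̄f = 0` for every test function `f` is holomorphic).
EXPORTS
* `pvweyl_main`     `U` open, `F` continuous on `U`, `∫ z, F z * (∂ₓ f z + I * ∂_y f z) = 0` for every smooth REAL `f` with compact support in `U`  ⟹  `DifferentiableOn ℂ F U`;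
* `pvweyl_main_on`  the same with the integrals restricted to `U`;
* `pvweyl_prod`     the same, the hypothesis only for the PRODUCT tests `f z = φ z.re * χ z.im` (`pvweylTest`), with `tsupport φ ×ℂ tsupport χ ⊆ U`;
* `pvweyl_one`      du Bois-Reymond on the line: `∫ (φ' g + φ k) = 0` for all tests `φ` in `(α, β)`  ⟹  `g a - g b + ∫_a^b k = 0`;
* `pvweyl_box`      the boundary integral of a rectangle vanishes (for a continuous `G` on the plane, product tests of a larger box).
PROOF (no mollifier, no convolution): smooth steps `pvweylStep` (Sec. 1) give `pvweyl_one`; Fubini for product weights (Sec. 2) applied twice gives `pvweyl_box` (Sec. 3); a Tietze extension from a slightly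
larger closed box localises (Sec. 4); Morera's theorem of Mathlib (`Complex.isConservativeOn_and_continuousOn_iff_isDifferentiableOn`) ends the proof; Sec. 5 passes from product tests to all tests.
-/

set_option autoImplicit false

namespace Claimed.Agent.R289

open MeasureTheory Set Filter Topology Complex
open scoped ContDiff Interval

noncomputable section

/-! ## 1. smooth steps -/

/-- a smooth step: `0` for `x ≤ a - 1/(n+1)`, `1` for `a ≤ x` -/
def pvweylStep (n : ℕ) (a x : ℝ) : ℝ := Real.smoothTransition (((n : ℝ) + 1) * (x - a) + 1)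

theorem pvweyl_step_contDiff (n : ℕ) (a : ℝ) : ContDiff ℝ ∞ (pvweylStep n a) := by
  unfold pvweylStep
  exact Real.smoothTransition.contDiff.comp (by fun_prop)

theorem pvweyl_step_nonneg (n : ℕ) (a x : ℝ) : 0 ≤ pvweylStep n a x := Real.smoothTransition.nonneg _

theorem pvweyl_step_le_one (n : ℕ) (a x : ℝ) : pvweylStep n a x ≤ 1 := Real.smoothTransition.le_one _

theorem pvweyl_step_zero {n : ℕ} {a x : ℝ} (hx : x ≤ a - 1 / ((n : ℝ) + 1)) : pvweylStep n a x = 0 := by
  unfold pvweylStep
  refine Real.smoothTransition.zero_of_nonpos ?_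
  have hN : (0 : ℝ) < (n : ℝ) + 1 := by positivity
  have h1 : ((n : ℝ) + 1) * (x - a) ≤ ((n : ℝ) + 1) * (-(1 / ((n : ℝ) + 1))) := mul_le_mul_of_nonneg_left (by linarith) hN.le
  have h2 : ((n : ℝ) + 1) * (-(1 / ((n : ℝ) + 1))) = -1 := by field_simp
  linarith

theorem pvweyl_step_one {n : ℕ} {a x : ℝ} (hx : a ≤ x) : pvweylStep n a x = 1 := by
  unfold pvweylStep
  refine Real.smoothTransition.one_of_one_le ?_
  have hN : (0 : ℝ) < (n : ℝ) + 1 := by positivity
  have : 0 ≤ ((n : ℝ) + 1) * (x - a) := mul_nonneg hN.le (by linarith)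
  linarith

theorem pvweyl_step_mono (n : ℕ) (a : ℝ) : Monotone (pvweylStep n a) := by
  intro x y hxy
  unfold pvweylStep
  refine Real.smoothTransition.monotone ?_
  have hN : (0 : ℝ) < (n : ℝ) + 1 := by positivity
  have := mul_le_mul_of_nonneg_left (sub_le_sub_right hxy a) hN.le
  linarith

theorem pvweyl_step_differentiable (n : ℕ) (a : ℝ) : Differentiable ℝ (pvweylStep n a) :=
  (pvweyl_step_contDiff n a).differentiable (by simp)

theorem pvweyl_step_deriv_cont (n : ℕ) (a : ℝ) : Continuous (deriv (pvweylStep n a)) :=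
  (pvweyl_step_contDiff n a).continuous_deriv (by simp)

theorem pvweyl_step_deriv_nonneg (n : ℕ) (a x : ℝ) : 0 ≤ deriv (pvweylStep n a) x := (pvweyl_step_mono n a).deriv_nonneg

theorem pvweyl_step_deriv_zero {n : ℕ} {a x : ℝ} (hx : x ≤ a - 1 / ((n : ℝ) + 1)) : deriv (pvweylStep n a) x = 0 := by
  refine IsLocalMin.deriv_eq_zero (Filter.Eventually.of_forall fun y => ?_)
  rw [pvweyl_step_zero hx]
  exact pvweyl_step_nonneg n a y

theorem pvweyl_step_deriv_one {n : ℕ} {a x : ℝ} (hx : a ≤ x) : deriv (pvweylStep n a) x = 0 := by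
  refine IsLocalMax.deriv_eq_zero (Filter.Eventually.of_forall fun y => ?_)
  rw [pvweyl_step_one hx]
  exact pvweyl_step_le_one n a y

theorem pvweyl_step_deriv_int (n : ℕ) (a : ℝ) : ∫ x in (a - 1 / ((n : ℝ) + 1))..a, deriv (pvweylStep n a) x = 1 := by
  rw [intervalIntegral.integral_deriv_eq_sub (fun x _ => (pvweyl_step_differentiable n a) x)
    ((pvweyl_step_deriv_cont n a).intervalIntegrable _ _), pvweyl_step_one le_rfl, pvweyl_step_zero le_rfl, sub_zero]

/-- the derivative of the step is an approximate unit at `a` -/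
theorem pvweyl_peak {g : ℝ → ℂ} (hg : Continuous g) (a : ℝ) :
    Tendsto (fun n : ℕ => ∫ x in (a - 1 / ((n : ℝ) + 1))..a, deriv (pvweylStep n a) x • g x) atTop (𝓝 (g a)) := by
  rw [Metric.tendsto_atTop]
  intro ε hε
  obtain ⟨δ, hδ, hgδ⟩ := Metric.continuous_iff.1 hg a (ε / 2) (half_pos hε)
  obtain ⟨n0, hn0⟩ := exists_nat_one_div_lt hδ
  refine ⟨n0, fun n hn => ?_⟩
  have hN : (0 : ℝ) < (n : ℝ) + 1 := by positivity
  have hh : 1 / ((n : ℝ) + 1) < δ := by
    refine lt_of_le_of_lt ?_ hn0
    have hnn : (n0 : ℝ) ≤ n := by exact_mod_cast hn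
    exact one_div_le_one_div_of_le (by positivity) (by linarith)
  have hh0 : 0 < 1 / ((n : ℝ) + 1) := by positivity
  have hle : a - 1 / ((n : ℝ) + 1) ≤ a := by linarith
  have hc := pvweyl_step_deriv_cont n a
  have e1 : (∫ x in (a - 1 / ((n : ℝ) + 1))..a, deriv (pvweylStep n a) x • g x) - g a
      = ∫ x in (a - 1 / ((n : ℝ) + 1))..a, deriv (pvweylStep n a) x • (g x - g a) := by
    have : g a = ∫ x in (a - 1 / ((n : ℝ) + 1))..a, deriv (pvweylStep n a) x • g a := by
      rw [intervalIntegral.integral_smul_const, pvweyl_step_deriv_int, one_smul]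
    conv_lhs => rw [this]
    have i1 : IntervalIntegrable (fun x => deriv (pvweylStep n a) x • g x) volume (a - 1 / ((n : ℝ) + 1)) a :=
      (hc.smul hg).intervalIntegrable _ _
    have i2 : IntervalIntegrable (fun x => deriv (pvweylStep n a) x • g a) volume (a - 1 / ((n : ℝ) + 1)) a :=
      (hc.smul continuous_const).intervalIntegrable _ _
    rw [← intervalIntegral.integral_sub i1 i2]
    refine intervalIntegral.integral_congr fun x _ => ?_
    simp only [smul_sub]
  rw [dist_eq_norm, e1]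
  have hb : ‖∫ x in (a - 1 / ((n : ℝ) + 1))..a, deriv (pvweylStep n a) x • (g x - g a)‖
      ≤ ∫ x in (a - 1 / ((n : ℝ) + 1))..a, deriv (pvweylStep n a) x * (ε / 2) := by
    refine intervalIntegral.norm_integral_le_of_norm_le hle (Filter.Eventually.of_forall fun x hx => ?_)
      ((hc.mul continuous_const).intervalIntegrable _ _)
    rw [norm_smul, Real.norm_eq_abs, abs_of_nonneg (pvweyl_step_deriv_nonneg n a x)]
    refine mul_le_mul_of_nonneg_left ?_ (pvweyl_step_deriv_nonneg n a x)
    have : dist x a < δ := by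
      rw [Real.dist_eq, abs_lt]
      constructor <;> linarith [hx.1, hx.2]
    have := hgδ x this
    rw [dist_eq_norm] at this
    exact this.le
  rw [intervalIntegral.integral_mul_const, pvweyl_step_deriv_int, one_mul] at hb
  linarith

/-- the transition layer of the step is negligible -/
theorem pvweyl_layer {k : ℝ → ℂ} (hk : Continuous k) (a : ℝ) :
    Tendsto (fun n : ℕ => ∫ x in (a - 1 / ((n : ℝ) + 1))..a, pvweylStep n a x • k x) atTop (𝓝 0) := by
  obtain ⟨C, hC⟩ := (isCompact_Icc (a := a - 1) (b := a)).exists_bound_of_continuousOn hk.continuousOn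
  have hC0 : 0 ≤ C := (norm_nonneg _).trans (hC a ⟨by linarith, le_rfl⟩)
  have hlim : Tendsto (fun n : ℕ => C * (1 / ((n : ℝ) + 1))) atTop (𝓝 0) := by
    have := tendsto_one_div_add_atTop_nhds_zero_nat (𝕜 := ℝ)
    simpa using this.const_mul C
  refine squeeze_zero_norm (fun n => ?_) hlim
  have hN : (0 : ℝ) < (n : ℝ) + 1 := by positivity
  have hh0 : 0 < 1 / ((n : ℝ) + 1) := by positivity
  have hh1 : 1 / ((n : ℝ) + 1) ≤ 1 := by
    rw [div_le_one hN]
    have : (0 : ℝ) ≤ n := Nat.cast_nonneg n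
    linarith
  have := intervalIntegral.norm_integral_le_of_norm_le_const (a := a - 1 / ((n : ℝ) + 1)) (b := a) (C := C)
    (f := fun x => pvweylStep n a x • k x) (fun x hx => by
      rw [uIoc_of_le (by linarith)] at hx
      rw [norm_smul, Real.norm_eq_abs, abs_of_nonneg (pvweyl_step_nonneg n a x)]
      calc pvweylStep n a x * ‖k x‖ ≤ 1 * C :=
            mul_le_mul (pvweyl_step_le_one n a x) (hC x ⟨by linarith [hx.1], hx.2⟩) (norm_nonneg _) zero_le_one
        _ = C := one_mul C)
  refine this.trans (le_of_eq ?_)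
  rw [abs_of_nonneg (by linarith)]
  ring

/-- the functional `φ ↦ ∫ (φ' g + φ k)` on one step -/
theorem pvweyl_half {g k : ℝ → ℂ} (hg : Continuous g) (hk : Continuous k) {lo hi a : ℝ} (hlo : lo + 1 ≤ a) (hhi : a ≤ hi) :
    Tendsto (fun n : ℕ => ∫ x in lo..hi, (deriv (pvweylStep n a) x • g x + pvweylStep n a x • k x)) atTop
      (𝓝 (g a + ∫ x in a..hi, k x)) := by
  have key : ∀ n : ℕ, ∫ x in lo..hi, (deriv (pvweylStep n a) x • g x + pvweylStep n a x • k x)
      = (∫ x in (a - 1 / ((n : ℝ) + 1))..a, deriv (pvweylStep n a) x • g x)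
        + (∫ x in (a - 1 / ((n : ℝ) + 1))..a, pvweylStep n a x • k x) + ∫ x in a..hi, k x := by
    intro n
    have hN : (0 : ℝ) < (n : ℝ) + 1 := by positivity
    have hh0 : 0 < 1 / ((n : ℝ) + 1) := by positivity
    have hh1 : 1 / ((n : ℝ) + 1) ≤ 1 := by
      rw [div_le_one hN]
      have : (0 : ℝ) ≤ n := Nat.cast_nonneg n
      linarith
    have hc := pvweyl_step_deriv_cont n a
    have hs : Continuous (pvweylStep n a) := (pvweyl_step_differentiable n a).continuous
    have hT : Continuous fun x => deriv (pvweylStep n a) x • g x + pvweylStep n a x • k x := (hc.smul hg).add (hs.smul hk)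
    rw [← intervalIntegral.integral_add_adjacent_intervals (hT.intervalIntegrable lo (a - 1 / ((n : ℝ) + 1))) (hT.intervalIntegrable _ hi),
      ← intervalIntegral.integral_add_adjacent_intervals (hT.intervalIntegrable (a - 1 / ((n : ℝ) + 1)) a) (hT.intervalIntegrable a hi)]
    have z1 : ∫ x in lo..(a - 1 / ((n : ℝ) + 1)), (deriv (pvweylStep n a) x • g x + pvweylStep n a x • k x) = 0 := by
      rw [intervalIntegral.integral_congr (g := fun _ => (0 : ℂ)) fun x hx => ?_]
      · simp
      · rw [uIcc_of_le (by linarith)] at hx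
        simp only [pvweyl_step_deriv_zero hx.2, pvweyl_step_zero hx.2, zero_smul, add_zero]
    have z3 : ∫ x in a..hi, (deriv (pvweylStep n a) x • g x + pvweylStep n a x • k x) = ∫ x in a..hi, k x := by
      refine intervalIntegral.integral_congr fun x hx => ?_
      rw [uIcc_of_le hhi] at hx
      simp only [pvweyl_step_deriv_one hx.1, pvweyl_step_one hx.1, zero_smul, zero_add, one_smul]
    have i1 : IntervalIntegrable (fun x => deriv (pvweylStep n a) x • g x) volume (a - 1 / ((n : ℝ) + 1)) a :=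
      (hc.smul hg).intervalIntegrable _ _
    have i2 : IntervalIntegrable (fun x => pvweylStep n a x • k x) volume (a - 1 / ((n : ℝ) + 1)) a :=
      (hs.smul hk).intervalIntegrable _ _
    rw [z1, z3, intervalIntegral.integral_add i1 i2, zero_add]
  simp only [key]
  have := ((pvweyl_peak hg a).add (pvweyl_layer hk a)).add_const (∫ x in a..hi, k x)
  simpa using this

/-- **du Bois-Reymond, integrated form**: `g' = k` in the sense of distributions on `(α,β)`, `g`, `k` continuous -/
theorem pvweyl_one {g k : ℝ → ℂ} (hg : Continuous g) (hk : Continuous k) {α β : ℝ}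
    (h : ∀ φ : ℝ → ℝ, ContDiff ℝ ∞ φ → HasCompactSupport φ → tsupport φ ⊆ Ioo α β → ∫ x, (deriv φ x • g x + φ x • k x) = 0)
    {a b : ℝ} (ha : a ∈ Ioo α β) (hb : b ∈ Ioo α β) : g a - g b + ∫ x in a..b, k x = 0 := by
  obtain ⟨lo, hlo⟩ : ∃ lo, lo = min a b - 1 := ⟨_, rfl⟩
  obtain ⟨hi, hhi⟩ : ∃ hi, hi = max a b := ⟨_, rfl⟩
  have la : lo + 1 ≤ a := by rw [hlo]; linarith [min_le_left a b]
  have lb : lo + 1 ≤ b := by rw [hlo]; linarith [min_le_right a b]
  have ua : a ≤ hi := by rw [hhi]; exact le_max_left a b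
  have ub : b ≤ hi := by rw [hhi]; exact le_max_right a b
  have hmin : α < min a b := lt_min ha.1 hb.1
  have hmax : hi < β := by rw [hhi]; exact max_lt ha.2 hb.2
  have lim := (pvweyl_half hg hk la ua).sub (pvweyl_half hg hk lb ub)
  -- the sequence vanishes eventually
  obtain ⟨n0, hn0⟩ := exists_nat_one_div_lt (sub_pos.2 hmin)
  have hz : ∀ᶠ n : ℕ in atTop, (∫ x in lo..hi, (deriv (pvweylStep n a) x • g x + pvweylStep n a x • k x))
      - (∫ x in lo..hi, (deriv (pvweylStep n b) x • g x + pvweylStep n b x • k x)) = 0 := by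
    refine eventually_atTop.2 ⟨n0, fun n hn => ?_⟩
    have hN : (0 : ℝ) < (n : ℝ) + 1 := by positivity
    have hh0 : 0 < 1 / ((n : ℝ) + 1) := by positivity
    have hh1 : 1 / ((n : ℝ) + 1) ≤ 1 := by
      rw [div_le_one hN]
      have : (0 : ℝ) ≤ n := Nat.cast_nonneg n
      linarith
    have hh : 1 / ((n : ℝ) + 1) < min a b - α := by
      refine lt_of_le_of_lt ?_ hn0
      have hnn : (n0 : ℝ) ≤ n := by exact_mod_cast hn
      exact one_div_le_one_div_of_le (by positivity) (by linarith)
    obtain ⟨φ, hφ⟩ : ∃ φ : ℝ → ℝ, φ = fun x => pvweylStep n a x - pvweylStep n b x := ⟨_, rfl⟩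
    have hφx : ∀ x, φ x = pvweylStep n a x - pvweylStep n b x := fun x => by rw [hφ]
    have hφd : ∀ x, deriv φ x = deriv (pvweylStep n a) x - deriv (pvweylStep n b) x := fun x => by
      rw [hφ]
      exact deriv_fun_sub ((pvweyl_step_differentiable n a) x) ((pvweyl_step_differentiable n b) x)
    have hsm : ContDiff ℝ ∞ φ := by rw [hφ]; exact (pvweyl_step_contDiff n a).sub (pvweyl_step_contDiff n b)
    have hlow : ∀ x, x ≤ min a b - 1 / ((n : ℝ) + 1) → φ x = 0 ∧ deriv φ x = 0 := fun x hx => by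
      have xa : x ≤ a - 1 / ((n : ℝ) + 1) := by linarith [min_le_left a b]
      have xb : x ≤ b - 1 / ((n : ℝ) + 1) := by linarith [min_le_right a b]
      rw [hφx, hφd, pvweyl_step_zero xa, pvweyl_step_zero xb, pvweyl_step_deriv_zero xa, pvweyl_step_deriv_zero xb]
      simp
    have hup : ∀ x, hi ≤ x → φ x = 0 ∧ deriv φ x = 0 := fun x hx => by
      have xa : a ≤ x := ua.trans hx
      have xb : b ≤ x := ub.trans hx
      rw [hφx, hφd, pvweyl_step_one xa, pvweyl_step_one xb, pvweyl_step_deriv_one xa, pvweyl_step_deriv_one xb]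
      simp
    have hsupp : Function.support φ ⊆ Icc (min a b - 1 / ((n : ℝ) + 1)) hi := fun x hx => by
      by_contra hc
      rw [mem_Icc, not_and_or, not_le, not_le] at hc
      rcases hc with hc | hc
      · exact hx (hlow x hc.le).1
      · exact hx (hup x hc.le).1
    have hcs : HasCompactSupport φ := HasCompactSupport.of_support_subset_isCompact isCompact_Icc hsupp
    have hts : tsupport φ ⊆ Ioo α β :=
      (closure_minimal hsupp isClosed_Icc).trans fun x hx => ⟨by linarith [hx.1], lt_of_le_of_lt hx.2 hmax⟩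
    have h0 := h φ hsm hcs hts
    have hsup2 : Function.support (fun x => deriv φ x • g x + φ x • k x) ⊆ Ioc lo hi := fun x hx => by
      by_contra hc
      rw [mem_Ioc, not_and_or, not_lt, not_le] at hc
      apply hx
      rcases hc with hc | hc
      · obtain ⟨q1, q2⟩ := hlow x (by rw [hlo] at hc; linarith)
        simp only [q1, q2, zero_smul, add_zero]
      · obtain ⟨q1, q2⟩ := hup x hc.le
        simp only [q1, q2, zero_smul, add_zero]
    rw [← intervalIntegral.integral_eq_integral_of_support_subset hsup2] at h0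
    have hca := pvweyl_step_deriv_cont n a
    have hcb := pvweyl_step_deriv_cont n b
    have hsa : Continuous (pvweylStep n a) := (pvweyl_step_differentiable n a).continuous
    have hsb : Continuous (pvweylStep n b) := (pvweyl_step_differentiable n b).continuous
    have i1 : IntervalIntegrable (fun x => deriv (pvweylStep n a) x • g x + pvweylStep n a x • k x) volume lo hi :=
      ((hca.smul hg).add (hsa.smul hk)).intervalIntegrable _ _
    have i2 : IntervalIntegrable (fun x => deriv (pvweylStep n b) x • g x + pvweylStep n b x • k x) volume lo hi :=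
      ((hcb.smul hg).add (hsb.smul hk)).intervalIntegrable _ _
    rw [← intervalIntegral.integral_sub i1 i2, ← h0]
    refine intervalIntegral.integral_congr fun x _ => ?_
    simp only [hφx, hφd, sub_smul]
    ring
  have lim0 := tendsto_nhds_unique lim ((tendsto_congr' hz).2 tendsto_const_nhds)
  have hadd := intervalIntegral.integral_add_adjacent_intervals (μ := volume) (hk.intervalIntegrable a b) (hk.intervalIntegrable b hi)
  rw [← hadd] at lim0
  linear_combination lim0

/-! ## 2. Fubini -/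

theorem pvweyl_line_cont {G : ℂ → ℂ} (hG : Continuous G) : Continuous fun p : ℝ × ℝ => G ((p.1 : ℂ) + (p.2 : ℂ) * I) := by fun_prop

/-- slices against a compactly supported weight are continuous -/
theorem pvweyl_slice_cont {G : ℂ → ℂ} (hG : Continuous G) {v : ℝ → ℝ} (hv : Continuous v) (hv' : HasCompactSupport v) :
    Continuous fun x : ℝ => ∫ y, v y • G ((x : ℂ) + (y : ℂ) * I) := by
  have e : ∀ x : ℝ, ∫ y, v y • G ((x : ℂ) + (y : ℂ) * I) = ∫ y in tsupport v, v y • G ((x : ℂ) + (y : ℂ) * I) := fun x =>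
    (setIntegral_eq_integral_of_forall_compl_eq_zero fun y hy => by rw [image_eq_zero_of_notMem_tsupport hy, zero_smul]).symm
  simp only [e]
  exact continuous_parametric_integral_of_continuous (f := fun (x : ℝ) (y : ℝ) => v y • G ((x : ℂ) + (y : ℂ) * I))
    (by unfold Function.uncurry; fun_prop) hv'.isCompact

theorem pvweyl_slice_int {G : ℂ → ℂ} (hG : Continuous G) {v : ℝ → ℝ} (hv : Continuous v) (hv' : HasCompactSupport v) (x : ℝ) :
    Integrable fun y : ℝ => v y • G ((x : ℂ) + (y : ℂ) * I) :=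
  Continuous.integrable_of_hasCompactSupport (by fun_prop) hv'.smul_right

/-- **Fubini for a product weight** -/
theorem pvweyl_fub {G : ℂ → ℂ} (hG : Continuous G) {u v : ℝ → ℝ} (hu : Continuous u) (hv : Continuous v) (hu' : HasCompactSupport u)
    (hv' : HasCompactSupport v) :
    Integrable (fun z : ℂ => G z * ((u z.re * v z.im : ℝ) : ℂ)) ∧
      ∫ z : ℂ, G z * ((u z.re * v z.im : ℝ) : ℂ) = ∫ x, u x • ∫ y, v y • G ((x : ℂ) + (y : ℂ) * I) := by
  obtain ⟨H, hH⟩ : ∃ H : ℝ × ℝ → ℂ, H = fun p => G ((p.1 : ℂ) + (p.2 : ℂ) * I) * ((u p.1 * v p.2 : ℝ) : ℂ) := ⟨_, rfl⟩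
  have hHc : Continuous H := by rw [hH]; fun_prop
  have hHs : HasCompactSupport H := by
    refine HasCompactSupport.intro (hu'.isCompact.prod hv'.isCompact) fun p hp => ?_
    rw [hH]
    rw [mem_prod, not_and_or] at hp
    rcases hp with hp | hp
    · simp [image_eq_zero_of_notMem_tsupport hp]
    · simp [image_eq_zero_of_notMem_tsupport hp]
  have hHi : Integrable H := hHc.integrable_of_hasCompactSupport hHs
  have e : (fun z : ℂ => G z * ((u z.re * v z.im : ℝ) : ℂ)) = fun z => H (Complex.measurableEquivRealProd z) := by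
    funext z
    rw [hH]
    simp only [Complex.measurableEquivRealProd_apply, Complex.re_add_im]
  rw [e]
  refine ⟨(Complex.volume_preserving_equiv_real_prod.integrable_comp_emb (MeasurableEquiv.measurableEmbedding _)).2 hHi, ?_⟩
  rw [Complex.volume_preserving_equiv_real_prod.integral_comp' H, Measure.volume_eq_prod, integral_prod H (by rwa [← Measure.volume_eq_prod])]
  refine integral_congr_ae (Filter.Eventually.of_forall fun x => ?_)
  simp only []
  rw [← integral_smul]
  refine integral_congr_ae (Filter.Eventually.of_forall fun y => ?_)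
  simp only [hH, Complex.real_smul]
  push_cast
  ring

/-- exchanging a slice integral and an interval integral -/
theorem pvweyl_swap {G : ℂ → ℂ} (hG : Continuous G) {v : ℝ → ℝ} (hv : Continuous v) (hv' : HasCompactSupport v) (a b : ℝ) :
    ∫ x in a..b, ∫ y, v y • G ((x : ℂ) + (y : ℂ) * I) = ∫ y, v y • ∫ x in a..b, G ((x : ℂ) + (y : ℂ) * I) := by
  have hc : Continuous (Function.uncurry fun (x : ℝ) (y : ℝ) => v y • G ((x : ℂ) + (y : ℂ) * I)) := by
    unfold Function.uncurry; fun_prop
  have hi : Integrable (Function.uncurry fun (x : ℝ) (y : ℝ) => v y • G ((x : ℂ) + (y : ℂ) * I)) ((volume.restrict (Ι a b)).prod volume) := by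
    have h1 : IntegrableOn (Function.uncurry fun (x : ℝ) (y : ℝ) => v y • G ((x : ℂ) + (y : ℂ) * I)) ([[a, b]] ×ˢ tsupport v)
        ((volume : Measure ℝ).prod volume) := hc.continuousOn.integrableOn_compact (isCompact_uIcc.prod hv'.isCompact)
    have h2 := h1.of_forall_sdiff_eq_zero (t := Ι a b ×ˢ univ) (measurableSet_uIoc.prod MeasurableSet.univ) fun p hp => by
      have hp2 : p.2 ∉ tsupport v := fun hc => hp.2 ⟨uIoc_subset_uIcc hp.1.1, hc⟩
      simp [Function.uncurry, image_eq_zero_of_notMem_tsupport hp2]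
    rw [IntegrableOn, ← Measure.prod_restrict, Measure.restrict_univ] at h2
    exact h2
  rw [intervalIntegral_integral_swap hi]
  refine integral_congr_ae (Filter.Eventually.of_forall fun y => ?_)
  simp only []
  rw [intervalIntegral.integral_smul]

/-! ## 3. the rectangle identity -/

/-- step 1: integration in `x` -/
theorem pvweyl_box_x {G : ℂ → ℂ} (hG : Continuous G) {α β : ℝ} {χ : ℝ → ℝ} (hχ : ContDiff ℝ ∞ χ) (hχc : HasCompactSupport χ)
    (h : ∀ φ : ℝ → ℝ, ContDiff ℝ ∞ φ → HasCompactSupport φ → tsupport φ ⊆ Ioo α β →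
      ∫ z : ℂ, G z * (((deriv φ z.re * χ z.im : ℝ) : ℂ) + I * ((φ z.re * deriv χ z.im : ℝ) : ℂ)) = 0)
    {a b : ℝ} (ha : a ∈ Ioo α β) (hb : b ∈ Ioo α β) :
    (∫ y, χ y • G ((a : ℂ) + (y : ℂ) * I)) - (∫ y, χ y • G ((b : ℂ) + (y : ℂ) * I))
      + ∫ x in a..b, I * ∫ y, deriv χ y • G ((x : ℂ) + (y : ℂ) * I) = 0 := by
  have hχ0 : Continuous χ := hχ.continuous
  have hχ1 : Continuous (deriv χ) := hχ.continuous_deriv (by simp)
  have hχ1c : HasCompactSupport (deriv χ) := hχc.deriv
  have hg := pvweyl_slice_cont hG hχ0 hχc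
  have hK := pvweyl_slice_cont hG hχ1 hχ1c
  refine pvweyl_one (g := fun x => ∫ y, χ y • G ((x : ℂ) + (y : ℂ) * I)) (k := fun x => I * ∫ y, deriv χ y • G ((x : ℂ) + (y : ℂ) * I))
    hg (continuous_const.mul hK) (fun φ hφ hφc hφs => ?_) ha hb
  have hφ0 : Continuous φ := hφ.continuous
  have hφ1 : Continuous (deriv φ) := hφ.continuous_deriv (by simp)
  have hφ1c : HasCompactSupport (deriv φ) := hφc.deriv
  obtain ⟨i1, e1⟩ := pvweyl_fub hG hφ1 hχ0 hφ1c hχc
  obtain ⟨i2, e2⟩ := pvweyl_fub hG hφ0 hχ1 hφc hχ1c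
  have h0 := h φ hφ hφc hφs
  have e3 : (fun z : ℂ => G z * (((deriv φ z.re * χ z.im : ℝ) : ℂ) + I * ((φ z.re * deriv χ z.im : ℝ) : ℂ)))
      = fun z => G z * ((deriv φ z.re * χ z.im : ℝ) : ℂ) + I * (G z * ((φ z.re * deriv χ z.im : ℝ) : ℂ)) := by
    funext z; ring
  rw [e3, integral_add i1 (i2.const_mul I), integral_const_mul, e1, e2] at h0
  have j1 : Integrable fun x : ℝ => deriv φ x • ∫ y, χ y • G ((x : ℂ) + (y : ℂ) * I) :=
    (hφ1.smul hg).integrable_of_hasCompactSupport hφ1c.smul_right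
  have j2 : Integrable fun x : ℝ => φ x • (I * ∫ y, deriv χ y • G ((x : ℂ) + (y : ℂ) * I)) :=
    (hφ0.smul (continuous_const.mul hK)).integrable_of_hasCompactSupport hφc.smul_right
  rw [integral_add j1 j2, ← h0, ← integral_const_mul]
  congr 1
  refine integral_congr_ae (Filter.Eventually.of_forall fun x => ?_)
  simp only [Complex.real_smul]
  ring

/-- **the rectangle identity for a continuous function on the plane** which solves `∂̄ G = 0` against the product tests of an open box -/
theorem pvweyl_box {G : ℂ → ℂ} (hG : Continuous G) {α β γ δ : ℝ}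
    (h : ∀ φ χ : ℝ → ℝ, ContDiff ℝ ∞ φ → ContDiff ℝ ∞ χ → HasCompactSupport φ → HasCompactSupport χ → tsupport φ ⊆ Ioo α β →
      tsupport χ ⊆ Ioo γ δ → ∫ z : ℂ, G z * (((deriv φ z.re * χ z.im : ℝ) : ℂ) + I * ((φ z.re * deriv χ z.im : ℝ) : ℂ)) = 0)
    {a b c d : ℝ} (ha : a ∈ Ioo α β) (hb : b ∈ Ioo α β) (hc : c ∈ Ioo γ δ) (hd : d ∈ Ioo γ δ) :
    (∫ x in a..b, G ((x : ℂ) + (c : ℂ) * I)) - (∫ x in a..b, G ((x : ℂ) + (d : ℂ) * I))
      + I • (∫ y in c..d, G ((b : ℂ) + (y : ℂ) * I)) - I • (∫ y in c..d, G ((a : ℂ) + (y : ℂ) * I)) = 0 := by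
  have hq : Continuous fun y : ℝ => ∫ x in a..b, G ((x : ℂ) + (y : ℂ) * I) :=
    intervalIntegral.continuous_parametric_intervalIntegral_of_continuous' (f := fun (y : ℝ) (x : ℝ) => G ((x : ℂ) + (y : ℂ) * I))
      (by unfold Function.uncurry; fun_prop) a b
  have hpa : Continuous fun y : ℝ => G ((a : ℂ) + (y : ℂ) * I) := by fun_prop
  have hpb : Continuous fun y : ℝ => G ((b : ℂ) + (y : ℂ) * I) := by fun_prop
  have key := pvweyl_one (g := fun y => I * ∫ x in a..b, G ((x : ℂ) + (y : ℂ) * I))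
    (k := fun y => G ((a : ℂ) + (y : ℂ) * I) - G ((b : ℂ) + (y : ℂ) * I)) (continuous_const.mul hq) (hpa.sub hpb)
    (fun χ hχ hχc hχs => ?_) hc hd
  · rw [intervalIntegral.integral_sub (hpa.intervalIntegrable _ _) (hpb.intervalIntegrable _ _)] at key
    simp only [smul_eq_mul]
    linear_combination (-I) * key + ((∫ x in a..b, G ((x : ℂ) + (c : ℂ) * I)) - (∫ x in a..b, G ((x : ℂ) + (d : ℂ) * I))) * Complex.I_mul_I
  · have hχ0 : Continuous χ := hχ.continuous
    have hχ1 : Continuous (deriv χ) := hχ.continuous_deriv (by simp)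
    have hχ1c : HasCompactSupport (deriv χ) := hχc.deriv
    have h1 := pvweyl_box_x hG hχ hχc (fun φ hφ hφc hφs => h φ χ hφ hχ hφc hχc hφs hχs) ha hb
    rw [intervalIntegral.integral_const_mul, pvweyl_swap hG hχ1 hχ1c a b,
      ← integral_sub (pvweyl_slice_int hG hχ0 hχc a) (pvweyl_slice_int hG hχ0 hχc b), ← integral_const_mul] at h1
    have j1 : Integrable fun y : ℝ => deriv χ y • (I * ∫ x in a..b, G ((x : ℂ) + (y : ℂ) * I)) :=
      (hχ1.smul (continuous_const.mul hq)).integrable_of_hasCompactSupport hχ1c.smul_right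
    have j2 : Integrable fun y : ℝ => χ y • (G ((a : ℂ) + (y : ℂ) * I) - G ((b : ℂ) + (y : ℂ) * I)) :=
      (hχ0.smul (hpa.sub hpb)).integrable_of_hasCompactSupport hχc.smul_right
    rw [integral_add j1 j2, ← h1, add_comm]
    congr 1
    · refine integral_congr_ae (Filter.Eventually.of_forall fun y => ?_)
      simp only [smul_sub]
    · refine integral_congr_ae (Filter.Eventually.of_forall fun y => ?_)
      simp only [Complex.real_smul]
      ring

/-! ## 4. localisation -/

theorem pvweyl_clamp {m M e x : ℝ} (hmM : m ≤ M) (he : 0 ≤ e) (h1 : m - e ≤ x) (h2 : x ≤ M + e) : ∃ y ∈ Icc m M, |x - y| ≤ e := by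
  refine ⟨max m (min x M), ⟨le_max_left _ _, max_le hmM (min_le_right _ _)⟩, ?_⟩
  rw [abs_le]
  rcases le_total x M with h | h
  · rw [min_eq_left h]
    rcases le_total m x with h' | h'
    · rw [max_eq_right h']; constructor <;> linarith
    · rw [max_eq_left h']; constructor <;> linarith
  · rw [min_eq_right h, max_eq_right hmM]; constructor <;> linarith

/-- a product test and its two partial derivatives vanish off the product of the supports -/
theorem pvweyl_off {φ χ : ℝ → ℝ} {K : Set ℂ} (hK : tsupport φ ×ℂ tsupport χ ⊆ K) {z : ℂ} (hz : z ∉ K) :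
    (((deriv φ z.re * χ z.im : ℝ) : ℂ) + I * ((φ z.re * deriv χ z.im : ℝ) : ℂ)) = 0 := by
  have h1 : z.re ∉ tsupport φ ∨ z.im ∉ tsupport χ := by
    by_contra hc
    rw [not_or, not_not, not_not] at hc
    exact hz (hK ⟨hc.1, hc.2⟩)
  rcases h1 with h1 | h1
  · have e1 : φ z.re = 0 := image_eq_zero_of_notMem_tsupport h1
    have e2 : deriv φ z.re = 0 := image_eq_zero_of_notMem_tsupport fun hc => h1 (tsupport_deriv_subset hc)
    simp [e1, e2]
  · have e1 : χ z.im = 0 := image_eq_zero_of_notMem_tsupport h1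
    have e2 : deriv χ z.im = 0 := image_eq_zero_of_notMem_tsupport fun hc => h1 (tsupport_deriv_subset hc)
    simp [e1, e2]

/-- **Weyl's lemma for `∂̄`, product tests.** -/
theorem pvweyl_prod {U : Set ℂ} (hU : IsOpen U) {F : ℂ → ℂ} (hF : ContinuousOn F U)
    (h : ∀ φ χ : ℝ → ℝ, ContDiff ℝ ∞ φ → ContDiff ℝ ∞ χ → HasCompactSupport φ → HasCompactSupport χ →
      tsupport φ ×ℂ tsupport χ ⊆ U →
      ∫ z : ℂ, F z * (((deriv φ z.re * χ z.im : ℝ) : ℂ) + I * ((φ z.re * deriv χ z.im : ℝ) : ℂ)) = 0) :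
    DifferentiableOn ℂ F U := by
  refine (isConservativeOn_and_continuousOn_iff_isDifferentiableOn hU).1 ⟨fun z w hzw => ?_, hF⟩
  rw [← add_eq_zero_iff_eq_neg, wedgeIntegral_add_wedgeIntegral_eq]
  have hRc : IsCompact (Rectangle z w) := isCompact_uIcc.reProdIm isCompact_uIcc
  obtain ⟨η, hη, hηU⟩ := hRc.exists_cthickening_subset_open hU hzw
  have hη2 : 0 < η / 2 := by positivity
  obtain ⟨K, hK⟩ : ∃ K : Set ℂ, K = Icc (min z.re w.re - η / 2) (max z.re w.re + η / 2) ×ℂ
      Icc (min z.im w.im - η / 2) (max z.im w.im + η / 2) := ⟨_, rfl⟩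
  have hKU : K ⊆ U := by
    intro p hp
    rw [hK] at hp
    obtain ⟨x, hx, hx'⟩ := pvweyl_clamp min_le_max hη2.le hp.1.1 hp.1.2
    obtain ⟨y, hy, hy'⟩ := pvweyl_clamp min_le_max hη2.le hp.2.1 hp.2.2
    refine hηU (Metric.mem_cthickening_of_dist_le p (⟨x, y⟩ : ℂ) η _ ⟨hx, hy⟩ ?_)
    rw [Complex.dist_eq]
    refine (Complex.norm_le_abs_re_add_abs_im _).trans ?_
    simp only [sub_re, sub_im]
    linarith
  have hKc : IsClosed K := by rw [hK]; exact isClosed_Icc.reProdIm isClosed_Icc
  obtain ⟨G, hG⟩ := ContinuousMap.exists_restrict_eq hKc ⟨K.domRestrict F, continuousOn_iff_continuous_domRestrict.1 (hF.mono hKU)⟩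
  have hGF : ∀ p ∈ K, G p = F p := fun p hp => by
    have := congrArg (fun f : C(K, ℂ) => f ⟨p, hp⟩) hG
    exact this
  have hre : ∀ t ∈ [[z.re, w.re]], t ∈ Ioo (min z.re w.re - η / 2) (max z.re w.re + η / 2) := fun t ht =>
    ⟨by have := ht.1; linarith, by have := ht.2; linarith⟩
  have him : ∀ t ∈ [[z.im, w.im]], t ∈ Ioo (min z.im w.im - η / 2) (max z.im w.im + η / 2) := fun t ht =>
    ⟨by have := ht.1; linarith, by have := ht.2; linarith⟩
  have hmem : ∀ x ∈ [[z.re, w.re]], ∀ y ∈ [[z.im, w.im]], ((x : ℂ) + (y : ℂ) * I) ∈ K := fun x hx y hy => by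
    rw [hK]
    refine ⟨?_, ?_⟩
    · simpa using Ioo_subset_Icc_self (hre x hx)
    · simpa using Ioo_subset_Icc_self (him y hy)
  have key := pvweyl_box G.continuous (α := min z.re w.re - η / 2) (β := max z.re w.re + η / 2) (γ := min z.im w.im - η / 2)
    (δ := max z.im w.im + η / 2) (fun φ χ hφ hχ hφc hχc hφs hχs => ?_) (hre z.re left_mem_uIcc) (hre w.re right_mem_uIcc)
    (him z.im left_mem_uIcc) (him w.im right_mem_uIcc)
  · rw [← key]
    congr 1
    · congr 1
      · congr 1
        · exact intervalIntegral.integral_congr fun x hx => (hGF _ (hmem x hx _ left_mem_uIcc)).symm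
        · exact intervalIntegral.integral_congr fun x hx => (hGF _ (hmem x hx _ right_mem_uIcc)).symm
      · congr 1
        exact intervalIntegral.integral_congr fun y hy => (hGF _ (hmem _ right_mem_uIcc y hy)).symm
    · congr 1
      exact intervalIntegral.integral_congr fun y hy => (hGF _ (hmem _ left_mem_uIcc y hy)).symm
  · have hsK : tsupport φ ×ℂ tsupport χ ⊆ K := by
      rw [hK]
      exact fun p hp => ⟨Ioo_subset_Icc_self (hφs hp.1), Ioo_subset_Icc_self (hχs hp.2)⟩
    rw [← h φ χ hφ hχ hφc hχc (hsK.trans hKU)]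
    refine integral_congr_ae (Filter.Eventually.of_forall fun p => ?_)
    simp only []
    by_cases hp : p ∈ K
    · rw [hGF p hp]
    · rw [pvweyl_off hsK hp, mul_zero, mul_zero]

/-! ## 5. general tests -/

/-- the product test function on the plane -/
def pvweylTest (φ χ : ℝ → ℝ) (z : ℂ) : ℝ := φ z.re * χ z.im

theorem pvweyl_test_contDiff {φ χ : ℝ → ℝ} (hφ : ContDiff ℝ ∞ φ) (hχ : ContDiff ℝ ∞ χ) : ContDiff ℝ ∞ (pvweylTest φ χ) := by
  unfold pvweylTest
  exact (hφ.comp Complex.reCLM.contDiff).mul (hχ.comp Complex.imCLM.contDiff)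

theorem pvweyl_test_tsupport (φ χ : ℝ → ℝ) : tsupport (pvweylTest φ χ) ⊆ tsupport φ ×ℂ tsupport χ := by
  refine closure_minimal (fun z hz => ?_) ((isClosed_tsupport φ).reProdIm (isClosed_tsupport χ))
  have hz' : φ z.re * χ z.im ≠ 0 := hz
  exact ⟨subset_tsupport _ (left_ne_zero_of_mul hz'), subset_tsupport _ (right_ne_zero_of_mul hz')⟩

theorem pvweyl_test_compact {φ χ : ℝ → ℝ} (hφ : HasCompactSupport φ) (hχ : HasCompactSupport χ) :
    HasCompactSupport (pvweylTest φ χ) :=
  (hφ.isCompact.reProdIm hχ.isCompact).of_isClosed_subset (isClosed_tsupport _) (pvweyl_test_tsupport φ χ)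

theorem pvweyl_test_fderiv {φ χ : ℝ → ℝ} (hφ : Differentiable ℝ φ) (hχ : Differentiable ℝ χ) (z : ℂ) :
    fderiv ℝ (pvweylTest φ χ) z 1 = deriv φ z.re * χ z.im ∧ fderiv ℝ (pvweylTest φ χ) z I = φ z.re * deriv χ z.im := by
  have h1 : HasFDerivAt (fun z : ℂ => φ z.re) ((ContinuousLinearMap.toSpanSingleton ℝ (deriv φ z.re)).comp Complex.reCLM) z :=
    ((hφ z.re).hasDerivAt.hasFDerivAt).comp z Complex.reCLM.hasFDerivAt
  have h2 : HasFDerivAt (fun z : ℂ => χ z.im) ((ContinuousLinearMap.toSpanSingleton ℝ (deriv χ z.im)).comp Complex.imCLM) z :=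
    ((hχ z.im).hasDerivAt.hasFDerivAt).comp z Complex.imCLM.hasFDerivAt
  have h3 := (h1.mul h2).fderiv
  have e : pvweylTest φ χ = (fun z : ℂ => φ z.re) * fun z : ℂ => χ z.im := rfl
  rw [e, h3]
  constructor
  · simp [mul_comm]
  · simp

/-- **Weyl's lemma for `∂̄`.** A continuous function on an open set of the plane which is a weak solution of `∂̄ F = 0` is holomorphic. -/
theorem pvweyl_main {U : Set ℂ} (hU : IsOpen U) {F : ℂ → ℂ} (hF : ContinuousOn F U)
    (h : ∀ f : ℂ → ℝ, ContDiff ℝ ∞ f → HasCompactSupport f → tsupport f ⊆ U →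
      ∫ z : ℂ, F z * (((fderiv ℝ f z 1 : ℝ) : ℂ) + I * ((fderiv ℝ f z I : ℝ) : ℂ)) = 0) :
    DifferentiableOn ℂ F U := by
  refine pvweyl_prod hU hF fun φ χ hφ hχ hφc hχc hs => ?_
  rw [← h (pvweylTest φ χ) (pvweyl_test_contDiff hφ hχ) (pvweyl_test_compact hφc hχc) ((pvweyl_test_tsupport φ χ).trans hs)]
  refine integral_congr_ae (Filter.Eventually.of_forall fun z => ?_)
  simp only []
  obtain ⟨e1, e2⟩ := pvweyl_test_fderiv (hφ.differentiable (by simp)) (hχ.differentiable (by simp)) z
  rw [e1, e2]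

/-- `pvweyl_main` with the integrals restricted to `U` -/
theorem pvweyl_main_on {U : Set ℂ} (hU : IsOpen U) {F : ℂ → ℂ} (hF : ContinuousOn F U)
    (h : ∀ f : ℂ → ℝ, ContDiff ℝ ∞ f → HasCompactSupport f → tsupport f ⊆ U →
      ∫ z in U, F z * (((fderiv ℝ f z 1 : ℝ) : ℂ) + I * ((fderiv ℝ f z I : ℝ) : ℂ)) = 0) :
    DifferentiableOn ℂ F U := by
  refine pvweyl_main hU hF fun f hf hfc hfs => ?_
  rw [← h f hf hfc hfs]
  refine (setIntegral_eq_integral_of_forall_compl_eq_zero fun z hz => ?_).symm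
  have h0 : fderiv ℝ f z = 0 := image_eq_zero_of_notMem_tsupport fun hc => hz (hfs (tsupport_fderiv_subset ℝ hc))
  simp [h0]

end

end Claimed.Agent.R289
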