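import Claimed.Agent.R289.Exit.Lower

/-!
# Row 289 (S0537, Cardy's formula for critical Poisson-Voronoi percolation): THE HUB      (architects helper163, helper207)

    S0537 (`Claimed/Agent/S0537.lean`)  :=  `pv_hub_main`  :=  `pvend_main` (212, `R289/End.lean`)  ∘  `exit_pv_lower` (`R289/Exit/Lower.lean`)

RULES (as in row 286): consumers import `Exit/*` + `Defs/*` only; an exit statement is changed only by its head together with 163 / 207; the kernel frontier of `pv_hub_main` is the list of debts of the row.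
-/

set_option autoImplicit false

namespace Claimed.Agent.R289

open Set Filter Topology MeasureTheory
open Claims.C0465

/-- **the frozen statement S0537** -/
theorem pv_hub_main (D : Set ℂ) (hDo : IsOpen D) (hDb : Bornology.IsBounded D)
    (hDj : ∃ γ : Circle → ℂ, Continuous γ ∧ Function.Injective γ ∧ Set.range γ = frontier D)
    (a b c d : ℂ) (ha : a ∈ frontier D) (hb : b ∈ frontier D) (hc : c ∈ frontier D)
    (hd : d ∈ frontier D) (ψ : ℂ → ℂ) (hψh : DifferentiableOn ℂ ψ D)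
    (hψi : Set.InjOn ψ (closure D \ {d})) (hψc : ContinuousOn ψ (closure D \ {d}))
    (hψD : ψ '' D = {z | 0 < z.im}) (hψbd : ψ '' (frontier D \ {d}) = {z | z.im = 0})
    (hψd : Tendsto (fun z => ‖ψ z‖) (𝓝[closure D \ {d}] d) atTop)
    (hψa : ψ a = 0) (hψc1 : ψ c = 1) (had : a ≠ d) (hbd : b ≠ d) (hcd : c ≠ d) (hord : 0 < (ψ b).re ∧ (ψ b).re < 1) :
    Tendsto
      (fun ε : ℝ => (pvLaw ε {ω | ∃ S : Set ℂ, S ⊆ pvBlack ω ∩ closure D ∧ IsConnected S ∧
          (∃ z ∈ S, z ∈ frontier D ∧ z ≠ d ∧ 0 ≤ (ψ z).re ∧ (ψ z).re ≤ (ψ b).re) ∧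
          (∃ z ∈ S, z = d ∨ (z ∈ frontier D ∧ z ≠ d ∧ 1 ≤ (ψ z).re))}).toReal)
      (𝓝[>] 0) (𝓝 (cardyF (ψ b).re)) :=
  pvend_main exit_pv_lower D hDo hDb hDj a b c d ha hb hc hd ψ hψh hψi hψc hψD hψbd hψd hψa hψc1 had hbd hcd hord

end Claimed.Agent.R289
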