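import Mathlib
import Claimed.Agent.R289.Ppp

/-!
# Row 289 (S0537), box PPP, file PppStop : STOPPING SETS FOR POISSON PROCESSES      (owner helper170)

The POINT analogue of `Arm/Stop.lean` (fair bits).  Generic in `E`, `IsPpp m μ` ; instantiate with `pv_isPpp`.

* `pvstMix O η η'` : keep `η` on `O`, take `η'` off `O`.
* `ι` countable, `K : ι → Set E` the candidate regions, `T : Conf E → ι` the exploration.
  `PvstMeas K T F` : `F` is read from the explored region ; `PvstStop K T := PvstMeas K T T` ;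
  `PvstReg K T` : stopping set + measurability.
* `pvst_swap0` (fixed region), `pvst_swap` (stopping set) : the pair involution is measure preserving.
* `pvst_splice`, `pvst_fresh`, `pvst_smarkov` (lintegral), `pvst_smarkov_int` (Bochner), `pvst_smarkov_P`, `_le`, `_ge`.
* `pvst_iter` : explorations are built by recursion.
-/

set_option autoImplicit false
set_option linter.unusedSectionVars false
set_option linter.style.haveILetI false

namespace Claimed.Agent.R289

open MeasureTheory ProbabilityTheory Set Filter Topology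
open scoped ENNReal NNReal

variable {E : Type*}

/-! ## 0. algebra of `restr`, `union`, `pvstMix` -/

/-- keep `η` on `O`, take `η'` off `O` -/
def pvstMix (O : Set E) (η η' : Conf E) : Conf E := Conf.union (Conf.restr O η) (Conf.restr Oᶜ η')

theorem pvst_mem_mix {O : Set E} {η η' : Conf E} {p : E} :
    p ∈ (pvstMix O η η').pts ↔ (p ∈ η.pts ∧ p ∈ O) ∨ (p ∈ η'.pts ∧ p ∉ O) := Iff.rfl

theorem pvst_restr_restr (O O' : Set E) (η : Conf E) : Conf.restr O (Conf.restr O' η) = Conf.restr (O' ∩ O) η := by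
  ext p; simp only [Conf.restr, mem_inter_iff, and_assoc]

theorem pvst_restr_idem (O : Set E) (η : Conf E) : Conf.restr O (Conf.restr O η) = Conf.restr O η := by
  rw [pvst_restr_restr, inter_self]

theorem pvst_restr_univ (η : Conf E) : Conf.restr univ η = η := by
  ext p; simp [Conf.restr]

theorem pvst_restr_empty (η : Conf E) : Conf.restr ∅ η = ⟨∅⟩ := by
  ext p; simp [Conf.restr]

theorem pvst_restr_union (O : Set E) (η η' : Conf E) :
    Conf.restr O (Conf.union η η') = Conf.union (Conf.restr O η) (Conf.restr O η') := by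
  ext p; simp only [Conf.restr, Conf.union, mem_inter_iff, mem_union]; tauto

theorem pvst_restr_eq_iff {O : Set E} {η η' : Conf E} :
    Conf.restr O η = Conf.restr O η' ↔ ∀ p ∈ O, (p ∈ η.pts ↔ p ∈ η'.pts) := by
  constructor
  · intro h p hp
    have := congrArg (fun ξ : Conf E => p ∈ ξ.pts) h
    simp only [Conf.restr, mem_inter_iff, hp, and_true, eq_iff_iff] at this
    exact this
  · intro h
    ext p
    simp only [Conf.restr, mem_inter_iff]
    exact ⟨fun ⟨a, b⟩ => ⟨(h p b).1 a, b⟩, fun ⟨a, b⟩ => ⟨(h p b).2 a, b⟩⟩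

theorem pvst_restr_eq_mono {O O' : Set E} (hO : O' ⊆ O) {η η' : Conf E} (h : Conf.restr O η = Conf.restr O η') :
    Conf.restr O' η = Conf.restr O' η' :=
  pvst_restr_eq_iff.2 fun p hp => pvst_restr_eq_iff.1 h p (hO hp)

theorem pvst_mix_self (O : Set E) (η : Conf E) : pvstMix O η η = η := by
  ext p; simp only [pvst_mem_mix]; tauto

theorem pvst_restr_mix (O : Set E) (η η' : Conf E) : Conf.restr O (pvstMix O η η') = Conf.restr O η :=
  pvst_restr_eq_iff.2 fun p hp => by simp only [pvst_mem_mix]; tauto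

theorem pvst_restr_compl_mix (O : Set E) (η η' : Conf E) : Conf.restr Oᶜ (pvstMix O η η') = Conf.restr Oᶜ η' :=
  pvst_restr_eq_iff.2 fun p hp => by
    have hp' : p ∉ O := hp
    simp only [pvst_mem_mix]; tauto

theorem pvst_restr_mix_sub {O O' : Set E} (h : O' ⊆ O) (η η' : Conf E) :
    Conf.restr O' (pvstMix O η η') = Conf.restr O' η :=
  pvst_restr_eq_mono h (pvst_restr_mix O η η')

theorem pvst_restr_mix_disj {O O' : Set E} (h : Disjoint O' O) (η η' : Conf E) :
    Conf.restr O' (pvstMix O η η') = Conf.restr O' η' :=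
  pvst_restr_eq_mono (fun _ hp hpO => Set.disjoint_left.1 h hp hpO) (pvst_restr_compl_mix O η η')

theorem pvst_mix_mix_left (O : Set E) (η η' η'' : Conf E) : pvstMix O (pvstMix O η η') η'' = pvstMix O η η'' := by
  ext p; simp only [pvst_mem_mix]; tauto

theorem pvst_mix_mix_right (O : Set E) (η η' η'' : Conf E) : pvstMix O η (pvstMix O η' η'') = pvstMix O η η'' := by
  ext p; simp only [pvst_mem_mix]; tauto

theorem pvst_mix_congr_left {O : Set E} {η₁ η₂ : Conf E} (h : Conf.restr O η₁ = Conf.restr O η₂) (η' : Conf E) :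
    pvstMix O η₁ η' = pvstMix O η₂ η' := by
  unfold pvstMix; rw [h]

theorem pvst_mix_congr_right {O : Set E} (η : Conf E) {η₁ η₂ : Conf E} (h : Conf.restr Oᶜ η₁ = Conf.restr Oᶜ η₂) :
    pvstMix O η η₁ = pvstMix O η η₂ := by
  unfold pvstMix; rw [h]

theorem pvst_mix_univ (η η' : Conf E) : pvstMix univ η η' = η := by
  ext p; simp [pvst_mem_mix]

theorem pvst_mix_empty (η η' : Conf E) : pvstMix ∅ η η' = η' := by
  ext p; simp [pvst_mem_mix]

theorem pvst_mix_compl (O : Set E) (η η' : Conf E) : pvstMix Oᶜ η η' = pvstMix O η' η := by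
  ext p; simp only [pvst_mem_mix, mem_compl_iff, not_not]; tauto

/-- a configuration which agrees with `η` on `O` is a mix -/
theorem pvst_eq_mix {O : Set E} {η η' : Conf E} (h : Conf.restr O η' = Conf.restr O η) : η' = pvstMix O η η' := by
  rw [← pvst_mix_congr_left h, pvst_mix_self]

theorem pvst_mix_void (O B : Set E) (η η' : Conf E) :
    pvstMix O η η' ∈ Conf.void B ↔ η ∈ Conf.void (B ∩ O) ∧ η' ∈ Conf.void (B ∩ Oᶜ) := by
  simp only [Conf.mem_void, pvst_mem_mix, mem_inter_iff, mem_compl_iff, not_and]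
  constructor
  · intro h
    exact ⟨fun p hp hB hO => h p (Or.inl ⟨hp, hO⟩) hB, fun p hp hB hO => h p (Or.inr ⟨hp, hO⟩) hB⟩
  · rintro ⟨h1, h2⟩ p (⟨hp, hO⟩ | ⟨hp, hO⟩) hB
    · exact h1 p hp hB hO
    · exact h2 p hp hB hO

variable [MeasurableSpace E]

theorem measurable_pvstMix {O : Set E} (hO : MeasurableSet O) :
    Measurable fun x : Conf E × Conf E => pvstMix O x.1 x.2 :=
  Conf.measurable_union.comp (((Conf.measurable_restr hO).comp measurable_fst).prodMk
    ((Conf.measurable_restr hO.compl).comp measurable_snd))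

/-- the swap off a fixed region -/
def pvstSw (O : Set E) (x : Conf E × Conf E) : Conf E × Conf E := (pvstMix O x.1 x.2, pvstMix O x.2 x.1)

theorem pvst_sw_sw (O : Set E) (x : Conf E × Conf E) : pvstSw O (pvstSw O x) = x := by
  obtain ⟨η, η'⟩ := x
  simp only [pvstSw, pvst_mix_mix_left, pvst_mix_mix_right, pvst_mix_self]

theorem measurable_pvstSw {O : Set E} (hO : MeasurableSet O) : Measurable (pvstSw O : Conf E × Conf E → _) :=
  (measurable_pvstMix hO).prodMk ((measurable_pvstMix hO).comp measurable_swap)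

/-! ## 1. the fixed region -/

/-- a finite measure on pairs of configurations is determined by the void rectangles -/
theorem pvst_prod_ext {μ ν : Measure (Conf E)} [IsFiniteMeasure μ] [IsFiniteMeasure ν] {ρ : Measure (Conf E × Conf E)}
    (h : ∀ B C, MeasurableSet B → MeasurableSet C → ρ (Conf.void B ×ˢ Conf.void C) = μ (Conf.void B) * ν (Conf.void C)) :
    μ.prod ν = ρ := by
  have sp : ∀ κ : Measure (Conf E), IsFiniteMeasure κ → κ.FiniteSpanningSetsIn (Conf.voids E) := fun κ _ =>
    { set := fun _ => univ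
      set_mem := fun _ => ⟨∅, MeasurableSet.empty, Conf.void_empty.symm⟩
      finite := fun _ => measure_lt_top _ _
      spanning := iUnion_const _ }
  refine Measure.prod_eq_generateFrom rfl rfl Conf.isPiSystem_voids Conf.isPiSystem_voids (sp μ inferInstance) (sp ν inferInstance) ?_
  rintro _ ⟨B, hB, rfl⟩ _ ⟨C, hC, rfl⟩
  exact h B C hB hC

variable {m : Measure E} {μ : Measure (Conf E)}

/-- **pair involution, fixed region** -/
theorem pvst_swap0 (h : IsPpp m μ) {O : Set E} (hO : MeasurableSet O) :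
    MeasurePreserving (pvstSw O) (μ.prod μ) (μ.prod μ) := by
  have := h.prob
  refine ⟨measurable_pvstSw hO, ?_⟩
  symm
  refine pvst_prod_ext fun B C hB hC => ?_
  rw [Measure.map_apply (measurable_pvstSw hO) ((Conf.measurableSet_void hB).prod (Conf.measurableSet_void hC))]
  have e : pvstSw O ⁻¹' (Conf.void B ×ˢ Conf.void C)
      = Conf.void (B ∩ O ∪ C ∩ Oᶜ) ×ˢ Conf.void (B ∩ Oᶜ ∪ C ∩ O) := by
    ext ⟨η, η'⟩
    simp only [mem_preimage, pvstSw, mem_prod, pvst_mix_void, Conf.void_union, mem_inter_iff]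
    tauto
  have d1 : Disjoint (B ∩ O) (C ∩ Oᶜ) := Set.disjoint_left.2 fun p hp hp' => hp'.2 hp.2
  have d2 : Disjoint (B ∩ Oᶜ) (C ∩ O) := Set.disjoint_left.2 fun p hp hp' => hp.2 hp'.2
  rw [e, Measure.prod_prod, h.void _ ((hB.inter hO).union (hC.inter hO.compl)),
    h.void _ ((hB.inter hO.compl).union (hC.inter hO)), h.void B hB, h.void C hC,
    measure_union d1 (hC.inter hO.compl), measure_union d2 (hC.inter hO), expNeg_add, expNeg_add,
    ← measure_inter_add_sdiff B hO, ← measure_inter_add_sdiff C hO, expNeg_add, expNeg_add,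
    Set.sdiff_eq_compl_inter, Set.sdiff_eq_compl_inter, inter_comm Oᶜ B, inter_comm Oᶜ C]
  ring

/-! ## 2. stopping sets -/

variable {ι : Type*}

/-- `F` is read from the explored region `K (T η)` -/
def PvstMeas {β : Sort*} (K : ι → Set E) (T : Conf E → ι) (F : Conf E → β) : Prop :=
  ∀ η η', Conf.restr (K (T η)) η' = Conf.restr (K (T η)) η → F η' = F η

/-- stopping set -/
def PvstStop (K : ι → Set E) (T : Conf E → ι) : Prop := PvstMeas K T T

/-- stopping set with the measurability needed -/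
structure PvstReg (K : ι → Set E) (T : Conf E → ι) : Prop where
  stop : PvstStop K T
  mK : ∀ i, MeasurableSet (K i)
  mT : ∀ i, MeasurableSet (T ⁻¹' {i})

/-- resample off the explored region -/
def pvstRs (K : ι → Set E) (T : Conf E → ι) (η η' : Conf E) : Conf E := pvstMix (K (T η)) η η'

/-- the swap off the explored region of the first coordinate -/
def pvstSwT (K : ι → Set E) (T : Conf E → ι) (x : Conf E × Conf E) : Conf E × Conf E := pvstSw (K (T x.1)) x

theorem pvst_meas_rs {β : Sort*} {K : ι → Set E} {T : Conf E → ι} {F : Conf E → β} (hF : PvstMeas K T F) (η η' : Conf E) :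
    F (pvstRs K T η η') = F η := hF η _ (pvst_restr_mix _ _ _)

theorem pvst_T_rs {K : ι → Set E} {T : Conf E → ι} (hT : PvstStop K T) (η η' : Conf E) : T (pvstRs K T η η') = T η :=
  pvst_meas_rs hT η η'

theorem pvst_meas_const {β : Sort*} (K : ι → Set E) (T : Conf E → ι) (c : β) : PvstMeas K T fun _ => c := fun _ _ _ => rfl

theorem pvst_meas_comp {β γ : Sort*} {K : ι → Set E} {T : Conf E → ι} {F : Conf E → β} (hF : PvstMeas K T F) (g : β → γ) :
    PvstMeas K T fun η => g (F η) := fun η η' h => congrArg g (hF η η' h)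

theorem pvst_meas_pair {β γ : Type*} {K : ι → Set E} {T : Conf E → ι} {F : Conf E → β} {G : Conf E → γ}
    (hF : PvstMeas K T F) (hG : PvstMeas K T G) : PvstMeas K T fun η => (F η, G η) :=
  fun η η' h => by
    show (F η', G η') = (F η, G η)
    rw [hF η η' h, hG η η' h]

/-- the explored configuration is read from the explored region -/
theorem pvst_meas_restr {K : ι → Set E} {T : Conf E → ι} (hT : PvstStop K T) :
    PvstMeas K T fun η => Conf.restr (K (T η)) η := fun η η' h => by
  show Conf.restr (K (T η')) η' = _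
  rw [hT η η' h, h]

/-- anything of the form `g (T η) (η restricted to K (T η))` is read from the explored region -/
theorem pvst_meas_of {β : Sort*} {K : ι → Set E} {T : Conf E → ι} (hT : PvstStop K T) (g : ι → Conf E → β) :
    PvstMeas K T fun η => g (T η) (Conf.restr (K (T η)) η) := fun η η' h => by
  show g (T η') (Conf.restr (K (T η')) η') = _
  rw [hT η η' h, h]

theorem pvst_meas_iff {β : Sort*} {K : ι → Set E} {T : Conf E → ι} {F : Conf E → β} :
    PvstMeas K T F ↔ ∀ η η', F (pvstRs K T η η') = F η :=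
  ⟨fun h η η' => pvst_meas_rs h η η', fun h η η' e => by
    have := h η η'
    rwa [pvstRs, ← pvst_eq_mix e] at this⟩

/-- a deterministic region is a stopping set -/
theorem pvst_stop_const (K : ι → Set E) (i : ι) : PvstStop K fun _ => i := pvst_meas_const K _ i

theorem pvst_reg_const {K : ι → Set E} (hK : ∀ i, MeasurableSet (K i)) (i : ι) : PvstReg K fun _ => i :=
  ⟨pvst_stop_const K i, hK, fun j => by
    by_cases h : i = j
    · subst h; simp
    · have : (fun _ : Conf E => i) ⁻¹' {j} = ∅ := by ext; simp [h]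
      rw [this]; exact MeasurableSet.empty⟩

theorem pvst_swT_swT {K : ι → Set E} {T : Conf E → ι} (hT : PvstStop K T) (x : Conf E × Conf E) :
    pvstSwT K T (pvstSwT K T x) = x := by
  have : T (pvstSwT K T x).1 = T x.1 := pvst_T_rs hT x.1 x.2
  unfold pvstSwT at this ⊢
  rw [this, pvst_sw_sw]

theorem pvst_preimage_swT {K : ι → Set E} {T : Conf E → ι} (hT : PvstStop K T) (A : Set (Conf E × Conf E)) :
    pvstSwT K T ⁻¹' A = ⋃ i, pvstSw (K i) ⁻¹' (A ∩ {x | T x.1 = i}) := by
  ext x
  simp only [mem_preimage, mem_iUnion, mem_inter_iff, mem_ofPred_eq]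
  constructor
  · intro hx
    exact ⟨T x.1, hx, pvst_T_rs hT x.1 x.2⟩
  · rintro ⟨i, hx, hi⟩
    have h1 : T x.1 = i := by
      have := hT (pvstSw (K i) x).1 x.1 (by rw [hi]; exact (pvst_restr_mix _ _ _).symm)
      rw [this, hi]
    unfold pvstSwT; rw [h1]; exact hx

variable [Countable ι]

theorem measurable_pvstSwT {K : ι → Set E} {T : Conf E → ι} (hT : PvstReg K T) : Measurable (pvstSwT K T) := by
  intro A hA
  rw [pvst_preimage_swT hT.stop]
  exact MeasurableSet.iUnion fun i => measurable_pvstSw (hT.mK i) (hA.inter (measurable_fst (hT.mT i)))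

theorem measurable_pvstRs {K : ι → Set E} {T : Conf E → ι} (hT : PvstReg K T) :
    Measurable fun x : Conf E × Conf E => pvstRs K T x.1 x.2 := measurable_fst.comp (measurable_pvstSwT hT)

/-- **pair involution at a stopping set** : off the explored region the process is a fresh copy -/
theorem pvst_swap (h : IsPpp m μ) {K : ι → Set E} {T : Conf E → ι} (hT : PvstReg K T) :
    MeasurePreserving (pvstSwT K T) (μ.prod μ) (μ.prod μ) := by
  have := h.prob
  refine ⟨measurable_pvstSwT hT, ?_⟩
  ext A hA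
  have mS : ∀ i, MeasurableSet (A ∩ {x : Conf E × Conf E | T x.1 = i}) := fun i => hA.inter (measurable_fst (hT.mT i))
  rw [Measure.map_apply (measurable_pvstSwT hT) hA, pvst_preimage_swT hT.stop, measure_iUnion]
  · have : ∀ i, (μ.prod μ) (pvstSw (K i) ⁻¹' (A ∩ {x | T x.1 = i})) = (μ.prod μ) (A ∩ {x | T x.1 = i}) := fun i =>
      (pvst_swap0 h (hT.mK i)).measure_preimage (mS i).nullMeasurableSet
    simp_rw [this]
    rw [← measure_iUnion]
    · congr 1
      ext x; simp
    · intro i j hij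
      exact Set.disjoint_left.2 fun x hx hx' => hij (hx.2.symm.trans hx'.2)
    · exact mS
  · intro i j hij
    refine Set.disjoint_left.2 fun x hx hx' => hij ?_
    have h1 : T x.1 = i := by
      have := hT.stop (pvstSw (K i) x).1 x.1 (by rw [hx.2]; exact (pvst_restr_mix _ _ _).symm)
      rw [this]; exact hx.2
    have h2 : T x.1 = j := by
      have := hT.stop (pvstSw (K j) x).1 x.1 (by rw [hx'.2]; exact (pvst_restr_mix _ _ _).symm)
      rw [this]; exact hx'.2
    exact h1.symm.trans h2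
  · exact fun i => measurable_pvstSw (hT.mK i) (mS i)

/-- **splice at a stopping set** -/
theorem pvst_splice (h : IsPpp m μ) {K : ι → Set E} {T : Conf E → ι} (hT : PvstReg K T) :
    (μ.prod μ).map (fun x => pvstRs K T x.1 x.2) = μ := by
  have := h.prob
  have h1 := (pvst_swap h hT).map_eq
  have h2 : (μ.prod μ).map (fun x => pvstRs K T x.1 x.2) = ((μ.prod μ).map (pvstSwT K T)).map Prod.fst := by
    rw [Measure.map_map measurable_fst (measurable_pvstSwT hT)]; rfl
  rw [h2, h1, Measure.map_fst_prod]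
  simp

/-! ## 3. integral forms -/

/-- **fresh copy** (lintegral form of `pvst_swap`) -/
theorem pvst_fresh (h : IsPpp m μ) {K : ι → Set E} {T : Conf E → ι} (hT : PvstReg K T)
    {H : Conf E × Conf E → ℝ≥0∞} (hH : Measurable H) :
    ∫⁻ η, ∫⁻ η', H (pvstRs K T η η', pvstMix (K (T η)) η' η) ∂μ ∂μ = ∫⁻ η, ∫⁻ η', H (η, η') ∂μ ∂μ := by
  have := h.prob
  rw [← lintegral_prod _ hH.aemeasurable, ← (pvst_swap h hT).lintegral_comp hH,
    lintegral_prod (fun a => H (pvstSwT K T a)) (hH.comp (measurable_pvstSwT hT)).aemeasurable]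
  rfl

/-- the conditional expectation of `G` given the explored region and what was seen there -/
noncomputable def pvstCE (μ : Measure (Conf E)) (K : ι → Set E) (T : Conf E → ι) (G : Conf E → ℝ≥0∞) (η : Conf E) : ℝ≥0∞ :=
  ∫⁻ η', G (pvstRs K T η η') ∂μ

/-- the conditional probability of `B` given the explored region and what was seen there -/
noncomputable def pvstCP (μ : Measure (Conf E)) (K : ι → Set E) (T : Conf E → ι) (B : Set (Conf E)) (η : Conf E) : ℝ≥0∞ :=
  μ {η' | pvstRs K T η η' ∈ B}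

omit [Countable ι] in
theorem pvst_rs_congr {K : ι → Set E} {T : Conf E → ι} (hT : PvstStop K T) {η₁ η₂ : Conf E}
    (e : Conf.restr (K (T η₁)) η₂ = Conf.restr (K (T η₁)) η₁) (η' : Conf E) : pvstRs K T η₂ η' = pvstRs K T η₁ η' := by
  unfold pvstRs
  rw [hT η₁ η₂ e]
  exact pvst_mix_congr_left e η'

omit [Countable ι] in
theorem pvst_meas_CE {K : ι → Set E} {T : Conf E → ι} (hT : PvstStop K T) (μ : Measure (Conf E)) (G : Conf E → ℝ≥0∞) :
    PvstMeas K T (pvstCE μ K T G) := fun η₁ η₂ e => by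
  unfold pvstCE
  simp_rw [pvst_rs_congr hT e]

omit [Countable ι] in
theorem pvst_meas_CP {K : ι → Set E} {T : Conf E → ι} (hT : PvstStop K T) (μ : Measure (Conf E)) (B : Set (Conf E)) :
    PvstMeas K T (pvstCP μ K T B) := fun η₁ η₂ e => by
  unfold pvstCP
  simp_rw [pvst_rs_congr hT e]

theorem measurable_pvstCE [SFinite μ] {K : ι → Set E} {T : Conf E → ι} (hT : PvstReg K T) {G : Conf E → ℝ≥0∞} (hG : Measurable G) :
    Measurable (pvstCE μ K T G) :=
  (hG.comp (measurable_pvstRs hT)).lintegral_prod_right'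

omit [Countable ι] in
theorem pvst_CP_eq_CE (μ : Measure (Conf E)) {K : ι → Set E} {T : Conf E → ι} (hK : ∀ i, MeasurableSet (K i))
    {B : Set (Conf E)} (hB : MeasurableSet B) (η : Conf E) :
    pvstCP μ K T B η = pvstCE μ K T (B.indicator 1) η := by
  unfold pvstCP pvstCE
  have m1 : Measurable fun η' => pvstRs K T η η' := (measurable_pvstMix (hK (T η))).comp measurable_prodMk_left
  have : (fun η' => B.indicator (1 : Conf E → ℝ≥0∞) (pvstRs K T η η')) = ({η' | pvstRs K T η η' ∈ B}).indicator 1 := by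
    funext η'; rfl
  rw [this]
  have h2 := lintegral_indicator_one (μ := μ) (m1 hB)
  exact h2.symm

theorem measurable_pvstCP [SFinite μ] {K : ι → Set E} {T : Conf E → ι} (hT : PvstReg K T) {B : Set (Conf E)} (hB : MeasurableSet B) :
    Measurable (pvstCP μ K T B) := by
  have : pvstCP μ K T B = pvstCE μ K T (B.indicator 1) := funext (pvst_CP_eq_CE μ hT.mK hB)
  rw [this]
  exact measurable_pvstCE hT (measurable_one.indicator hB)

/-- tower property -/
theorem pvst_lintegral (h : IsPpp m μ) {K : ι → Set E} {T : Conf E → ι} (hT : PvstReg K T)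
    {G : Conf E → ℝ≥0∞} (hG : Measurable G) : ∫⁻ η, pvstCE μ K T G η ∂μ = ∫⁻ η, G η ∂μ := by
  have := h.prob
  have h1 := pvst_fresh h hT (H := fun x => G x.1) (hG.comp measurable_fst)
  simp only [lintegral_const, measure_univ, mul_one] at h1
  exact h1

/-- **strong Markov property at a stopping set** -/
theorem pvst_smarkov (h : IsPpp m μ) {K : ι → Set E} {T : Conf E → ι} (hT : PvstReg K T)
    {F G : Conf E → ℝ≥0∞} (hF : PvstMeas K T F) (mF : Measurable F) (mG : Measurable G) :
    ∫⁻ η, F η * G η ∂μ = ∫⁻ η, F η * pvstCE μ K T G η ∂μ := by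
  have := h.prob
  have h0 := pvst_lintegral h hT (G := fun η => F η * G η) (mF.mul mG)
  rw [← h0]
  refine lintegral_congr fun η => ?_
  unfold pvstCE
  simp_rw [pvst_meas_rs hF]
  rw [lintegral_const_mul]
  exact mG.comp ((measurable_pvstMix (hT.mK (T η))).comp measurable_prodMk_left)

/-- strong Markov, probability form -/
theorem pvst_smarkov_P (h : IsPpp m μ) {K : ι → Set E} {T : Conf E → ι} (hT : PvstReg K T)
    {A B : Set (Conf E)} (hA : PvstMeas K T (· ∈ A)) (mA : MeasurableSet A) (mB : MeasurableSet B) :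
    μ (A ∩ B) = ∫⁻ η in A, pvstCP μ K T B η ∂μ := by
  classical
  have hF : PvstMeas K T (A.indicator (1 : Conf E → ℝ≥0∞)) := fun η η' e => by
    have := hA η η' e
    simp only [eq_iff_iff] at this
    simp only [Set.indicator_apply, this, Pi.one_apply]
  have h1 := pvst_smarkov h hT hF (measurable_one.indicator mA) (measurable_one.indicator mB)
  have e1 : (fun η => A.indicator (1 : Conf E → ℝ≥0∞) η * B.indicator 1 η) = (A ∩ B).indicator 1 := by
    funext η
    by_cases ha : η ∈ A <;> by_cases hb : η ∈ B <;> simp [ha, hb]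
  have e2 : (fun η => A.indicator (1 : Conf E → ℝ≥0∞) η * pvstCE μ K T (B.indicator 1) η)
      = A.indicator (pvstCP μ K T B) := by
    funext η
    rw [← pvst_CP_eq_CE μ hT.mK mB]
    by_cases ha : η ∈ A <;> simp [ha]
  rw [e1, e2, lintegral_indicator mA] at h1
  have h2 := lintegral_indicator_one (μ := μ) (mA.inter mB)
  rw [← h1]; exact h2.symm

theorem pvst_smarkov_le (h : IsPpp m μ) {K : ι → Set E} {T : Conf E → ι} (hT : PvstReg K T)
    {A B : Set (Conf E)} (hA : PvstMeas K T (· ∈ A)) (mA : MeasurableSet A) (mB : MeasurableSet B)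
    {c : ℝ≥0∞} (hc : ∀ η ∈ A, pvstCP μ K T B η ≤ c) : μ (A ∩ B) ≤ c * μ A := by
  rw [pvst_smarkov_P h hT hA mA mB]
  calc ∫⁻ η in A, pvstCP μ K T B η ∂μ ≤ ∫⁻ _ in A, c ∂μ := setLIntegral_mono measurable_const hc
    _ = c * μ A := by rw [setLIntegral_const]

theorem pvst_smarkov_ge (h : IsPpp m μ) {K : ι → Set E} {T : Conf E → ι} (hT : PvstReg K T)
    {A B : Set (Conf E)} (hA : PvstMeas K T (· ∈ A)) (mA : MeasurableSet A) (mB : MeasurableSet B)
    {c : ℝ≥0∞} (hc : ∀ η ∈ A, c ≤ pvstCP μ K T B η) : c * μ A ≤ μ (A ∩ B) := by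
  have := h.prob
  rw [pvst_smarkov_P h hT hA mA mB]
  calc c * μ A = ∫⁻ _ in A, c ∂μ := by rw [setLIntegral_const]
    _ ≤ ∫⁻ η in A, pvstCP μ K T B η ∂μ := setLIntegral_mono (measurable_pvstCP hT mB) hc

/-! ### Bochner integrals -/

section bochner

variable {X : Type*} [NormedAddCommGroup X] [NormedSpace ℝ X]

theorem pvst_integrable_rs (h : IsPpp m μ) {K : ι → Set E} {T : Conf E → ι} (hT : PvstReg K T)
    {G : Conf E → X} (hG : Integrable G μ) : Integrable (fun x : Conf E × Conf E => G (pvstRs K T x.1 x.2)) (μ.prod μ) := by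
  have e := pvst_splice h hT
  have : Integrable G ((μ.prod μ).map fun x => pvstRs K T x.1 x.2) := by rw [e]; exact hG
  exact this.comp_measurable (measurable_pvstRs hT)

/-- tower property, Bochner -/
theorem pvst_integral (h : IsPpp m μ) {K : ι → Set E} {T : Conf E → ι} (hT : PvstReg K T)
    {G : Conf E → X} (hG : Integrable G μ) : ∫ η, ∫ η', G (pvstRs K T η η') ∂μ ∂μ = ∫ η, G η ∂μ := by
  have := h.prob
  have e := pvst_splice h hT
  rw [← integral_prod _ (pvst_integrable_rs h hT hG)]
  have h2 : AEStronglyMeasurable G ((μ.prod μ).map fun x => pvstRs K T x.1 x.2) := by rw [e]; exact hG.1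
  rw [← integral_map (measurable_pvstRs hT).aemeasurable h2, e]

/-- **strong Markov property, Bochner** : `F` scalar read from the explored region -/
theorem pvst_smarkov_int {𝕜 : Type*} [RCLike 𝕜] [NormedSpace 𝕜 X] [SMulCommClass ℝ 𝕜 X]
    (h : IsPpp m μ) {K : ι → Set E} {T : Conf E → ι} (hT : PvstReg K T)
    {F : Conf E → 𝕜} {G : Conf E → X} (hF : PvstMeas K T F) (hFG : Integrable (fun η => F η • G η) μ) :
    ∫ η, F η • G η ∂μ = ∫ η, F η • ∫ η', G (pvstRs K T η η') ∂μ ∂μ := by
  rw [← pvst_integral h hT hFG]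
  refine integral_congr_ae (Eventually.of_forall fun η => ?_)
  simp only [pvst_meas_rs hF]
  rw [integral_smul]

theorem pvst_smarkov_mul {𝕜 : Type*} [RCLike 𝕜]
    (h : IsPpp m μ) {K : ι → Set E} {T : Conf E → ι} (hT : PvstReg K T)
    {F G : Conf E → 𝕜} (hF : PvstMeas K T F) (hFG : Integrable (fun η => F η * G η) μ) :
    ∫ η, F η * G η ∂μ = ∫ η, F η * ∫ η', G (pvstRs K T η η') ∂μ ∂μ :=
  pvst_smarkov_int (X := 𝕜) (𝕜 := 𝕜) h hT hF hFG

end bochner

/-! ## 4. explorations by recursion -/

omit [Countable ι] in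
/-- read from a smaller explored region => read from a larger one -/
theorem pvst_meas_mono {β : Sort*} {K : ι → Set E} {T T' : Conf E → ι} (hTT : ∀ η, K (T η) ⊆ K (T' η))
    {F : Conf E → β} (hF : PvstMeas K T F) : PvstMeas K T' F :=
  fun η η' e => hF η η' (pvst_restr_eq_mono (hTT η) e)

omit [Countable ι] in
/-- **one more step** : the next region is chosen from what has been seen -/
theorem pvst_iter {K : ι → Set E} {T : Conf E → ι} (hT : PvstStop K T) (Φ : ι → Conf E → ι)
    (hΦ : ∀ i ξ, K i ⊆ K (Φ i ξ)) : PvstStop K fun η => Φ (T η) (Conf.restr (K (T η)) η) :=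
  fun η η' e => pvst_meas_of hT Φ η η' (pvst_restr_eq_mono (hΦ _ _) e)

theorem pvst_iter_reg {K : ι → Set E} {T : Conf E → ι} (hT : PvstReg K T) (Φ : ι → Conf E → ι)
    (hΦ : ∀ i ξ, K i ⊆ K (Φ i ξ)) (mΦ : ∀ i j, MeasurableSet {η | Φ i (Conf.restr (K i) η) = j}) :
    PvstReg K fun η => Φ (T η) (Conf.restr (K (T η)) η) :=
  ⟨pvst_iter hT.stop Φ hΦ, hT.mK, fun j => by
    have : (fun η => Φ (T η) (Conf.restr (K (T η)) η)) ⁻¹' {j}
        = ⋃ i, (T ⁻¹' {i} ∩ {η | Φ i (Conf.restr (K i) η) = j}) := by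
      ext η
      simp only [mem_preimage, mem_singleton_iff, mem_iUnion, mem_inter_iff, mem_ofPred_eq]
      exact ⟨fun h => ⟨T η, rfl, h⟩, fun ⟨i, hi, h⟩ => by rw [hi]; exact h⟩
    rw [this]
    exact MeasurableSet.iUnion fun i => (hT.mT i).inter (mΦ i j)⟩

/-- the exploration started from the region `i0`, with the rule `Φ` -/
def pvstExp (K : ι → Set E) (Φ : ι → Conf E → ι) (i0 : ι) : ℕ → Conf E → ι
  | 0, _ => i0
  | n + 1, η => Φ (pvstExp K Φ i0 n η) (Conf.restr (K (pvstExp K Φ i0 n η)) η)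

omit [Countable ι] [MeasurableSpace E] in
theorem pvst_exp_zero (K : ι → Set E) (Φ : ι → Conf E → ι) (i0 : ι) (η : Conf E) : pvstExp K Φ i0 0 η = i0 := rfl

omit [Countable ι] [MeasurableSpace E] in
theorem pvst_exp_succ (K : ι → Set E) (Φ : ι → Conf E → ι) (i0 : ι) (n : ℕ) (η : Conf E) :
    pvstExp K Φ i0 (n + 1) η = Φ (pvstExp K Φ i0 n η) (Conf.restr (K (pvstExp K Φ i0 n η)) η) := rfl

omit [Countable ι] in
theorem pvst_exp_stop {K : ι → Set E} (Φ : ι → Conf E → ι) (hΦ : ∀ i ξ, K i ⊆ K (Φ i ξ)) (i0 : ι) (n : ℕ) :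
    PvstStop K (pvstExp K Φ i0 n) := by
  induction n with
  | zero => exact pvst_stop_const K i0
  | succ n ih => exact pvst_iter ih Φ hΦ

theorem pvst_exp_reg {K : ι → Set E} (hK : ∀ i, MeasurableSet (K i)) (Φ : ι → Conf E → ι) (hΦ : ∀ i ξ, K i ⊆ K (Φ i ξ))
    (mΦ : ∀ i j, MeasurableSet {η | Φ i (Conf.restr (K i) η) = j}) (i0 : ι) (n : ℕ) :
    PvstReg K (pvstExp K Φ i0 n) := by
  induction n with
  | zero => exact pvst_reg_const hK i0
  | succ n ih => exact pvst_iter_reg ih Φ hΦ mΦ

omit [Countable ι] [MeasurableSpace E] in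
theorem pvst_exp_mono {K : ι → Set E} (Φ : ι → Conf E → ι) (hΦ : ∀ i ξ, K i ⊆ K (Φ i ξ)) (i0 : ι) (η : Conf E)
    {n n' : ℕ} (hn : n ≤ n') : K (pvstExp K Φ i0 n η) ⊆ K (pvstExp K Φ i0 n' η) := by
  induction n', hn using Nat.le_induction with
  | base => exact Subset.rfl
  | succ k _ ih => exact ih.trans (hΦ _ _)

omit [Countable ι] [MeasurableSpace E] in
/-- once the rule does not move, the exploration is over -/
theorem pvst_exp_stable {K : ι → Set E} (Φ : ι → Conf E → ι) (i0 : ι) (η : Conf E) {n : ℕ}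
    (hn : pvstExp K Φ i0 (n + 1) η = pvstExp K Φ i0 n η) {n' : ℕ} (hn' : n ≤ n') :
    pvstExp K Φ i0 n' η = pvstExp K Φ i0 n η := by
  induction n', hn' using Nat.le_induction with
  | base => rfl
  | succ k _ ih => rw [pvst_exp_succ, ih]; exact hn

omit [Countable ι] in
/-- the limit of a stabilising increasing family of stopping sets is a stopping set -/
theorem pvst_lim_stop {K : ι → Set E} {T : ℕ → Conf E → ι} {Tl : Conf E → ι} (hT : ∀ n, PvstStop K (T n))
    (hsub : ∀ n η, K (T n η) ⊆ K (Tl η)) (hlim : ∀ η, ∃ N, ∀ n, N ≤ n → T n η = Tl η) : PvstStop K Tl := by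
  intro η η' e
  obtain ⟨N, hN⟩ := hlim η
  obtain ⟨N', hN'⟩ := hlim η'
  have h1 := hT (max N N') η η' (pvst_restr_eq_mono (hsub _ _) e)
  rw [hN _ (le_max_left _ _), hN' _ (le_max_right _ _)] at h1
  exact h1

theorem pvst_lim_reg {K : ι → Set E} {T : ℕ → Conf E → ι} {Tl : Conf E → ι} (hT : ∀ n, PvstReg K (T n))
    (hsub : ∀ n η, K (T n η) ⊆ K (Tl η)) (hlim : ∀ η, ∃ N, ∀ n, N ≤ n → T n η = Tl η) : PvstReg K Tl :=
  ⟨pvst_lim_stop (fun n => (hT n).stop) hsub hlim, (hT 0).mK, fun i => by
    have : Tl ⁻¹' {i} = ⋃ N, ⋂ n, ⋂ (_ : N ≤ n), T n ⁻¹' {i} := by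
      ext η
      simp only [mem_preimage, mem_singleton_iff, mem_iUnion, mem_iInter]
      constructor
      · intro h
        obtain ⟨N, hN⟩ := hlim η
        exact ⟨N, fun n hn => (hN n hn).trans h⟩
      · rintro ⟨N, hN⟩
        obtain ⟨N', hN'⟩ := hlim η
        rw [← hN' _ (le_max_right N N')]
        exact hN _ (le_max_left _ _)
    rw [this]
    exact MeasurableSet.iUnion fun N => MeasurableSet.iInter fun n => MeasurableSet.iInter fun _ => (hT n).mT i⟩

/-! ## 5. windows : conditional independence off the explored region -/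

/-- `G` is read from the (deterministic) window `O` -/
def PvstWin {β : Sort*} (O : Set E) (G : Conf E → β) : Prop :=
  ∀ η η', Conf.restr O η' = Conf.restr O η → G η' = G η

omit [MeasurableSpace E] in
theorem pvst_win_restr {β : Sort*} {O : Set E} {G : Conf E → β} (hG : PvstWin O G) (η : Conf E) : G (Conf.restr O η) = G η :=
  hG η _ (pvst_restr_idem O η)

omit [MeasurableSpace E] in
theorem pvst_win_mono {β : Sort*} {O O' : Set E} (h : O ⊆ O') {G : Conf E → β} (hG : PvstWin O G) : PvstWin O' G :=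
  fun η η' e => hG η η' (pvst_restr_eq_mono h e)

omit [MeasurableSpace E] in
theorem pvst_win_of {β : Sort*} (O : Set E) (g : Conf E → β) : PvstWin O fun η => g (Conf.restr O η) :=
  fun η η' e => by show g (Conf.restr O η') = g (Conf.restr O η); rw [e]

omit [Countable ι] in
/-- read from a window inside the explored region => read from the explored region -/
theorem pvst_meas_of_win {β : Sort*} {K : ι → Set E} {T : Conf E → ι} {O : Set E} (hO : ∀ η, O ⊆ K (T η))
    {G : Conf E → β} (hG : PvstWin O G) : PvstMeas K T G :=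
  fun η η' e => hG η η' (pvst_restr_eq_mono (hO η) e)

/-- restrictions to two disjoint windows are independent -/
theorem pvst_indep2 (h : IsPpp m μ) {O₁ O₂ : Set E} (h1 : MeasurableSet O₁) (h2 : MeasurableSet O₂) (hd : Disjoint O₁ O₂) :
    IndepFun (Conf.restr O₁) (Conf.restr O₂) μ := by
  have h0 := (h.indep h1).comp (φ := id) (ψ := Conf.restr O₂) measurable_id (Conf.measurable_restr h2)
  have e : Conf.restr O₂ ∘ Conf.restr O₁ᶜ = (Conf.restr O₂ : Conf E → Conf E) := by
    funext η
    show Conf.restr O₂ (Conf.restr O₁ᶜ η) = _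
    rw [pvst_restr_restr]
    congr 1
    exact inter_eq_right.2 fun p hp hp1 => Set.disjoint_left.1 hd hp1 hp
  rw [e] at h0
  exact h0

/-- product formula for two disjoint windows -/
theorem pvst_win_mul (h : IsPpp m μ) {O₁ O₂ : Set E} (h1 : MeasurableSet O₁) (h2 : MeasurableSet O₂) (hd : Disjoint O₁ O₂)
    {G₁ G₂ : Conf E → ℝ≥0∞} (w1 : PvstWin O₁ G₁) (w2 : PvstWin O₂ G₂) (m1 : Measurable G₁) (m2 : Measurable G₂) :
    ∫⁻ η, G₁ η * G₂ η ∂μ = (∫⁻ η, G₁ η ∂μ) * ∫⁻ η, G₂ η ∂μ := by
  have hi := (pvst_indep2 h h1 h2 hd).comp m1 m2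
  have e1 : G₁ ∘ Conf.restr O₁ = G₁ := funext fun η => pvst_win_restr w1 η
  have e2 : G₂ ∘ Conf.restr O₂ = G₂ := funext fun η => pvst_win_restr w2 η
  rw [e1, e2] at hi
  exact lintegral_mul_eq_lintegral_mul_lintegral_of_indepFun m1 m2 hi

omit [Countable ι] in
/-- **conditional independence** : given the exploration, two functions read from the explored region together with two disjoint
fresh windows are independent -/
theorem pvst_CE_mul (h : IsPpp m μ) {K : ι → Set E} {T : Conf E → ι} (hK : ∀ i, MeasurableSet (K i)) (η : Conf E)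
    {O₁ O₂ : Set E} (h1 : MeasurableSet O₁) (h2 : MeasurableSet O₂) (hd : Disjoint O₁ O₂)
    {G₁ G₂ : Conf E → ℝ≥0∞} (w1 : PvstWin (K (T η) ∪ O₁) G₁) (w2 : PvstWin (K (T η) ∪ O₂) G₂)
    (m1 : Measurable G₁) (m2 : Measurable G₂) :
    pvstCE μ K T (fun ξ => G₁ ξ * G₂ ξ) η = pvstCE μ K T G₁ η * pvstCE μ K T G₂ η := by
  unfold pvstCE
  have mm : Measurable fun η' => pvstRs K T η η' := (measurable_pvstMix (hK (T η))).comp measurable_prodMk_left
  have key : ∀ (O : Set E) (G : Conf E → ℝ≥0∞), PvstWin (K (T η) ∪ O) G → PvstWin O fun η' => G (pvstRs K T η η') := by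
    intro O G w ξ ξ' e
    refine w _ _ (pvst_restr_eq_iff.2 fun p hp => ?_)
    have e' := pvst_restr_eq_iff.1 e p
    simp only [pvstRs, pvst_mem_mix]
    by_cases hpK : p ∈ K (T η)
    · simp [hpK]
    · have hpO : p ∈ O := hp.resolve_left hpK
      simp [hpK, e' hpO]
  exact pvst_win_mul h h1 h2 hd (key O₁ G₁ w1) (key O₂ G₂ w2) (m1.comp mm) (m2.comp mm)

/-! ## 6. regions made of grid boxes -/

section grid

variable {κ : Type*}

/-- the union of the boxes of index in `S` (`ix` = index of the box of a point) -/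
def pvstGr (ix : E → κ) (S : Finset κ) : Set E := {p | ix p ∈ S}

/-- the complement of the union of the boxes of index in `S` (explored region = everything but the plug `S`) -/
def pvstGc (ix : E → κ) (S : Finset κ) : Set E := {p | ix p ∉ S}

omit [MeasurableSpace E] in
theorem pvst_gr_mono (ix : E → κ) {S S' : Finset κ} (h : S ⊆ S') : pvstGr ix S ⊆ pvstGr ix S' := fun _ hp => h hp

omit [MeasurableSpace E] in
theorem pvst_gc_anti (ix : E → κ) {S S' : Finset κ} (h : S ⊆ S') : pvstGc ix S' ⊆ pvstGc ix S := fun _ hp hp' => hp (h hp')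

omit [MeasurableSpace E] in
theorem pvst_gc_eq (ix : E → κ) (S : Finset κ) : pvstGc ix S = (pvstGr ix S)ᶜ := rfl

omit [MeasurableSpace E] in
theorem pvst_gr_union [DecidableEq κ] (ix : E → κ) (S S' : Finset κ) : pvstGr ix (S ∪ S') = pvstGr ix S ∪ pvstGr ix S' := by
  ext p; simp [pvstGr]

omit [MeasurableSpace E] in
theorem pvst_gr_disj (ix : E → κ) {S S' : Finset κ} (h : Disjoint S S') : Disjoint (pvstGr ix S) (pvstGr ix S') :=
  Set.disjoint_left.2 fun _ hp hp' => Finset.disjoint_left.1 h hp hp'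

theorem measurableSet_pvstGr {ix : E → κ} (hix : ∀ k, MeasurableSet (ix ⁻¹' {k})) (S : Finset κ) : MeasurableSet (pvstGr ix S) := by
  have : pvstGr ix S = ⋃ k ∈ S, ix ⁻¹' {k} := by
    ext p; simp [pvstGr]
  rw [this]
  exact Finset.measurableSet_biUnion S fun k _ => hix k

theorem measurableSet_pvstGc {ix : E → κ} (hix : ∀ k, MeasurableSet (ix ⁻¹' {k})) (S : Finset κ) : MeasurableSet (pvstGc ix S) :=
  (measurableSet_pvstGr hix S).compl

end grid

/-- index of the `δ`-box of a coloured point -/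
noncomputable def pvstIx (δ : ℝ) (p : PvPt) : ℤ × ℤ := (⌊p.1.re / δ⌋, ⌊p.1.im / δ⌋)

theorem measurable_pvstIx (δ : ℝ) : Measurable (pvstIx δ) := by
  unfold pvstIx
  refine Measurable.prodMk ?_ ?_
  · exact Int.measurable_floor.comp ((Complex.measurable_re.comp measurable_fst).div_const δ)
  · exact Int.measurable_floor.comp ((Complex.measurable_im.comp measurable_fst).div_const δ)

theorem measurableSet_pvstIx (δ : ℝ) (k : ℤ × ℤ) : MeasurableSet (pvstIx δ ⁻¹' {k}) :=
  measurable_pvstIx δ (measurableSet_singleton k)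

end Claimed.Agent.R289
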